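import Vale.Agent.P218W.Ops

/-! Functional calculus on `W r`: inverse, exponential, powers of `1 + x`. -/

open Set Complex Filter Topology MeasureTheory FormalMultilinearSeries
open scoped Real

noncomputable section

namespace Vale.Agent.P218W

variable {s t : Set ℝ} {F G : ℝ × ℝ → ℂ} {ω : ℝ → ℝ} {M N : ℝ} {r : ℝ → ℝ}

/-- power series without constant term, coefficients of modulus at most one -/
theorem Le.series (h : Le s F ω M) (hw : ∀ z ∈ s, ω z ≤ 1) (hM : M ≤ 1 / 2) {c : ℕ → ℂ}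
    (hc : ∀ n, ‖c n‖ ≤ 1) (e : ∀ z ∈ s, ∀ θ, HasSum (fun n => c n * F (z, θ) ^ (n + 1)) (G (z, θ))) :
    Le s G ω (2 * M) := by
  have M0 := h.M0
  refine le_tsum (f := fun n p => c n * F p ^ (n + 1)) (m := fun n => M * (1 / 2) ^ n) (fun n => ?_)
    (by simpa [mul_comm] using hasSum_geometric_two.mul_left M) e
  refine ((h.pow n).cmul (c n)).mono subset_rfl (fun z hz => ?_) ?_
  · exact pow_le_of_le_one (h.w0 z hz) (hw z hz) n.succ_ne_zero
  · rw [pow_succ']
    exact (mul_le_of_le_one_left (by positivity) (hc n)).trans (by gcongr)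

theorem norm_choose_le {a : ℂ} (ha : ‖a‖ ≤ 1) (n : ℕ) : ‖Ring.choose a n‖ ≤ 1 := by
  have : ‖(descPochhammer ℤ n).smeval a‖ ≤ n.factorial := by
    induction n with
    | zero => simp
    | succ n ih =>
      rw [descPochhammer_succ_right, Polynomial.smeval_mul, norm_mul, Nat.factorial_succ,
        Polynomial.smeval_sub, Polynomial.smeval_X, Polynomial.smeval_natCast, mul_comm]
      push_cast
      refine mul_le_mul ((norm_sub_le _ _).trans ?_) ih (norm_nonneg _) (by positivity)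
      simp; linarith
  rw [Ring.descPochhammer_eq_factorial_smul_choose, nsmul_eq_mul, norm_mul,
    Complex.norm_natCast] at this
  exact (mul_le_iff_le_one_right (by positivity)).1 this

theorem hasSum_cpow (a : ℂ) {x : ℂ} (hx : ‖x‖ < 1) :
    HasSum (fun n => Ring.choose a n * x ^ n) ((1 + x) ^ a) := by
  have := (one_add_cpow_hasFPowerSeriesOnBall_zero (a := a)).hasSum (y := x)
    (by simpa [← ofReal_norm, ENNReal.ofReal_lt_one] using hx)
  simpa [binomialSeries, mul_comm] using this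

theorem Le.cpow (h : Le s F ω M) (hw : ∀ z ∈ s, ω z ≤ 1) (hM : M ≤ 1 / 2) {a : ℂ} (ha : ‖a‖ ≤ 1) :
    Le s (fun p => (1 + F p) ^ a - 1) ω (2 * M) :=
  h.series hw hM (fun n => norm_choose_le ha (n + 1)) fun z hz θ => by
    have := (hasSum_nat_add_iff' 1).2 (hasSum_cpow a (x := F (z, θ)) ((h.apply hz θ).trans_lt
      (by nlinarith [hw z hz, h.M0])))
    simpa using this

theorem Le.cexp (h : Le s F ω M) (hw : ∀ z ∈ s, ω z ≤ 1) (hM : M ≤ 1 / 2) :
    Le s (fun p => cexp (F p) - 1) ω (2 * M) :=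
  h.series hw hM (c := fun n => ((n + 1).factorial : ℂ)⁻¹) (fun n => by
    rw [norm_inv, Complex.norm_natCast]
    exact inv_le_one_of_one_le₀ (by exact_mod_cast Nat.factorial_pos _)) fun z hz θ => by
    have := (hasSum_nat_add_iff' 1).2 (NormedSpace.exp_series_hasSum_exp' (𝕂 := ℂ) (F (z, θ)))
    simpa [Complex.exp_eq_exp_ℂ] using this

namespace W

variable {x y : W r}

theorem inverse_apply (h : IsUnit x) (p : ℝ × ℝ) : Ring.inverse x p = (x p)⁻¹ :=
  eq_inv_of_mul_eq_one_left (by simpa using congrArg (ev p) (Ring.inverse_mul_cancel x h))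

theorem ne_zero_of_isUnit (h : IsUnit x) (p : ℝ × ℝ) : x p ≠ 0 := (h.map (ev p)).ne_zero

theorem analyticAt_inverse (h : IsUnit x) : AnalyticAt ℂ Ring.inverse x :=
  analyticOnNhd_inverse _ h

theorem exp_apply (x : W r) (p : ℝ × ℝ) : NormedSpace.exp x p = cexp (x p) := by
  rw [Complex.exp_eq_exp_ℂ]
  exact NormedSpace.map_exp_of_mem_ball (𝕂 := ℂ) (ev p) (ev p).cont x
    ((NormedSpace.expSeries_radius_eq_top ℂ (W r)).symm ▸ edist_lt_top _ _)

theorem analyticAt_exp (x : W r) : AnalyticAt ℂ NormedSpace.exp x := NormedSpace.exp_analytic x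

/-- `(1 + x) ^ a` -/
def pw (a : ℂ) : W r → W r := ofScalarsSum (Ring.choose a)

theorem radius_pw {a : ℂ} (ha : ‖a‖ ≤ 1) : 1 ≤ (ofScalars (W r) (Ring.choose a)).radius := by
  refine le_radius_of_bound _ (max 1 ‖ofScalars (W r) (Ring.choose a) 0‖) (r := 1) fun n => ?_
  rcases n.eq_zero_or_pos with rfl | h
  · simp
  · rw [NNReal.coe_one, one_pow, mul_one]
    exact le_max_of_le_left ((ofScalars_norm_le _ _ _ h).trans (norm_choose_le ha n))

theorem mem_pw {a : ℂ} (ha : ‖a‖ ≤ 1) (hx : ‖x‖ < 1) :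
    x ∈ Metric.eball 0 (ofScalars (W r) (Ring.choose a)).radius :=
  Metric.eball_subset_eball (radius_pw ha)
    (by simpa [← ofReal_norm, ENNReal.ofReal_lt_one] using hx)

theorem analyticAt_pw {a : ℂ} (ha : ‖a‖ ≤ 1) (hx : ‖x‖ < 1) : AnalyticAt ℂ (pw a) x :=
  (FormalMultilinearSeries.hasFPowerSeriesOnBall _
    (zero_lt_one.trans_le (radius_pw ha))).analyticAt_of_mem (mem_pw ha hx)

theorem pw_apply {a : ℂ} (ha : ‖a‖ ≤ 1) (hx : ‖x‖ < 1) (p : ℝ × ℝ) :
    pw a x p = (1 + x p) ^ a := by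
  have := ((ofScalars (W r) (Ring.choose a)).hasSum (mem_pw ha hx)).map (ev p) (ev p).cont
  refine HasSum.unique ?_ (hasSum_cpow a ((x.apply_le p).trans_lt (by linarith)))
  simpa [Function.comp_def, ofScalars_apply_eq, pw, ofScalarsSum] using this

end W

theorem Ret.isUnit (h : Ret s r) {x : W r} (ne : ∀ z ∈ s, ∀ θ, x (z, θ) ≠ 0)
    (b : Le s (fun p => (x p)⁻¹) (fun _ => 1) M) : IsUnit x :=
  IsUnit.of_mul_eq_one (h.mk' _ (x.cont.continuousOn.inv₀ fun p hp => ne p.1 hp.1 p.2) ⟨_, b⟩)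
    (h.ext fun z hz θ => by
      rw [W.mul_apply, h.mk'_apply _ _ _ hz]; exact mul_inv_cancel₀ (ne z hz θ))

/-- a perturbation of a function of `z` which is bounded below is a unit -/
theorem Ret.isUnit_of_le (h : Ret s r) {x : W r} {ρ : ℝ → ℂ} {δ : ℝ} (hδ : 0 < δ)
    (lo : ∀ z ∈ s, δ ≤ ‖ρ z‖) (b : Le s (fun p => x p - ρ p.1) (fun z => ‖ρ z‖) M)
    (hM : M ≤ 1 / 2) : IsUnit x := by
  have n0 : ∀ z ∈ s, ρ z ≠ 0 := fun z hz => norm_pos_iff.1 (hδ.trans_le (lo z hz))
  refine h.isUnit (fun z hz θ e => ?_) ((((b.inv_add hM n0).2.wt (C := δ⁻¹) (by positivity)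
    (by simp) fun z hz => ?_)).congr fun z _ θ => by simp)
  · have := b.apply hz θ
    simp only [e, zero_sub, norm_neg] at this
    nlinarith [lo z hz]
  · simpa using inv_anti₀ hδ (lo z hz)

end Vale.Agent.P218W
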