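import Vale.Agent.P218W.Ops
import Vale.Agent.P218M.Spec

/-! Two-jets `(u, u_θ, u_θθ, u_z, u_zθ, u_zz)`: functions, modes, closed subspaces of `W⁶`. -/

open Set Complex Filter Topology MeasureTheory
open scoped Real

noncomputable section

namespace Vale.Agent.P218W

open Vale.Agent.P218M

variable {s t U : Set ℝ} {F G A B A' B' : ℝ × ℝ → ℂ} {M : ℝ} {r : ℝ → ℝ}

/-- the linear map `(x, y) ↦ x a + y b` -/
def DD (a b : ℂ) : ℝ × ℝ →L[ℝ] ℂ :=
  (ContinuousLinearMap.fst ℝ ℝ ℝ).smulRight a + (ContinuousLinearMap.snd ℝ ℝ ℝ).smulRight b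

@[simp] theorem DD_apply (a b : ℂ) (v : ℝ × ℝ) : DD a b v = v.1 * a + v.2 * b := by simp [DD]

theorem DD_ext {L : ℝ × ℝ →L[ℝ] ℂ} {a b : ℂ} (h : ∀ v, L v = v.1 * a + v.2 * b) : L = DD a b :=
  ContinuousLinearMap.ext fun v => (h v).trans (DD_apply a b v).symm

theorem norm_DD (a b : ℂ) : ‖DD a b‖ ≤ ‖a‖ + ‖b‖ :=
  ContinuousLinearMap.opNorm_le_bound _ (by positivity) fun v => by
    rw [DD_apply, add_mul, mul_comm ‖a‖, mul_comm ‖b‖]
    refine norm_add_le_of_le ?_ ?_ <;> rw [norm_mul, Complex.norm_real] <;> gcongr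
    exacts [norm_fst_le v, norm_snd_le v]

theorem DD_sub (a b c d : ℂ) : DD a b - DD c d = DD (a - c) (b - d) :=
  DD_ext fun v => by simp; ring

/-- `DD` as a continuous linear map -/
def DL : ℂ × ℂ →L[ℝ] ℝ × ℝ →L[ℝ] ℂ :=
  (ContinuousLinearMap.smulRightL ℝ _ ℂ (.fst ℝ ℝ ℝ)).coprod
    (ContinuousLinearMap.smulRightL ℝ _ ℂ (.snd ℝ ℝ ℝ))

theorem DL_apply (a b : ℂ) : DL (a, b) = DD a b := rfl

/-- `A = F_z` and `B = F_θ` over `U` -/
def Der (U : Set ℝ) (F A B : ℝ × ℝ → ℂ) : Prop :=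
  ∀ p : ℝ × ℝ, p.1 ∈ U → HasFDerivAt F (DD (A p) (B p)) p

namespace Der

theorem mono (h : Der U F A B) (e : t ⊆ U) : Der t F A B := fun p hp => h p (e hp)

theorem dz (h : Der U F A B) {z : ℝ} (hz : z ∈ U) (θ : ℝ) :
    HasDerivAt (fun z => F (z, θ)) (A (z, θ)) z := by
  simpa [Function.comp_def] using (h (z, θ) hz).comp_hasDerivAt z
    ((hasDerivAt_id z).prodMk (hasDerivAt_const z θ))

theorem dt (h : Der U F A B) {z : ℝ} (hz : z ∈ U) (θ : ℝ) :
    HasDerivAt (fun θ => F (z, θ)) (B (z, θ)) θ := by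
  simpa [Function.comp_def] using (h (z, θ) hz).comp_hasDerivAt θ
    ((hasDerivAt_const θ z).prodMk (hasDerivAt_id θ))

theorem congr (h : Der U F A B) (hU : IsOpen U) (e : ∀ z ∈ U, ∀ θ, G (z, θ) = F (z, θ))
    (eA : ∀ z ∈ U, ∀ θ, A' (z, θ) = A (z, θ)) (eB : ∀ z ∈ U, ∀ θ, B' (z, θ) = B (z, θ)) :
    Der U G A' B' := fun p hp => by
  rw [eA p.1 hp p.2, eB p.1 hp p.2]
  exact (h p hp).congr_of_eventuallyEq (mem_of_superset
    ((hU.preimage continuous_fst).mem_nhds hp) fun q hq => e q.1 hq q.2)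

theorem add (h : Der U F A B) (k : Der U G A' B') :
    Der U (fun p => F p + G p) (fun p => A p + A' p) fun p => B p + B' p := fun p hp =>
  ((h p hp).add (k p hp)).congr_fderiv (DD_ext fun v => by simp; ring)

theorem mul (h : Der U F A B) (k : Der U G A' B') : Der U (fun p => F p * G p)
    (fun p => A p * G p + F p * A' p) fun p => B p * G p + F p * B' p := fun p hp =>
  ((h p hp).mul (k p hp)).congr_fderiv (DD_ext fun v => by simp; ring)

theorem cmul (h : Der U F A B) (c : ℂ) :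
    Der U (fun p => c * F p) (fun p => c * A p) fun p => c * B p := fun p hp =>
  ((h p hp).const_mul c).congr_fderiv (DD_ext fun v => by simp; ring)

theorem conj (h : Der U F A B) : Der U (fun p => (starRingEnd ℂ) (F p))
    (fun p => (starRingEnd ℂ) (A p)) fun p => (starRingEnd ℂ) (B p) := fun p hp =>
  (Complex.conjCLE.hasFDerivAt.comp p (h p hp)).congr_fderiv (DD_ext fun v => by simp)

theorem co_t (h : Der U F A B) (hF : Adm U F) (hB : Adm U B) (k : ℤ) {z : ℝ} (hz : z ∈ U) :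
    co B k z = k * I * co F k z :=
  c1_deriv (h.dt hz) (hB z hz).1 (by simpa using (hF z hz).2 0) k

theorem co_z (h : Der U F A B) (hU : IsOpen U) (hF : Adm U F) (hA : ContinuousOn A (U ×ˢ univ))
    (k : ℤ) {z : ℝ} (hz : z ∈ U) : HasDerivAt (co F k) (co A k z) z := by
  obtain ⟨ε, hε, e⟩ := Metric.nhds_basis_closedBall.mem_iff.1 (hU.mem_nhds hz)
  obtain ⟨C, hC⟩ := ((isCompact_closedBall z ε).prod (isCompact_uIcc (a := 0) (b := 2 * π))
    ).exists_bound_of_continuousOn (hA.mono (prod_mono e (subset_univ _)))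
  have cA : Continuous fun θ => A (z, θ) :=
    hA.comp_continuous (by fun_prop) fun _ => ⟨hz, trivial⟩
  refine (intervalIntegral.hasDerivAt_integral_of_dominated_loc_of_deriv_le
    (F := fun z θ => ex (-k) θ * F (z, θ)) (F' := fun z θ => ex (-k) θ * A (z, θ))
    (bound := fun _ => C) (Metric.closedBall_mem_nhds z hε)
    (mem_of_superset (hU.mem_nhds hz) fun y hy =>
      ((cont_ex _).mul (hF y hy).1).aestronglyMeasurable)
    (((cont_ex _).mul (hF z hz).1).intervalIntegrable _ _)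
    ((cont_ex _).mul cA).aestronglyMeasurable (.of_forall fun θ hθ y hy => ?_)
    intervalIntegrable_const (.of_forall fun θ _ y hy => (h.dz (e hy) θ).const_mul _)).2.const_mul _
  simpa using hC (y, θ) ⟨hy, uIoc_subset_uIcc hθ⟩

theorem contDiffAt {n : ℕ} (h : Der U F A B) (hU : IsOpen U) {p : ℝ × ℝ} (hp : p.1 ∈ U)
    (hA : ContDiffAt ℝ n A p) (hB : ContDiffAt ℝ n B p) : ContDiffAt ℝ (n + 1) F p :=
  contDiffAt_succ_iff_hasFDerivAt.2 ⟨_, ⟨_, (hU.preimage continuous_fst).mem_nhds hp, h⟩,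
    DL.contDiff.contDiffAt.comp p (hA.prodMk hB)⟩

end Der

theorem der_z {φ φ' : ℝ → ℂ} (h : ∀ z ∈ U, HasDerivAt φ (φ' z) z) :
    Der U (fun p => φ p.1) (fun p => φ' p.1) fun _ => 0 := fun p hp =>
  ((h p.1 hp).hasFDerivAt.comp p hasFDerivAt_fst).congr_fderiv (DD_ext fun v => by simp)

theorem der_t {φ φ' : ℝ → ℂ} (h : ∀ θ, HasDerivAt φ (φ' θ) θ) :
    Der U (fun p => φ p.2) (fun _ => 0) fun p => φ' p.2 := fun p _ =>
  ((h p.2).hasFDerivAt.comp p hasFDerivAt_snd).congr_fderiv (DD_ext fun v => by simp)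

/-- locally in `W` -/
def Loc (U : Set ℝ) (F : ℝ × ℝ → ℂ) : Prop :=
  ∀ z ∈ U, ∃ ε > 0, ∃ M, Le (Metric.ball z ε) F (fun _ => 1) M

theorem Le.loc {ω : ℝ → ℝ} (h : Le s F ω M) (c : ContinuousOn ω s) : Loc (interior s) F := by
  intro z hz
  obtain ⟨ε, hε, e⟩ := Metric.nhds_basis_closedBall.mem_iff.1 (mem_interior_iff_mem_nhds.1 hz)
  obtain ⟨C, hC⟩ := (isCompact_closedBall z ε).exists_bound_of_continuousOn (c.mono e)
  exact ⟨ε, hε, _, (h.mono (Metric.ball_subset_closedBall.trans e) (fun _ _ => le_rfl) le_rfl).wt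
    ((norm_nonneg _).trans (hC z (Metric.mem_closedBall_self hε.le))) (by simp) fun y hy => by
      simpa using (le_abs_self _).trans (hC y (Metric.ball_subset_closedBall hy))⟩

/-- derivatives of the modes give derivatives of the function -/
theorem der_of_modes (hU : IsOpen U) (hF : Loc U F) (hA : Loc U A) (hB : Loc U B)
    (dz : ∀ k, ∀ z ∈ U, HasDerivAt (co F k) (co A k z) z)
    (dt : ∀ k, ∀ z ∈ U, co B k z = k * I * co F k z) : Der U F A B := by
  intro p hp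
  obtain ⟨ε₀, h₀, e₀⟩ := Metric.isOpen_iff.1 hU _ hp
  obtain ⟨ε₁, h₁, _, l₁⟩ := hF _ hp
  obtain ⟨ε₂, h₂, _, l₂⟩ := hA _ hp
  obtain ⟨ε₃, h₃, _, l₃⟩ := hB _ hp
  obtain ⟨a, ha, ea⟩ := l₂.ex
  obtain ⟨b, hb, eb⟩ := l₃.ex
  let V := Metric.ball p.1 (min (min ε₀ ε₁) (min ε₂ ε₃))
  have hV : ∀ q : ℝ × ℝ, q ∈ V ×ˢ univ → q.1 ∈ U ∧ q.1 ∈ Metric.ball p.1 ε₁ ∧
      q.1 ∈ Metric.ball p.1 ε₂ ∧ q.1 ∈ Metric.ball p.1 ε₃ := fun q hq => by
    have := hq.1
    simp only [V, Metric.mem_ball, lt_min_iff] at this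
    exact ⟨e₀ this.1.1, this.1.2, this.2⟩
  have pV : p ∈ V ×ˢ (univ : Set ℝ) := ⟨Metric.mem_ball_self (by positivity), trivial⟩
  have oV : IsOpen (V ×ˢ (univ : Set ℝ)) := Metric.isOpen_ball.prod isOpen_univ
  have d : ∀ k (q : ℝ × ℝ), q ∈ V ×ˢ univ → HasFDerivAt (fun q : ℝ × ℝ => co F k q.1 * ex k q.2)
      (DD (co A k q.1 * ex k q.2) (co B k q.1 * ex k q.2)) q := fun k q hq => by
    refine (((der_z (dz k)).mul (der_t (hasDerivAt_ex k))) q (hV q hq).1).congr_fderiv ?_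
    rw [dt k _ (hV q hq).1]; congr 1 <;> ring
  have n : ∀ k (q : ℝ × ℝ), q ∈ V ×ˢ univ →
      ‖DD (co A k q.1 * ex k q.2) (co B k q.1 * ex k q.2)‖ ≤ a k + b k := fun k q hq =>
    (norm_DD _ _).trans (by
      simpa using add_le_add (ea k _ (hV q hq).2.2.1) (eb k _ (hV q hq).2.2.2))
  have sF : ∀ q : ℝ × ℝ, q ∈ V ×ˢ univ → HasSum (fun k => co F k q.1 * ex k q.2) (F q) :=
    fun q hq => l₁.hasSum (hV q hq).2.1 q.2
  have sA : HasSum (fun k => co A k p.1 * ex k p.2) (A p) := l₂.hasSum (hV p pV).2.2.1 p.2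
  have sB : HasSum (fun k => co B k p.1 * ex k p.2) (B p) := l₃.hasSum (hV p pV).2.2.2 p.2
  have := hasFDerivAt_tsum_of_isPreconnected (ha.summable.add hb.summable) oV
    ((convex_ball _ _).prod convex_univ).isPreconnected d n pV (sF p pV).summable pV
  refine (this.congr_of_eventuallyEq (mem_of_superset (oV.mem_nhds pV) fun q hq =>
    (sF q hq).tsum_eq.symm)).congr_fderiv (HasSum.tsum_eq ?_)
  simpa only [DL_apply] using DL.hasSum (sA.prodMk sB)

/-- `u = (u, u_θ, u_θθ, u_z, u_zθ, u_zz)` over the interior of `s` -/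
structure Jet (s : Set ℝ) (u : Fin 6 → ℝ × ℝ → ℂ) : Prop where
  d0 : Der (interior s) (u 0) (u 3) (u 1)
  d1 : Der (interior s) (u 1) (u 4) (u 2)
  d3 : Der (interior s) (u 3) (u 5) (u 4)

/-- the same in terms of the modes -/
structure MJ (s : Set ℝ) (u : Fin 6 → ℝ × ℝ → ℂ) : Prop where
  d : ∀ k, D2 (interior s) (co (u 0) k) (co (u 3) k) (co (u 5) k)
  t1 : ∀ k, ∀ z ∈ s, co (u 1) k z = k * I * co (u 0) k z
  t2 : ∀ k, ∀ z ∈ s, co (u 2) k z = k * I * co (u 1) k z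
  t4 : ∀ k, ∀ z ∈ s, co (u 4) k z = k * I * co (u 3) k z

variable {u v : Fin 6 → ℝ × ℝ → ℂ}

theorem Adm.mono (h : Adm s F) (e : t ⊆ s) : Adm t F := fun z hz => h z (e hz)

theorem Jet.mj (h : Jet s u) (hs : s ⊆ closure (interior s)) (a : ∀ i, Adm s (u i))
    (c : ∀ i, ContinuousOn (u i) (s ×ˢ univ)) : MJ s u := by
  have a' := fun i => (a i).mono interior_subset
  have c' := fun i => (c i).mono (prod_mono interior_subset subset_rfl)
  have key : ∀ {i j l}, Der (interior s) (u i) (u l) (u j) → ∀ k, ∀ z ∈ s,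
      co (u j) k z = k * I * co (u i) k z := fun {i j l} d k =>
    EqOn.of_subset_closure (fun z hz => d.co_t (a' i) (a' j) k hz) (contOn_co (c j) k)
      (continuousOn_const.mul (contOn_co (c i) k)) interior_subset hs
  exact ⟨fun k z hz => ⟨h.d0.co_z isOpen_interior (a' 0) (c' 3) k hz,
    h.d3.co_z isOpen_interior (a' 3) (c' 5) k hz⟩, key h.d0, key h.d1, key h.d3⟩

theorem MJ.jet (h : MJ s u) (l : ∀ i, Loc (interior s) (u i)) : Jet s u :=
  ⟨der_of_modes isOpen_interior (l 0) (l 3) (l 1) (fun k z hz => (h.d k z hz).1)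
      fun k z hz => h.t1 k z (interior_subset hz),
    der_of_modes isOpen_interior (l 1) (l 4) (l 2) (fun k z hz =>
      (((h.d k z hz).1.const_mul (k * I)).congr_of_eventuallyEq (mem_of_superset
        (mem_interior_iff_mem_nhds.1 hz) (h.t1 k))).congr_deriv
          (h.t4 k z (interior_subset hz)).symm) fun k z hz => h.t2 k z (interior_subset hz),
    der_of_modes isOpen_interior (l 3) (l 5) (l 4) (fun k z hz => (h.d k z hz).2)
      fun k z hz => h.t4 k z (interior_subset hz)⟩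

theorem MJ.j2 (h : MJ s u) (c : ∀ i, ContinuousOn (u i) (s ×ˢ univ)) (k : ℤ) :
    J2 s (co (u 0) k) (co (u 3) k) (co (u 5) k) :=
  ⟨contOn_co (c 0) k, contOn_co (c 3) k, contOn_co (c 5) k, h.d k⟩

theorem Jet.mono (h : Jet s u) (e : t ⊆ s) : Jet t u :=
  ⟨h.d0.mono (interior_mono e), h.d1.mono (interior_mono e), h.d3.mono (interior_mono e)⟩

theorem Jet.congr (h : Jet s u) (e : ∀ i, ∀ z ∈ s, ∀ θ, v i (z, θ) = u i (z, θ)) : Jet s v :=
  have e' := fun i z (hz : z ∈ interior s) => e i z (interior_subset hz)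
  ⟨h.d0.congr isOpen_interior (e' _) (e' _) (e' _), h.d1.congr isOpen_interior (e' _) (e' _) (e' _),
    h.d3.congr isOpen_interior (e' _) (e' _) (e' _)⟩

theorem Jet.add (h : Jet s u) (k : Jet s v) : Jet s fun i p => u i p + v i p :=
  ⟨h.d0.add k.d0, h.d1.add k.d1, h.d3.add k.d3⟩

theorem Jet.cmul (h : Jet s u) (c : ℂ) : Jet s fun i p => c * u i p :=
  ⟨h.d0.cmul c, h.d1.cmul c, h.d3.cmul c⟩

theorem Jet.conj (h : Jet s u) : Jet s fun i p => (starRingEnd ℂ) (u i p) :=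
  ⟨h.d0.conj, h.d1.conj, h.d3.conj⟩

/-- the function of a jet is `C²` -/
theorem Jet.contDiffAt (h : Jet s u) (c : ∀ i, ContinuousOn (u i) (s ×ˢ univ)) {p : ℝ × ℝ}
    (hp : p.1 ∈ interior s) : ContDiffAt ℝ 2 (u 0) p ∧ ContDiffAt ℝ 1 (u 1) p ∧
      ContDiffAt ℝ 1 (u 3) p := by
  have c0 : ∀ i, ContDiffAt ℝ (0 : ℕ) (u i) p := fun i => contDiffAt_zero.2
    ⟨_, prod_mem_nhds (mem_interior_iff_mem_nhds.1 hp) univ_mem, c i⟩
  have h1 := h.d1.contDiffAt isOpen_interior hp (c0 4) (c0 2)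
  have h3 := h.d3.contDiffAt isOpen_interior hp (c0 5) (c0 4)
  exact ⟨h.d0.contDiffAt (n := 1) isOpen_interior hp h3 h1, h1, h3⟩

/-- the jet of a function -/
def jet (F : ℝ × ℝ → ℂ) : Fin 6 → ℝ × ℝ → ℂ :=
  ![F, fun p => fderiv ℝ F p (0, 1), fun p => fderiv ℝ (fderiv ℝ F) p (0, 1) (0, 1),
    fun p => fderiv ℝ F p (1, 0), fun p => fderiv ℝ (fderiv ℝ F) p (1, 0) (0, 1),
    fun p => fderiv ℝ (fderiv ℝ F) p (1, 0) (1, 0)]

theorem DD_self (L : ℝ × ℝ →L[ℝ] ℂ) : L = DD (L (1, 0)) (L (0, 1)) := DD_ext fun v => by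
  rw [← Complex.real_smul, ← Complex.real_smul, ← map_smul, ← map_smul, ← map_add]; simp

theorem jet_jet (h : ∀ p : ℝ × ℝ, p.1 ∈ interior s → ContDiffAt ℝ 2 F p) : Jet s (jet F) := by
  have d : ∀ p : ℝ × ℝ, p.1 ∈ interior s → ∀ w, HasFDerivAt (fun p => fderiv ℝ F p w)
      ((fderiv ℝ (fderiv ℝ F) p).flip w) p := fun p hp w => by
    simpa using (((h p hp).fderiv_right (m := 1) le_rfl).differentiableAt one_ne_zero
      ).hasFDerivAt.clm_apply (hasFDerivAt_const w p)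
  refine ⟨fun p hp => ((h p hp).differentiableAt two_ne_zero).hasFDerivAt.congr_fderiv (DD_self _),
    fun p hp => (d p hp _).congr_fderiv (DD_self _),
    fun p hp => (d p hp _).congr_fderiv ((DD_self _).trans ?_)⟩
  exact congrArg _ (((h p hp).isSymmSndFDerivAt (by simp)).eq _ _)

/-- the jet described by normalised components -/
def wj (ω : Fin 6 → ℝ → ℝ) (J : Fin 6 → W r) (i : Fin 6) (p : ℝ × ℝ) : ℂ := ω i p.1 * J i p

/-- the space of normalised jets -/
def JetS (s : Set ℝ) (r : ℝ → ℝ) (ω : Fin 6 → ℝ → ℝ) : Submodule ℂ (Fin 6 → W r) where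
  carrier := {J | Jet s (wj ω J)}
  zero_mem' := by
    have : Der (interior s) (fun _ => 0) (fun _ => 0) fun _ => 0 :=
      der_z fun z _ => hasDerivAt_const z 0
    exact Jet.congr (u := fun _ _ => 0) ⟨this, this, this⟩ fun i z _ θ => by simp [wj]
  add_mem' h k := (Jet.add h k).congr fun i z _ θ => by simp [wj, mul_add]
  smul_mem' c _ h := (Jet.cmul h c).congr fun i z _ θ => by simp [wj, mul_left_comm]

variable {ω : Fin 6 → ℝ → ℝ}

theorem wj_adm (J : Fin 6 → W r) (i : Fin 6) : Adm s (wj ω J i) :=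
  (adm_z s fun z => ω i z).mul ((J i).adm s)

theorem wj_cont (c : ∀ i, ContinuousOn (ω i) s) (J : Fin 6 → W r) (i : Fin 6) :
    ContinuousOn (wj ω J i) (s ×ˢ univ) :=
  (Complex.continuous_ofReal.comp_continuousOn
    ((c i).comp continuous_fst.continuousOn fun _ hp => hp.1)).mul (J i).cont.continuousOn

theorem co_wj (J : Fin 6 → W r) (i : Fin 6) (k : ℤ) (z : ℝ) :
    co (wj ω J i) k z = ω i z * co (J i) k z := co_mulz (fun z => ω i z) _ k z

theorem wj_loc (c : ∀ i, ContinuousOn (ω i) s) (J : Fin 6 → W r) (i : Fin 6) :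
    Loc (interior s) (wj ω J i) :=
  (((J i).le_on s).mulz (φ := fun z => ω i z) (ω' := fun z => |ω i z|) zero_le_one (by simp)
    (by simp)).loc (c i).abs

theorem isClosed_jetS (c : ∀ i, ContinuousOn (ω i) s) :
    IsClosed (JetS s r ω : Set (Fin 6 → W r)) := by
  refine IsSeqClosed.isClosed fun J L hJ hL => ?_
  have key : ∀ i j l, (∀ n, Der (interior s) (wj ω (J n) i) (wj ω (J n) j) (wj ω (J n) l)) →
      Der (interior s) (wj ω L i) (wj ω L j) (wj ω L l) := fun i j l d p hp => by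
    obtain ⟨ε, hε, e⟩ := Metric.nhds_basis_closedBall.mem_iff.1 (isOpen_interior.mem_nhds hp)
    obtain ⟨C, hC⟩ := (isCompact_closedBall p.1 ε).exists_bound_of_continuousOn
      ((continuousOn_pi.2 c).mono (e.trans interior_subset))
    have C0 := (norm_nonneg _).trans (hC _ (Metric.mem_closedBall_self hε.le))
    have b : ∀ n i (q : ℝ × ℝ), q.1 ∈ Metric.ball p.1 ε →
        ‖wj ω L i q - wj ω (J n) i q‖ ≤ C * (dist (J n) L / 2) := fun n i q hq => by
      rw [wj, wj, ← mul_sub, norm_mul, Complex.norm_real, dist_comm, dist_eq_norm]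
      exact mul_le_mul ((norm_le_pi_norm (fun i => ω i q.1) i).trans
        (hC _ (Metric.ball_subset_closedBall hq))) (((L i - J n i).apply_le q).trans
          (by gcongr; exact norm_le_pi_norm (L - J n) i)) (norm_nonneg _) C0
    refine hasFDerivAt_of_tendstoUniformlyOn (l := atTop) (s := Metric.ball p.1 ε ×ˢ univ)
      (g' := fun q => DD (wj ω L j q) (wj ω L l q))
      (Metric.isOpen_ball.prod isOpen_univ) (Metric.tendstoUniformlyOn_iff.2 fun δ hδ => ?_)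
      (fun n q hq => d n q (e (Metric.ball_subset_closedBall hq.1))) (fun q _ => ?_)
      ⟨Metric.mem_ball_self hε, trivial⟩
    · have := (tendsto_iff_dist_tendsto_zero.1 hL).const_mul C
      filter_upwards [(tendsto_order.1 this).2 δ (by simpa using hδ)] with n hn q hq
      rw [dist_eq_norm, DD_sub]
      linarith [norm_DD (wj ω L j q - wj ω (J n) j q) (wj ω L l q - wj ω (J n) l q),
        b n j q hq.1, b n l q hq.1]
    · exact (((W.cont_ev q).tendsto _).comp (tendsto_pi_nhds.1 hL i)).const_mul _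
  exact ⟨key _ _ _ fun n => (hJ n).d0, key _ _ _ fun n => (hJ n).d1, key _ _ _ fun n => (hJ n).d3⟩

end Vale.Agent.P218W
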