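import Vale.Agent.P218W.Sem
import Vale.Agent.P218M.G4
import Vale.Agent.P218M.Zero
import Vale.Agent.P218M.Wtk

/-! The linear theory on a truncated cylindrical end. -/

open Set Complex Filter Topology
open scoped Real

noncomputable section

namespace Vale.Agent.P218W

open Vale.Agent.P218M Vale.Agent.P218T

variable {R Z M C β : ℝ} {c : ℂ} {o₀ o₁ g₀ w : ℝ → ℝ}

/-- the algebra over `[R, Z]` -/
abbrev WI (R Z : ℝ) := W (cl R Z)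

/-- a function of `z` in `WI R Z` -/
abbrev cI (R Z : ℝ) (φ : ℝ → ℂ) : WI R Z := cst (Icc R Z) (cl R Z) φ

/-- weights of the six components, modes `k ≠ 0` -/
def nu (w : ℝ → ℝ) (c : ℂ) (Z : ℝ) : Fin 6 → ℝ → ℝ :=
  ![w, fun z => √(w z * gW w c Z z / sg c z), fun z => gW w c Z z / sg c z,
    fun z => gW w c Z z * ta c z / z, fun z => gW w c Z z * ta c z * √‖rh c z‖,
    fun z => gW w c Z z * ta c z]

/-- weights of the six components, mode `0` -/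
def om (o₀ o₁ w : ℝ → ℝ) (c : ℂ) (Z : ℝ) : Fin 6 → ℝ → ℝ :=
  ![o₀, nu w c Z 1, nu w c Z 2, fun z => o₁ z / z, nu w c Z 4, o₁]

/-- jets which vanish at `Z`, and whose modes `|k| ≥ 2` vanish at `R` -/
def XE (R Z : ℝ) : Submodule ℂ (Fin 6 → WI R Z) where
  carrier := {J | Jet (Icc R Z) (fun i => J i) ∧ (∀ θ, J 0 (Z, θ) = 0) ∧
    ∀ k, 2 ≤ |k| → W.coL k R (J 0) = 0}
  zero_mem' := ⟨Jet.congr (JetS (Icc R Z) (cl R Z) 1).zero_mem fun i z _ θ => by simp [wj],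
    fun _ => rfl, fun _ _ => map_zero _⟩
  add_mem' h k := ⟨h.1.add k.1, fun θ => by simp [h.2.1, k.2.1], fun j hj => by
    rw [Pi.add_apply, map_add, h.2.2 j hj, k.2.2 j hj, add_zero]⟩
  smul_mem' a _ h := ⟨h.1.cmul a, fun θ => by simp [h.2.1], fun j hj => by
    rw [Pi.smul_apply, map_smul, h.2.2 j hj, smul_zero]⟩

theorem wj_one {r : ℝ → ℝ} (J : Fin 6 → W r) : wj 1 J = fun i => (J i).f := by
  ext; simp [wj]

theorem isClosed_XE : IsClosed (XE R Z : Set (Fin 6 → WI R Z)) := by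
  have := isClosed_jetS (s := Icc R Z) (r := cl R Z) (ω := 1) fun _ => continuousOn_const
  have e : (XE R Z : Set (Fin 6 → WI R Z)) = ↑(JetS (Icc R Z) (cl R Z) 1) ∩
      ((⋂ θ, {J : Fin 6 → WI R Z | J 0 (Z, θ) = 0}) ∩ ⋂ k, ⋂ _ : 2 ≤ |k|, {J | W.coL k R (J 0) = 0}) := by
    ext J; simp [XE, JetS, wj_one]
  have c0 : Continuous fun J : Fin 6 → WI R Z => J 0 := continuous_apply 0
  rw [e]
  exact this.inter ((isClosed_iInter fun θ => isClosed_eq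
    ((W.cont_ev (Z, θ)).comp c0) continuous_const).inter
    (isClosed_iInter fun k => isClosed_iInter fun _ => isClosed_eq
      ((W.coL k R).continuous.comp c0) continuous_const))

instance : CompleteSpace (XE R Z) := isClosed_XE.completeSpace_coe

/-- the model operator `u_zz - z u_z / 2 + u + u_θθ / ρ` -/
def LW (c : ℂ) (R Z : ℝ) : (Fin 6 → WI R Z) →L[ℂ] WI R Z :=
  .proj 5 - .mul ℂ _ (cI R Z fun z => z / 2) ∘L .proj 3 + .proj 0 +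
    .mul ℂ _ (cI R Z fun z => (rh c z)⁻¹) ∘L .proj 2

theorem LW_apply (J : Fin 6 → WI R Z) : LW c R Z J =
    J 5 - cI R Z (fun z => z / 2) * J 3 + J 0 + cI R Z (fun z => (rh c z)⁻¹) * J 2 := rfl

theorem LW_ev (h : R ≤ Z) (n : ∀ z ∈ Icc R Z, rh c z ≠ 0) (J : Fin 6 → WI R Z) {z : ℝ}
    (hz : z ∈ Icc R Z) (θ : ℝ) : LW c R Z J (z, θ) =
      J 5 (z, θ) - z / 2 * J 3 (z, θ) + J 0 (z, θ) + (rh c z)⁻¹ * J 2 (z, θ) := by
  simp only [LW_apply, W.add_apply, W.sub_apply, W.mul_apply,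
    cst_Icc h (φ := fun z => (rh c z)⁻¹) ((cont_rh c).continuousOn.inv₀ n) hz,
    cst_Icc h (φ := fun z => z / 2) (by fun_prop) hz]

theorem XE.mj (h : R < Z) (J : XE R Z) : MJ (Icc R Z) fun i => J.1 i :=
  J.2.1.mj (by rw [interior_Icc, closure_Ioo h.ne]) (fun i => (J.1 i).adm _)
    fun i => (J.1 i).cont.continuousOn

theorem co_LW (h : R ≤ Z) (n : ∀ z ∈ Icc R Z, rh c z ≠ 0) {J : Fin 6 → WI R Z}
    (m : MJ (Icc R Z) fun i => J i) (k : ℤ) {z : ℝ} (hz : z ∈ Icc R Z) :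
    co (LW c R Z J) k z = LC c k (co (J 0) k) (co (J 3) k) (co (J 5) k) z := by
  have : co (LW c R Z J) k z =
      W.coL k z (J 5 - ((z : ℂ) / 2) • J 3 + J 0 + (rh c z)⁻¹ • J 2) :=
    co_congr (fun θ => by simp [LW_ev h n J hz]) k
  simp only [this, map_add, map_sub, map_smul, W.coL_apply, smul_eq_mul, LC, m.t2 k z hz,
    m.t1 k z hz]
  linear_combination (rh c z)⁻¹ * k ^ 2 * co (J 0) k z * I_mul_I

/-- the data: right hand side and the low modes of `u_z` at `Z` -/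
abbrev YE (R Z : ℝ) := WI R Z × (Fin 3 → ℂ)

/-- the model operator with its boundary rows -/
def T0 (c : ℂ) (R Z : ℝ) : XE R Z →L[ℂ] YE R Z :=
  (LW c R Z).prod (low Z ∘L .proj 3) ∘L (XE R Z).subtypeL

theorem T0_apply (J : XE R Z) : T0 c R Z J = (LW c R Z J.1, low Z (J.1 3)) := rfl

/-- weighted bounds of the data -/
def YN (g₀ g : ℝ → ℝ) (β₀ β₁ : ℝ) (y : YE R Z) (M : ℝ) : Prop :=
  L2 (Icc R Z) y.1 g₀ g M ∧ ∀ i, ‖y.2 i‖ ≤ M * ![β₀, β₁, β₁] i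

/-- the corresponding seminorm -/
def yn (g₀ g : ℝ → ℝ) (β₀ β₁ : ℝ) : Seminorm ℂ (YE R Z) :=
  (wn2 (Icc R Z) g₀ g).comp (.fst ℂ _ _) ⊔ (normSeminorm ℂ (Fin 3 → ℂ)).comp
    (.mulLeft ℂ (fun i => ((![β₀, β₁, β₁] i : ℝ) : ℂ)⁻¹) ∘ₗ .snd ℂ _ _)

theorem yn_le_iff (h : R ≤ Z) {g : ℝ → ℝ} {β₀ β₁ : ℝ} (p₀ : PW (Icc R Z) g₀) (p : PW (Icc R Z) g)
    (b₀ : 0 < β₀) (b₁ : 0 < β₁) {y : YE R Z} : yn g₀ g β₀ β₁ y ≤ M ↔ YN g₀ g β₀ β₁ y M := by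
  have b : ∀ i, 0 < ![β₀, β₁, β₁] i := fun i => by fin_cases i <;> assumption
  rw [yn, Seminorm.sup_apply, max_le_iff, YN, ← (ret_cl h).wn2_le_iff p₀ p]
  refine and_congr_right fun l => (pi_norm_le_iff_of_nonneg ((apply_nonneg _ _).trans l)).trans
    (forall_congr' fun i => ?_)
  change ‖_ * y.2 i‖ ≤ M ↔ _
  rw [norm_mul, norm_inv, Complex.norm_real, Real.norm_of_nonneg (b i).le, inv_mul_le_iff₀ (b i),
    mul_comm]

theorem yn_eqv (h : R ≤ Z) {g : ℝ → ℝ} {β₀ β₁ : ℝ} (p₀ : PW (Icc R Z) g₀) (p : PW (Icc R Z) g)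
    (b₀ : 0 < β₀) (b₁ : 0 < β₁) : Eqv (yn (R := R) (Z := Z) g₀ g β₀ β₁) := by
  have r := ret_cl h
  obtain ⟨A, a⟩ := r.xn_eqv (ι := Unit) (fun _ => p₀) fun _ => p
  have e : ∀ x : WI R Z, xn (Icc R Z) (fun _ : Unit => g₀) (fun _ => g) (fun _ => x) =
      wn2 (Icc R Z) g₀ g x := fun x => by simp [xn]
  let B := |A| + β₀ + β₁ + β₀⁻¹ + β₁⁻¹
  have p1 := inv_pos.2 b₀
  have p2 := inv_pos.2 b₁
  have p3 := abs_nonneg A
  have hA : A ≤ B := by linarith [le_abs_self A]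
  refine ⟨B, fun y => ⟨?_, (yn_le_iff h p₀ p b₀ b₁).2 ⟨(r.wn2_le_iff p₀ p).1 ?_, fun i => ?_⟩⟩⟩
  · have l := (yn_le_iff h p₀ p b₀ b₁).1 (le_refl (yn g₀ g β₀ β₁ y))
    have y0 := apply_nonneg (yn g₀ g β₀ β₁) y
    refine max_le ?_ ((pi_norm_le_iff_of_nonneg (by positivity)).2 fun i => (l.2 i).trans ?_)
    · have := (a fun _ => y.1).1
      rw [e, pi_norm_const] at this
      exact this.trans (mul_le_mul hA ((r.wn2_le_iff p₀ p).2 l.1) (apply_nonneg _ _) (by positivity))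
    · rw [mul_comm]; gcongr; fin_cases i <;> simp <;> linarith
  · have := (a fun _ => y.1).2
    rw [e, pi_norm_const] at this
    exact this.trans (mul_le_mul hA (norm_fst_le y) (norm_nonneg _) (by positivity))
  · have : 1 ≤ B * ![β₀, β₁, β₁] i := by
      fin_cases i <;> simp <;> rw [← div_le_iff₀ (by assumption), one_div] <;> linarith
    nlinarith [(norm_le_pi_norm y.2 i).trans (norm_snd_le y), norm_nonneg y]

theorem _root_.Vale.Agent.P218M.BW.cm {k : ℤ} {u u₁ u₂ : ℝ → ℂ} {z : ℝ} (h : BW w c Z k u u₁ u₂ M z)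
    (i : Fin 6) : ‖cm k u u₁ u₂ i z‖ ≤ M * nu w c Z i z := by
  fin_cases i
  · exact h.b0
  · simpa [P218W.cm, nu] using h.bt
  · simpa [P218W.cm, nu, ← mul_assoc, sq] using h.btt
  · exact h.bz
  · simpa [P218W.cm, nu] using h.bzt
  · exact h.bzz

theorem sq_low {x : ℝ} (hx : 0 ≤ x) : Sq (fun k => if |k| ≤ 1 then x else 0) (20 * x) := by
  have b : ∀ k : ℤ, |k| ≤ 1 → br k ≤ 3 / 2 := fun k hk => Real.sqrt_le_iff.2 ⟨by norm_num, by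
    have : |(k : ℝ)| ≤ 1 := by exact_mod_cast hk
    nlinarith [sq_abs (k : ℝ), abs_nonneg (k : ℝ)]⟩
  refine (((sq_single 0 hx).add (sq_single 1 hx)).add (sq_single (-1) hx)).mono
    (fun k => by positivity) (fun k => ?_) ?_
  · simp only [abs_le]
    split_ifs <;> first | linarith | omega
  · nlinarith [b 0 (by simp), b 1 (by simp), b (-1) (by simp)]

/-- a package of weights with its estimates for the modes -/
structure MP (c : ℂ) (R Z : ℝ) (o₀ o₁ g₀ w : ℝ → ℝ) (β C : ℝ) : Prop where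
  RZ : R < Z
  ne : ∀ z ∈ Icc R Z, rh c z ≠ 0
  C0 : 0 ≤ C
  po : ∀ i, PW (Icc R Z) (om o₀ o₁ w c Z i)
  pn : ∀ i, PW (Icc R Z) (nu w c Z i)
  p0 : PW (Icc R Z) g₀
  pg : PW (Icc R Z) (gW w c Z)
  b0 : 0 < β
  b1 : 0 < Z * w Z
  m0 : ∀ u u₁ u₂ M, J2 (Icc R Z) u u₁ u₂ → (∀ z ∈ Icc R Z, ‖LC c 0 u u₁ u₂ z‖ ≤ M * g₀ z) →
    u Z = 0 → ‖u₁ Z‖ ≤ M * β → ∀ z ∈ Icc R Z,
      ‖u z‖ ≤ C * M * o₀ z ∧ ‖u₁ z‖ ≤ C * M * (o₁ z / z) ∧ ‖u₂ z‖ ≤ C * M * o₁ z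
  mn : ∀ k : ℤ, k ≠ 0 → ∀ u u₁ u₂ M, J2 (Icc R Z) u u₁ u₂ →
    (∀ z ∈ Icc R Z, ‖LC c k u u₁ u₂ z‖ ≤ M * gW w c Z z) → u Z = 0 →
    (|k| = 1 → ‖u₁ Z‖ ≤ M * (Z * w Z)) → (2 ≤ |k| → u R = 0) →
    ∀ z ∈ Icc R Z, BW w c Z k u u₁ u₂ (C * M) z
  ex : ∀ (k : ℤ) (g : ℝ → ℂ) (b : ℂ), ContinuousOn g (Icc R Z) → ∃ u u₁ u₂, J2 (Icc R Z) u u₁ u₂ ∧
    (∀ z ∈ Icc R Z, LC c k u u₁ u₂ z = g z) ∧ u Z = 0 ∧ (|k| ≤ 1 → u₁ Z = b) ∧ (2 ≤ |k| → u R = 0)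

namespace MP

/-- the boundary value of mode `k` -/
def bk (b : Fin 3 → ℂ) (k : ℤ) : ℂ := if k = 0 then b 0 else b 1 - k * I * b 2

theorem modes (h : MP c R Z o₀ o₁ g₀ w β C) {y : YE R Z} (l : YN g₀ (gW w c Z) β (Z * w Z) y M)
    {u u₁ u₂ : ℤ → ℝ → ℂ} (j : ∀ k, J2 (Icc R Z) (u k) (u₁ k) (u₂ k))
    (e : ∀ k, ∀ z ∈ Icc R Z, LC c k (u k) (u₁ k) (u₂ k) z = co y.1 k z) (hZ : ∀ k, u k Z = 0)
    (hb : ∀ k, |k| ≤ 1 → u₁ k Z = bk y.2 k) (hR : ∀ k, 2 ≤ |k| → u k R = 0) :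
    ∃ a, Sq a (42 * C * M) ∧ ∀ i, ∀ z ∈ Icc R Z,
      ‖cm 0 (u 0) (u₁ 0) (u₂ 0) i z‖ ≤ a 0 * om o₀ o₁ w c Z i z ∧
      ∀ k ≠ 0, ‖cm k (u k) (u₁ k) (u₂ k) i z‖ ≤ a k * nu w c Z i z := by
  obtain ⟨a, ha, e₀, e₁⟩ := l.1.ex (y.1.adm _)
  have M0 : 0 ≤ 2 * M := ha.M0
  have s := ha.add (sq_low M0)
  have le : ∀ k, a k ≤ a k + if |k| ≤ 1 then 2 * M else 0 := fun k =>
    le_add_of_nonneg_right (by positivity)
  refine ⟨_, (s.smul h.C0).mono (s.smul h.C0).a0 (fun _ => le_rfl) (le_of_eq (by ring)),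
    fun i z hz => ⟨?_, fun k hk => (h.mn k hk _ _ _ _ (j k) (fun z hz => ?_) (hZ k)
      (fun k1 => ?_) (hR k) z hz).cm i⟩⟩
  · have := h.m0 _ _ _ _ (j 0) (fun z hz => (e 0 z hz ▸ e₀ z hz).trans
      (mul_le_mul_of_nonneg_right (le 0) (h.p0.pos hz).le)) (hZ 0) (by
        rw [hb 0 (by simp), bk, if_pos rfl, if_pos (by simp)]
        exact (l.2 0).trans (mul_le_mul_of_nonneg_right (by linarith [ha.a0 0]) h.b0.le)) z hz
    have p := fun i => mul_nonneg ((s.smul h.C0).a0 0) ((h.po i).pos hz).le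
    fin_cases i
    exacts [this.1, by simpa [cm] using p 1, by simpa [cm] using p 2, this.2.1,
      by simpa [cm] using p 4, this.2.2]
  · exact (e k z hz ▸ e₁ k hk z hz).trans (mul_le_mul_of_nonneg_right (le k) (h.pg.pos hz).le)
  · have n : |(k : ℝ)| = 1 := by exact_mod_cast k1
    have l1 : ‖y.2 1‖ ≤ M * (Z * w Z) := l.2 1
    have l2 : ‖y.2 2‖ ≤ M * (Z * w Z) := l.2 2
    rw [hb k k1.le, bk, if_neg hk, if_pos k1.le]
    refine (norm_sub_le _ _).trans ?_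
    simp only [norm_mul, Complex.norm_intCast, n, Complex.norm_I, one_mul]
    nlinarith [mul_nonneg (ha.a0 k) h.b1.le]

theorem bk_low {r : ℝ → ℝ} (x : W r) {k : ℤ} (hk : |k| ≤ 1) : co x k Z = bk (low Z x) k := by
  rw [bk]; split_ifs with e
  · rw [e, low_0]
  · exact co_low Z x (le_antisymm hk (Int.one_le_abs e))

/-- **the a priori estimate** -/
theorem apr (h : MP c R Z o₀ o₁ g₀ w β C) (J : XE R Z)
    (l : YN g₀ (gW w c Z) β (Z * w Z) (T0 c R Z J) M) :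
    XN (Icc R Z) (om o₀ o₁ w c Z) (nu w c Z) (fun i => J.1 i) (42 * C * M) := by
  have m := XE.mj h.RZ J
  obtain ⟨a, ha, e⟩ := h.modes l (m.j2 fun i => (J.1 i).cont.continuousOn)
    (fun k z hz => (co_LW h.RZ.le h.ne m k hz).symm)
    (fun k => (co_congr (G := fun _ => 0) J.2.2.1 k).trans (by simp [co, c1]))
    (fun k hk => bk_low _ hk) J.2.2.2
  exact fun i => l2_of_co ((J.1 i).adm _) ha (fun z hz => ((h.po i).pos hz).le)
    (fun z hz => ((h.pn i).pos hz).le) (fun z hz => m.cm 0 hz i ▸ (e i z hz).1)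
    fun k hk z hz => m.cm k hz i ▸ (e i z hz).2 k hk

theorem apr' (h : MP c R Z o₀ o₁ g₀ w β C) (J : XE R Z) :
    xn (Icc R Z) (om o₀ o₁ w c Z) (nu w c Z) J.1 ≤
      42 * C * yn g₀ (gW w c Z) β (Z * w Z) (T0 c R Z J) :=
  ((ret_cl h.RZ.le).xn_le_iff h.po h.pn (by have := h.C0; positivity)).2
    (h.apr J ((yn_le_iff h.RZ.le h.p0 h.pg h.b0 h.b1).1 le_rfl))

theorem surj (h : MP c R Z o₀ o₁ g₀ w β C) : Function.Surjective (T0 c R Z) := fun y => by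
  have r := ret_cl h.RZ.le
  have mZ : Z ∈ Icc R Z := right_mem_Icc.2 h.RZ.le
  choose u u₁ u₂ j e hZ hb hR using fun k => h.ex k (co y.1 k) (bk y.2 k) (y.1.cont_co k).continuousOn
  obtain ⟨a, ha, l⟩ := h.modes ((yn_le_iff h.RZ.le h.p0 h.pg h.b0 h.b1).1 le_rfl) j e hZ hb hR
  obtain ⟨A, A0, a'⟩ := PW.common h.po
  obtain ⟨B, B0, b'⟩ := PW.common h.pn
  obtain ⟨J, hJ, eJ⟩ := r.exists_jet (ω := 1) (fun _ => continuousOn_const) (by simp) j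
    (ha.smul (add_pos A0 B0).le) fun i k z hz => by
      have := ha.a0 k
      rcases eq_or_ne k 0 with rfl | hk
      · exact (l i z hz).1.trans (by simp; nlinarith [(a' i z hz).2])
      · exact ((l i z hz).2 k hk).trans (by simp; nlinarith [(b' i z hz).2])
  rw [wj_one] at eJ
  have hJ' : Jet (Icc R Z) fun i => J i := wj_one J ▸ hJ
  let X : XE R Z := ⟨J, hJ', fun θ => ((J 0).le_on _).eq_of_co (le_zero (ω := fun _ => 1) (by simp))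
    mZ (fun k => (eJ 0 k Z mZ).trans ((hZ k).trans (by simp [co, c1]))) θ,
    fun k hk => (eJ 0 k R (left_mem_Icc.2 h.RZ.le)).trans (hR k hk)⟩
  have m := XE.mj h.RZ X
  refine ⟨X, Prod.ext (r.ext_co fun k z hz => ?_) ?_⟩
  · refine (co_LW h.RZ.le h.ne m k hz).trans (Eq.trans ?_ (e k z hz))
    simp only [LC, X, eJ _ k z hz]; rfl
  · have e3 : ∀ k, |k| ≤ 1 → co (J 3) k Z = bk y.2 k := fun k hk => (eJ 3 k Z mZ).trans (hb k hk)
    ext i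
    fin_cases i
    · exact e3 0 (by simp)
    · refine (low_1 Z (J 3)).trans ?_
      simp [e3, bk]
      ring
    · refine (low_2 Z (J 3)).trans ?_
      simp only [e3 1 (by simp), e3 (-1) (by simp), bk]
      simp
      linear_combination -y.2 2 * I_mul_I

/-- the seminorm on `XE` -/
def xe (o₀ o₁ w : ℝ → ℝ) (c : ℂ) (R Z : ℝ) : Seminorm ℂ (XE R Z) :=
  (xn (Icc R Z) (om o₀ o₁ w c Z) (nu w c Z)).comp (XE R Z).subtype

theorem xe_eqv (h : MP c R Z o₀ o₁ g₀ w β C) : Eqv (xe o₀ o₁ w c R Z) :=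
  let ⟨A, a⟩ := (ret_cl h.RZ.le).xn_eqv h.po h.pn
  ⟨A, fun J => a J.1⟩

theorem yn_eqv (h : MP c R Z o₀ o₁ g₀ w β C) :
    Eqv (yn (R := R) (Z := Z) g₀ (gW w c Z) β (Z * w Z)) :=
  P218W.yn_eqv h.RZ.le h.p0 h.pg h.b0 h.b1

theorem bij (h : MP c R Z o₀ o₁ g₀ w β C) : Function.Bijective (T0 c R Z) := by
  refine ⟨(injective_iff_map_eq_zero _).2 fun J e => ?_, h.surj⟩
  obtain ⟨A, a⟩ := h.xe_eqv
  have := h.apr' J
  rw [e, map_zero, mul_zero] at this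
  have e0 : xe o₀ o₁ w c R Z J = 0 := le_antisymm this (apply_nonneg _ _)
  simpa [e0] using (a J).1

/-- **small perturbations of the model operator** -/
theorem pert (h : MP c R Z o₀ o₁ g₀ w β C) {P : XE R Z →L[ℂ] YE R Z} {δ : ℝ} (δ0 : 0 ≤ δ)
    (hδ : 84 * C * δ ≤ 1) (hP : ∀ J, yn g₀ (gW w c Z) β (Z * w Z) (P J) ≤ δ * xe o₀ o₁ w c R Z J) :
    Function.Surjective (T0 c R Z + P) ∧ ∀ J, xe o₀ o₁ w c R Z J ≤
      84 * C * yn g₀ (gW w c Z) β (Z * w Z) ((T0 c R Z + P) J) := by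
  obtain ⟨s, a⟩ := neumann h.yn_eqv h.bij (P := P) fun J => by
    nlinarith [hP J, mul_le_mul_of_nonneg_left (h.apr' J) δ0,
      apply_nonneg (yn g₀ (gW w c Z) β (Z * w Z)) (T0 c R Z J),
      show xe o₀ o₁ w c R Z J = xn _ _ _ J.1 from rfl]
  exact ⟨s, fun J => (h.apr' J).trans (by nlinarith [a J, h.C0])⟩

end MP

/-- the sharp heavy weight of mode `0` -/
def sh (c : ℂ) (Z z : ℝ) : ℝ :=
  z ^ 2 * (z ^ (-3 / 2 : ℝ) + (Z ^ 2 * (rh c Z).re) ^ (-3 / 4 : ℝ))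

section
variable {Y : ℝ}

theorem pw_cyl (c' : ContinuousOn w (Icc R Z)) (p : ∀ z ∈ Icc R Z, 0 < w z) : PW (Icc R Z) w :=
  pw_of_compact isCompact_Icc c' p

theorem cyl_ne (h : Cyl Y R Z c) (Y0 : 0 < Y) {z : ℝ} (hz : z ∈ Icc R Z) : rh c z ≠ 0 :=
  fun e => by simpa [e] using h.re0 Y0 hz

theorem pw_gW (h : Cyl Y R Z c) (Y0 : 0 < Y) (p : PW (Icc R Z) w) : PW (Icc R Z) (gW w c Z) := by
  obtain ⟨_, _, k⟩ := wtc
  obtain ⟨k, -, cs, -⟩ := k Y R Z c Y0 h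
  refine pw_cyl (p.c.mul (cs.add ((continuous_pow 2).mul (cont_ly Z)).continuousOn)) fun z hz => ?_
  have := p.pos hz
  have := (k z hz).sg6
  have := ly_pos Z z
  unfold gW; positivity

theorem pw_nu (h : Cyl Y R Z c) (Y0 : 0 < Y) (p : PW (Icc R Z) w) (i : Fin 6) :
    PW (Icc R Z) (nu w c Z i) := by
  obtain ⟨_, _, k⟩ := wtc
  obtain ⟨k, cr, cs, ct, -⟩ := k Y R Z c Y0 h
  have g := pw_gW h Y0 p
  have s0 : ∀ z ∈ Icc R Z, 0 < sg c z := fun z hz => by linarith [(k z hz).sg6]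
  have t0 : ∀ z ∈ Icc R Z, 0 < ta c z := fun z hz => by linarith [(k z hz).ta1]
  fin_cases i
  · exact p
  · exact pw_cyl ((p.c.mul g.c).div cs fun z hz => (s0 z hz).ne').sqrt fun z hz =>
      Real.sqrt_pos.2 (div_pos (mul_pos (p.pos hz) (g.pos hz)) (s0 z hz))
  · exact pw_cyl (g.c.div cs fun z hz => (s0 z hz).ne') fun z hz => div_pos (g.pos hz) (s0 z hz)
  · exact pw_cyl ((g.c.mul ct).div continuousOn_id fun z hz => (h.z0 hz).ne') fun z hz =>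
      div_pos (mul_pos (g.pos hz) (t0 z hz)) (h.z0 hz)
  · exact pw_cyl ((g.c.mul ct).mul cr.norm.sqrt) fun z hz => mul_pos (mul_pos (g.pos hz) (t0 z hz))
      (Real.sqrt_pos.2 (norm_pos_iff.2 (cyl_ne h Y0 hz)))
  · exact pw_cyl (g.c.mul ct) fun z hz => mul_pos (g.pos hz) (t0 z hz)

theorem pw_om (h : Cyl Y R Z c) (Y0 : 0 < Y) (p : PW (Icc R Z) w) (p₀ : PW (Icc R Z) o₀)
    (p₁ : PW (Icc R Z) o₁) (i : Fin 6) : PW (Icc R Z) (om o₀ o₁ w c Z i) := by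
  fin_cases i
  exacts [p₀, pw_nu h Y0 p 1, pw_nu h Y0 p 2, pw_cyl (p₁.c.div continuousOn_id fun z hz =>
    (h.z0 hz).ne') fun z hz => div_pos (p₁.pos hz) (h.z0 hz), pw_nu h Y0 p 4, p₁]

theorem pw_all (h : Cyl Y R Z c) (Y1 : 1 ≤ Y) : (∀ κ, PW (Icc R Z) (wK κ c)) ∧
    PW (Icc R Z) (wO c) ∧ PW (Icc R Z) (gO c Z) ∧ PW (Icc R Z) (hv c) ∧
    PW (Icc R Z) (fun z => (rh c z).re) ∧ PW (Icc R Z) (sh c Z) := by
  have Y0 := one_pos.trans_le Y1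
  obtain ⟨_, _, k⟩ := wtc
  obtain ⟨k, cr, -, -, -, -, c1, c2⟩ := k Y R Z c Y0 h
  obtain ⟨_, _, l⟩ := wtk
  obtain ⟨c3, c4, l⟩ := l Y R Z c Y1 h
  refine ⟨fun κ => pw_cyl (c3 κ).1 fun z hz => (l z hz).1 κ, pw_cyl c1 fun z hz => (k z hz).wO0,
    pw_cyl c2 fun z hz => (k z hz).gO0, pw_cyl c4 fun z hz => (l z hz).2.1,
    pw_cyl (Complex.continuous_re.comp_continuousOn cr) fun z hz => (k z hz).re0,
    pw_cyl ((continuous_pow 2).continuousOn.mul ((continuousOn_id.rpow_const fun z hz =>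
      .inl (h.z0 hz).ne').add continuousOn_const)) fun z hz => ?_⟩
  have := h.z0 hz
  have := h.re0 Y0 (right_mem_Icc.2 (hz.1.trans hz.2))
  unfold sh; positivity

theorem PW.mul {s : Set ℝ} {v : ℝ → ℝ} (hs : IsCompact s) (h : PW s w) (k : PW s v) :
    PW s fun z => w z * v z :=
  pw_of_compact hs (h.c.mul k.c) fun _ hz => mul_pos (h.pos hz) (k.pos hz)

theorem PW.add {s : Set ℝ} {v : ℝ → ℝ} (hs : IsCompact s) (h : PW s w) (k : PW s v) :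
    PW s fun z => w z + v z :=
  pw_of_compact hs (h.c.add k.c) fun _ hz => add_pos (h.pos hz) (k.pos hz)

end

/-- **the natural and the heavy package** -/
theorem mp_cyl : ∃ Y C : ℝ, 1 ≤ Y ∧ ∀ κ ∈ Icc (17 / 32 : ℝ) (63 / 32), ∀ R Z c, Cyl Y R Z c →
    MP c R Z (wO c) (gO c Z) (gO c Z) (wK κ c) (Z * wO c Z) C ∧
    MP c R Z (sh c Z) (fun z => hv c z * (gO c Z z + (rh c z).re)) (fun z => hv c z * gO c Z z)
      (wK κ c) (hv c Z * (Z * wO c Z)) C := by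
  obtain ⟨Y₁, C₁, c₁, h₁⟩ := moden
  obtain ⟨Y₂, C₂, c₂, h₂⟩ := mode0
  obtain ⟨Y₃, C₃, c₃, h₃⟩ := mode0h
  obtain ⟨Y₄, h₄⟩ := modex
  refine ⟨max (max 1 Y₁) (max Y₂ (max Y₃ Y₄)), C₁ + C₂ + C₃, by simp, fun κ hκ R Z c h => ?_⟩
  have mono : ∀ {Y}, Y ≤ max (max 1 Y₁) (max Y₂ (max Y₃ Y₄)) → Cyl Y R Z c := fun l =>
    ⟨h.R0, h.RZ, h.cZ, fun z hz => l.trans (h.tip z hz), h.dsc⟩
  have h1 := mono (Y := 1) (by simp)
  obtain ⟨pK, pw, pg, ph, px, ps⟩ := pw_all h1 le_rfl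
  have RZ : R < Z := by linarith [h.RZ]
  have mZ : Z ∈ Icc R Z := right_mem_Icc.2 RZ.le
  have Z0 := h.z0 mZ
  have up : ∀ {x M D v : ℝ}, 0 < D → D ≤ C₁ + C₂ + C₃ → 0 < v → 0 ≤ x → x ≤ D * M * v →
      x ≤ (C₁ + C₂ + C₃) * M * v := fun {x M D v} D0 l v0 x0 e => e.trans (by
    have : 0 ≤ M := nonneg_of_mul_nonneg_right
      (nonneg_of_mul_nonneg_left (x0.trans e) v0) D0
    gcongr)
  have mn : ∀ k : ℤ, k ≠ 0 → ∀ u u₁ u₂ M, J2 (Icc R Z) u u₁ u₂ →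
      (∀ z ∈ Icc R Z, ‖LC c k u u₁ u₂ z‖ ≤ M * gW (wK κ c) c Z z) → u Z = 0 →
      (|k| = 1 → ‖u₁ Z‖ ≤ M * (Z * wK κ c Z)) → (2 ≤ |k| → u R = 0) →
      ∀ z ∈ Icc R Z, BW (wK κ c) c Z k u u₁ u₂ ((C₁ + C₂ + C₃) * M) z :=
    fun k hk u u₁ u₂ M j e a b d z hz => by
      have b := h₁ κ hκ R Z c (mono (by simp)) k hk u u₁ u₂ M j e a b d z hz
      have p := fun i => (pw_nu h1 one_pos (pK κ) i).pos hz
      have l : C₁ ≤ C₁ + C₂ + C₃ := by linarith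
      exact ⟨up c₁ l (p 0) (by positivity) b.b0, up c₁ l (p 1) (by positivity) b.bt,
        up c₁ l (p 2) (by positivity) b.btt, up c₁ l (p 3) (by positivity) b.bz,
        up c₁ l (p 4) (by positivity) b.bzt, up c₁ l (p 5) (by positivity) b.bzz⟩
  have p1 := ph.mul isCompact_Icc (pg.add isCompact_Icc px)
  refine ⟨⟨RZ, fun z => cyl_ne h1 one_pos, by positivity, pw_om h1 one_pos (pK κ) pw pg,
    pw_nu h1 one_pos (pK κ), pg, pw_gW h1 one_pos (pK κ), mul_pos Z0 (pw.pos mZ),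
    mul_pos Z0 ((pK κ).pos mZ), fun u u₁ u₂ M j e a b z hz => ?_, mn, h₄ R Z c (mono (by simp))⟩,
    ⟨RZ, fun z => cyl_ne h1 one_pos, by positivity, pw_om h1 one_pos (pK κ) ps p1,
    pw_nu h1 one_pos (pK κ), ph.mul isCompact_Icc pg, pw_gW h1 one_pos (pK κ),
    mul_pos (ph.pos mZ) (mul_pos Z0 (pw.pos mZ)), mul_pos Z0 ((pK κ).pos mZ),
    fun u u₁ u₂ M j e a b z hz => ?_, mn, h₄ R Z c (mono (by simp))⟩⟩
  · have b := h₂ R Z c (mono (by simp)) u u₁ u₂ M j e a b z hz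
    have l : C₂ ≤ C₁ + C₂ + C₃ := by linarith
    exact ⟨up c₂ l (pw.pos hz) (norm_nonneg _) b.b0, up c₂ l (div_pos (pg.pos hz) (h.z0 hz))
      (norm_nonneg _) b.bz, up c₂ l (pg.pos hz) (norm_nonneg _) b.bzz⟩
  · have b := h₃ R Z c (mono (by simp)) u u₁ u₂ M j e a b z hz
    have l : C₃ ≤ C₁ + C₂ + C₃ := by linarith
    exact ⟨up c₃ l (ps.pos hz) (norm_nonneg _) b.1, up c₃ l (div_pos (p1.pos hz) (h.z0 hz))
      (norm_nonneg _) b.2.1, up c₃ l (p1.pos hz) (norm_nonneg _) b.2.2⟩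

end Vale.Agent.P218W
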