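import Vale.Agent.P218W.Sem
import Vale.Agent.P218M.MK

/-! The linear theory on a conical end. -/

open Set Complex Filter Topology
open scoped Real

noncomputable section

namespace Vale.Agent.P218W

open Vale.Agent.P218M Vale.Agent.P218T

variable {R M μ : ℝ}

/-- weights of the six components -/
def omK : Fin 6 → ℝ → ℝ := ![id, id, id, 1, 1, fun z => z⁻¹]

/-- normalised jets which vanish at `R`; the last component is `z (z u_z - u)` -/
def XK (R : ℝ) : Submodule ℂ (Fin 7 → W (max R)) where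
  carrier := {J | Jet (Ici R) (wj omK fun i => J i.castSucc) ∧
    (∀ z ∈ Ici R, ∀ θ, J 6 (z, θ) = z ^ 2 * (J 3 (z, θ) - J 0 (z, θ))) ∧ ∀ θ, J 0 (R, θ) = 0}
  zero_mem' := ⟨(JetS (Ici R) (max R) omK).zero_mem, fun z _ θ => by simp, fun _ => rfl⟩
  add_mem' h l := ⟨(JetS (Ici R) (max R) omK).add_mem h.1 l.1, fun z hz θ => by
    simp only [Pi.add_apply, W.add_apply, h.2.1 z hz, l.2.1 z hz]; ring,
    fun θ => by simp [h.2.2, l.2.2]⟩
  smul_mem' c _ h := ⟨(JetS (Ici R) (max R) omK).smul_mem c h.1, fun z hz θ => by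
    simp only [Pi.smul_apply, W.smul_apply, h.2.1 z hz]; ring, fun θ => by simp [h.2.2]⟩

theorem omK_cont (h : 0 < R) (i : Fin 6) : ContinuousOn (omK i) (Ici R) := by
  fin_cases i
  exacts [continuousOn_id, continuousOn_id, continuousOn_id, continuousOn_const,
    continuousOn_const, continuousOn_id.inv₀ fun z hz => (h.trans_le hz).ne']

theorem omK_pos (h : 0 < R) (i : Fin 6) {z : ℝ} (hz : z ∈ Ici R) : 0 < omK i z := by
  have := h.trans_le hz
  fin_cases i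
  exacts [this, this, this, one_pos, one_pos, inv_pos.2 this]

theorem isClosed_XK (h : 0 < R) : IsClosed (XK R : Set (Fin 7 → W (max R))) := by
  have e : (XK R : Set (Fin 7 → W (max R))) =
      (fun J (i : Fin 6) => J i.castSucc) ⁻¹'
        (JetS (Ici R) (max R) omK : Set (Fin 6 → W (max R))) ∩
      ((⋂ z ∈ Ici R, ⋂ θ, {J : Fin 7 → W (max R) |
        J 6 (z, θ) = z ^ 2 * (J 3 (z, θ) - J 0 (z, θ))}) ∩ ⋂ θ, {J | J 0 (R, θ) = 0}) := by
    ext J; simp [XK, JetS]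
  have c : ∀ i p, Continuous fun J : Fin 7 → W (max R) => J i p := fun i p =>
    (W.cont_ev p).comp (continuous_apply i)
  rw [e]
  exact ((isClosed_jetS (omK_cont h)).preimage (by fun_prop)).inter
    ((isClosed_biInter fun z _ => isClosed_iInter fun θ => isClosed_eq (c _ _)
      (continuous_const.mul ((c _ _).sub (c _ _)))).inter
        (isClosed_iInter fun θ => isClosed_eq (c _ _) continuous_const))

theorem complete_XK (h : 0 < R) : CompleteSpace (XK R) := (isClosed_XK h).completeSpace_coe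

instance [h : Fact (0 < R)] : CompleteSpace (XK R) := complete_XK h.out

/-- the model operator `z (u_zz + (1 / z - z / 2) u_z + u / 2 + μ u_θθ / z ^ 2)` -/
def LKW (μ : ℝ) {r : ℝ → ℝ} : (Fin 7 → W r) →L[ℂ] W r :=
  .proj 5 + .proj 3 - (1 / 2 : ℂ) • .proj 6 + (μ : ℂ) • .proj 2

theorem LKW_apply {r : ℝ → ℝ} (J : Fin 7 → W r) :
    LKW μ J = J 5 + J 3 - (1 / 2 : ℂ) • J 6 + (μ : ℂ) • J 2 := rfl

/-- the model operator on `XK` -/
def TK (μ R : ℝ) : XK R →L[ℂ] W (max R) := LKW μ ∘L (XK R).subtypeL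

theorem TK_apply (J : XK R) : TK μ R J = LKW μ J.1 := rfl

theorem XK.mj (h : 0 < R) (J : XK R) : MJ (Ici R) (wj omK fun i => J.1 i.castSucc) :=
  J.2.1.mj (by rw [interior_Ici, closure_Ioi]) (wj_adm _) (wj_cont (omK_cont h) _)

theorem XK.co6 (J : XK R) (k : ℤ) {z : ℝ} (hz : z ∈ Ici R) :
    co (J.1 6) k z = z ^ 2 * (co (J.1 3) k z - co (J.1 0) k z) := by
  have : co (J.1 6) k z = W.coL k z (((z : ℂ) ^ 2) • (J.1 3 - J.1 0)) :=
    co_congr (fun θ => by simp [J.2.2.1 z hz]) k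
  simp only [this, map_sub, map_smul, W.coL_apply, smul_eq_mul]

theorem co_LKW (h : 0 < R) (J : XK R) (k : ℤ) {z : ℝ} (hz : z ∈ Ici R) :
    LK μ k (co (wj omK (fun i => J.1 i.castSucc) 0) k) (co (wj omK (fun i => J.1 i.castSucc) 3) k)
      (co (wj omK (fun i => J.1 i.castSucc) 5) k) z = (z : ℂ)⁻¹ * co (TK μ R J) k z := by
  have z0 : (z : ℂ) ≠ 0 := by exact_mod_cast (h.trans_le hz).ne'
  have m := XK.mj h J
  have e := (m.t2 k z hz).trans (congrArg _ (m.t1 k z hz))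
  have e' : co (TK μ R J) k z = co (J.1 5) k z + co (J.1 3) k z - 1 / 2 * co (J.1 6) k z +
      μ * co (J.1 2) k z := by
    simp only [← W.coL_apply, TK_apply, LKW_apply, map_add, map_sub, map_smul, smul_eq_mul]
  rw [co_wj, co_wj] at e
  rw [e', XK.co6 J k hz, LK, co_wj, co_wj, co_wj]
  replace e : co (J.1 2) k z = k * I * (k * I * co (J.1 0) k z) := mul_left_cancel₀ z0
    (e.trans (show (k : ℂ) * I * (k * I * (z * co (J.1 0) k z)) = _ by ring))
  change ((z⁻¹ : ℝ) : ℂ) * co (J.1 5) k z + _ * (((1 : ℝ) : ℂ) * co (J.1 3) k z) +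
    _ * ((z : ℂ) * co (J.1 0) k z) = _
  push_cast
  field_simp
  linear_combination (-2 * μ) * e - 2 * μ * k ^ 2 * co (J.1 0) k z * I_mul_I

/-- the gain in the components -/
def rK (R : ℝ) : Fin 6 → ℝ := ![R⁻¹, R⁻¹, 1, R⁻¹, 1, 1]

theorem rK_bd (h : 1 ≤ R) (i : Fin 6) : 0 ≤ rK R i ∧ rK R i ≤ 1 := by
  have : 0 ≤ R⁻¹ ∧ R⁻¹ ≤ 1 := ⟨by positivity, inv_le_one_of_one_le₀ h⟩
  fin_cases i
  exacts [this, this, by simp [rK], this, by simp [rK], by simp [rK]]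

theorem _root_.Vale.Agent.P218M.BK.cm {k : ℤ} {u u₁ u₂ : ℝ → ℂ} {z : ℝ} (h : BK R k u u₁ u₂ M z)
    (h1 : 1 ≤ R) (hz : R ≤ z) (i : Fin 6) : ‖cm k u u₁ u₂ i z‖ ≤ M * rK R i * omK i z := by
  have z0 : 0 < z := by linarith
  have M0 : 0 ≤ M := nonneg_of_mul_nonneg_left ((norm_nonneg _).trans h.bzz) (by positivity)
  have r2 : 1 / R ^ 2 ≤ R⁻¹ := by rw [one_div]; exact inv_anti₀ (by linarith) (by nlinarith)
  fin_cases i
  · refine h.b0.trans ?_
    change _ ≤ M * R⁻¹ * z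
    rw [div_eq_mul_one_div, mul_comm z, ← mul_assoc]
    gcongr
  · simpa [P218W.cm, omK, rK, div_eq_mul_inv, mul_assoc, mul_comm z] using h.bt
  · simpa [P218W.cm, omK, rK, ← mul_assoc, sq] using h.btt
  · refine h.bz.trans ?_
    change _ ≤ M * R⁻¹ * 1
    rw [mul_one]
    gcongr
  · simpa [P218W.cm, omK, rK] using h.bzt
  · simpa [P218W.cm, omK, rK] using h.bzz

/-- **the conical end**: the model operator and its perturbations are invertible -/
theorem cone (hμ : 0 < μ) : ∃ R₀ C : ℝ, 1 ≤ R₀ ∧ 0 < C ∧ ∀ R, R₀ ≤ R →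
    Function.Bijective (TK μ R) ∧ (∀ J, ‖J‖ ≤ C * ‖TK μ R J‖ ∧ ‖J.1 0‖ ≤ C / R * ‖TK μ R J‖ ∧
      ‖J.1 1‖ ≤ C / R * ‖TK μ R J‖ ∧ ‖J.1 3‖ ≤ C / R * ‖TK μ R J‖) ∧
    ∀ (P : XK R →L[ℂ] W (max R)) (δ K : ℝ), C * δ ≤ 1 / 4 → 12 * C * K ≤ R →
      (∀ J, ‖P J‖ ≤ δ * ‖J‖ + K * (‖J.1 0‖ + ‖J.1 1‖ + ‖J.1 3‖)) →
        Function.Surjective (TK μ R + P) ∧ ∀ J, ‖J‖ ≤ 2 * C * ‖(TK μ R + P) J‖ ∧
          ‖J.1 0‖ ≤ 2 * C / R * ‖(TK μ R + P) J‖ ∧ ‖J.1 1‖ ≤ 2 * C / R * ‖(TK μ R + P) J‖ ∧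
          ‖J.1 3‖ ≤ 2 * C / R * ‖(TK μ R + P) J‖ := by
  obtain ⟨R₁, C, C0, h₁⟩ := modek μ hμ
  obtain ⟨R₂, h₂⟩ := modekx μ hμ
  refine ⟨max 1 (max R₁ R₂), C, le_max_left _ _, C0, fun R hR => ?_⟩
  simp only [max_le_iff] at hR
  have R0 := one_pos.trans_le hR.1
  have r := ret_max R
  have c := omK_cont R0
  have dt : ∀ (x : W (max R)) k {b : ℝ} {z : ℝ}, z ∈ Ici R → ‖co x k z‖ ≤ b * 1 →
      ‖(z : ℂ)⁻¹ * co x k z‖ ≤ b * (1 / z) := fun x k b z hz l => by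
    rw [norm_mul, norm_inv, norm_real, Real.norm_of_nonneg (R0.le.trans hz), mul_comm, one_div]
    exact mul_le_mul_of_nonneg_right (by simpa using l) (inv_nonneg.2 (R0.le.trans hz))
  have nv : ∀ {x : ℂ} {b z : ℝ}, z ∈ Ici R → ‖x‖ ≤ b * (1 / z) → ‖z * x‖ ≤ b := fun hz l => by
    rwa [norm_mul, norm_real, Real.norm_of_nonneg (R0.le.trans hz), ← le_div_iff₀' (R0.trans_le hz),
      div_eq_mul_one_div]
  have bk : ∀ (J : XK R) k b, (∀ z ∈ Ici R, ‖co (TK μ R J) k z‖ ≤ b * 1) → ∀ z ∈ Ici R,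
      BK R k (co (wj omK (fun i => J.1 i.castSucc) 0) k) (co (wj omK (fun i => J.1 i.castSucc) 3) k)
        (co (wj omK (fun i => J.1 i.castSucc) 5) k) (C * b) z := fun J k b l => by
    have n : ∀ i z, ‖co (J.1 i) k z‖ ≤ ‖J.1‖ := fun i z =>
      ((J.1 i).co_le k z).trans ((half_le_self (norm_nonneg _)).trans (norm_le_pi_norm J.1 i))
    refine h₁ R hR.2.1 k _ _ _ b ‖J.1‖ ((XK.mj R0 J).j2 (wj_cont c _) k)
      (fun z hz => co_LKW R0 J k hz ▸ dt _ k hz (l z hz)) ?_ fun z hz => ⟨?_, ?_⟩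
    · exact (co_wj _ 0 k R).trans (mul_eq_zero_of_right _
        ((co_congr (G := fun _ => 0) J.2.2.2 k).trans (by simp [co, c1])))
    · rw [co_wj, norm_mul, norm_real, Real.norm_of_nonneg (omK_pos R0 0 hz).le, mul_comm]
      exact mul_le_mul_of_nonneg_right (n _ z) (R0.le.trans hz)
    · simpa [co_wj, omK] using n 3 z
  have a6 : ∀ (J : XK R) (i : Fin 6), ‖J.1 i.castSucc‖ ≤ C * rK R i * ‖TK μ R J‖ := fun J i =>
    r.norm_le (((TK μ R J).le_on (Ici R)).of_modes ((J.1 _).adm _)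
      (mul_nonneg C0.le (rK_bd hR.1 i).1) (by simp) fun k b _ l z hz => by
        have := (bk J k b l z hz).cm hR.1 hz i
        rw [← (XK.mj R0 J).cm k hz, co_wj, norm_mul, norm_real,
          Real.norm_of_nonneg (omK_pos R0 i hz).le, mul_comm] at this
        exact (le_of_mul_le_mul_right this (omK_pos R0 i hz)).trans_eq (by ring))
  have apr : ∀ J, ‖J‖ ≤ C * ‖TK μ R J‖ := fun J => by
    refine (pi_norm_le_iff_of_nonneg (by positivity)).2 fun i => ?_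
    refine Fin.lastCases ?_ (fun i => (a6 J i).trans ?_) i
    · refine r.norm_le (((TK μ R J).le_on (Ici R)).of_modes ((J.1 6).adm _) C0.le (by simp)
        fun k b _ l z hz => ?_)
      have := nv hz (bk J k b l z hz).bv
      rw [co_wj, co_wj] at this
      rw [mul_one]
      refine le_trans (le_of_eq (congrArg _ ((XK.co6 J k hz).trans ?_))) this
      change _ = z * (z * (((1 : ℝ) : ℂ) * co (J.1 3) k z) - (z : ℂ) * co (J.1 0) k z)
      push_cast
      ring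
    · have := (rK_bd hR.1 i).2
      calc _ ≤ C * 1 * ‖TK μ R J‖ := by gcongr
        _ = _ := by rw [mul_one]
  have sur : Function.Surjective (TK μ R) := fun y => by
    have ne : ∀ z ∈ Ici R, (z : ℂ) ≠ 0 := fun z hz => by exact_mod_cast (R0.trans_le hz).ne'
    choose u u₁ u₂ K j e hb hK using fun k => h₂ R hR.2.2 k (fun z => (z : ℂ)⁻¹ * co y k z) ‖y‖
      ((continuous_ofReal.continuousOn.inv₀ ne).mul (y.cont_co k).continuousOn) fun z hz =>
        dt y k hz ((y.co_le k z).trans (by linarith [norm_nonneg y]))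
    obtain ⟨b, hb', l⟩ := (y.le_on (Ici R)).ex
    have B := fun k => h₁ R hR.2.1 k _ _ _ _ _ (j k)
      (fun z hz => e k z hz ▸ dt y k hz (l k z hz)) (hb k) (hK k)
    obtain ⟨J, hJ, eJ⟩ := r.exists_jet c (fun i z => omK_pos R0 i) j (hb'.smul C0.le)
      fun i k z hz => ((B k z hz).cm hR.1 hz i).trans (mul_le_mul_of_nonneg_right
        (mul_le_of_le_one_right ((hb'.smul C0.le).a0 k) (rK_bd hR.1 i).2) (omK_pos R0 i hz).le)
    obtain ⟨x, -, ex⟩ := r.syn (f := fun k z => z * (z * u₁ k z - u k z)) (hb'.smul C0.le)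
      (fun k => continuous_ofReal.continuousOn.mul
        ((continuous_ofReal.continuousOn.mul (j k).c1).sub (j k).c0))
      fun k z hz => nv hz (B k z hz).bv
    have e0 : ∀ k, ∀ z ∈ Ici R, z * co (J 0) k z = u k z := fun k z hz =>
      (co_wj J 0 k z).symm.trans (eJ 0 k z hz)
    have e3 : ∀ k, ∀ z ∈ Ici R, co (J 3) k z = u₁ k z := fun k z hz => by
      simpa [omK, cm] using (co_wj J 3 k z).symm.trans (eJ 3 k z hz)
    have eq : (fun i : Fin 6 => (Fin.snoc J x : Fin 7 → W (max R)) i.castSucc) = J :=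
      funext fun i => Fin.snoc_castSucc ..
    let X : XK R := ⟨Fin.snoc J x, by rw [eq]; exact hJ, fun z hz θ =>
      (x.le_on _).eq_of_co ((((z : ℂ) ^ 2) • (J 3 - J 0)).le_on _) hz (fun k => by
        rw [ex k z hz, ← e0 k z hz, ← e3 k z hz, ← W.coL_apply k z (_ • _), map_smul, map_sub]
        simp only [W.coL_apply, smul_eq_mul]
        ring) θ, fun θ => ((J 0).le_on _).eq_of_co (le_zero (ω := fun _ => 1) (by simp))
      self_mem_Ici (fun k => ((mul_eq_zero.1 ((e0 k R self_mem_Ici).trans (hb k))).resolve_left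
        (ne R self_mem_Ici)).trans (by simp [co, c1])) θ⟩
    refine ⟨X, r.ext_co fun k z hz => mul_left_cancel₀ (inv_ne_zero (ne z hz)) ?_⟩
    refine (co_LKW R0 X k hz).symm.trans (Eq.trans ?_ (e k z hz))
    simp only [LK, X, eq, eJ _ k z hz]; rfl
  have bij : Function.Bijective (TK μ R) :=
    ⟨(injective_iff_map_eq_zero _).2 fun J e => by simpa [e] using apr J, sur⟩
  have a0 : ∀ J, ‖J.1 0‖ ≤ C / R * ‖TK μ R J‖ ∧ ‖J.1 1‖ ≤ C / R * ‖TK μ R J‖ ∧
      ‖J.1 3‖ ≤ C / R * ‖TK μ R J‖ := fun J => ⟨a6 J 0, a6 J 1, a6 J 3⟩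
  refine ⟨bij, fun J => ⟨apr J, a0 J⟩, fun P δ K hδ hK hP => ?_⟩
  have := complete_XK R0
  obtain ⟨s, l⟩ := neumann (q := normSeminorm ℂ _) ⟨1, by simp⟩ bij (P := P) fun J => by
    simp only [coe_normSeminorm]
    refine (hP J).trans (le_of_mul_le_mul_left ?_ C0)
    obtain ⟨b0, b1, b3⟩ := a0 J
    have s0 : 0 ≤ ‖J.1 0‖ + ‖J.1 1‖ + ‖J.1 3‖ := by positivity
    have e : R * (C / R * ‖TK μ R J‖) = C * ‖TK μ R J‖ := by field_simp
    nlinarith [mul_le_mul_of_nonneg_right hδ (norm_nonneg J), mul_le_mul_of_nonneg_right hK s0,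
      apr J, mul_le_mul_of_nonneg_left (add_le_add_three b0 b1 b3) R0.le]
  refine ⟨s, fun J => ?_⟩
  have l := l J
  simp only [coe_normSeminorm] at l
  have up : ∀ {x a : ℝ}, 0 ≤ a → x ≤ a * ‖TK μ R J‖ → x ≤ 2 * a * ‖(TK μ R + P) J‖ :=
    fun a0 h => h.trans (by nlinarith)
  have p : 0 ≤ C / R := by positivity
  rw [mul_div_assoc]
  exact ⟨up C0.le (apr J), up p (a0 J).1, up p (a0 J).2.1, up p (a0 J).2.2⟩

end Vale.Agent.P218W
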