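import Vale.Agent.P218W.Sem
import Vale.Agent.P218M.G5

/-! The linear theory on a half line, `ρ = 2`. -/

open Set Complex Filter Topology
open scoped Real

noncomputable section

namespace Vale.Agent.P218W

open Vale.Agent.P218M Vale.Agent.P218T

variable {R M a ε : ℝ} {w : ℝ → ℝ}

/-- weights of the six components -/
def omH (w : ℝ → ℝ) : Fin 6 → ℝ → ℝ := ![w, w, w, fun z => w z / z, w, w]

/-- normalised jets whose modes `|k| ≥ 2` vanish at `R` -/
def XH (R : ℝ) (w : ℝ → ℝ) : Submodule ℂ (Fin 6 → W (max R)) where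
  carrier := {J | Jet (Ici R) (wj (omH w) J) ∧ ∀ k, 2 ≤ |k| → co (J 0) k R = 0}
  zero_mem' := ⟨(JetS (Ici R) (max R) (omH w)).zero_mem, fun k _ => map_zero (W.coL k R)⟩
  add_mem' h l := ⟨(JetS (Ici R) (max R) (omH w)).add_mem h.1 l.1, fun k hk =>
    (map_add (W.coL k R) _ _).trans (by simp [h.2 k hk, l.2 k hk])⟩
  smul_mem' c _ h := ⟨(JetS (Ici R) (max R) (omH w)).smul_mem c h.1, fun k hk =>
    (map_smul (W.coL k R) c _).trans (by simp [h.2 k hk])⟩

theorem omH_cont (h : 0 < R) (c : ContinuousOn w (Ici R)) (i : Fin 6) :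
    ContinuousOn (omH w i) (Ici R) := by
  fin_cases i
  exacts [c, c, c, c.div continuousOn_id fun z hz => (h.trans_le hz).ne', c, c]

theorem omH_pos (h : 0 < R) (p : ∀ z ∈ Ici R, 0 < w z) (i : Fin 6) {z : ℝ} (hz : z ∈ Ici R) :
    0 < omH w i z := by
  fin_cases i
  exacts [p z hz, p z hz, p z hz, div_pos (p z hz) (h.trans_le hz), p z hz, p z hz]

theorem isClosed_XH (h : 0 < R) (c : ContinuousOn w (Ici R)) :
    IsClosed (XH R w : Set (Fin 6 → W (max R))) := by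
  have e : (XH R w : Set (Fin 6 → W (max R))) = ↑(JetS (Ici R) (max R) (omH w)) ∩
      ⋂ k, ⋂ _ : 2 ≤ |k|, {J : Fin 6 → W (max R) | W.coL k R (J 0) = 0} := by
    ext J; simp [XH, JetS]
  rw [e]
  exact (isClosed_jetS (omH_cont h c)).inter (isClosed_iInter fun k => isClosed_iInter fun _ =>
    isClosed_eq (by fun_prop) continuous_const)

/-- the model operator `(u_zz - z u_z / 2 + u + u_θθ / 2) / w` -/
def LHW {r : ℝ → ℝ} : (Fin 6 → W r) →L[ℂ] W r :=
  .proj 5 - (1 / 2 : ℂ) • .proj 3 + .proj 0 + (1 / 2 : ℂ) • .proj 2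

theorem LHW_apply {r : ℝ → ℝ} (J : Fin 6 → W r) :
    LHW J = J 5 - (1 / 2 : ℂ) • J 3 + J 0 + (1 / 2 : ℂ) • J 2 := rfl

/-- the model operator on `XH` -/
def TH (R : ℝ) (w : ℝ → ℝ) : XH R w →L[ℂ] W (max R) := LHW ∘L (XH R w).subtypeL

theorem TH_apply (J : XH R w) : TH R w J = LHW J.1 := rfl

theorem XH.mj (c : ∀ i, ContinuousOn (omH w i) (Ici R)) (J : XH R w) :
    MJ (Ici R) (wj (omH w) J.1) :=
  J.2.1.mj (by rw [interior_Ici, closure_Ioi]) (wj_adm _) (wj_cont c _)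

theorem co_LHW (h : 0 < R) {J : Fin 6 → W (max R)} (m : MJ (Ici R) (wj (omH w) J)) (k : ℤ) {z : ℝ}
    (hz : z ∈ Ici R) : LC 0 k (co (wj (omH w) J 0) k) (co (wj (omH w) J 3) k)
      (co (wj (omH w) J 5) k) z = w z * co (LHW J) k z := by
  have z0 : (z : ℂ) ≠ 0 := by exact_mod_cast (h.trans_le hz).ne'
  have e := (m.t2 k z hz).trans (congrArg _ (m.t1 k z hz))
  have e' : co (LHW J) k z = co (J 5) k z - 1 / 2 * co (J 3) k z + co (J 0) k z +
      1 / 2 * co (J 2) k z := by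
    simp only [← W.coL_apply, LHW_apply, map_add, map_sub, map_smul, smul_eq_mul]
  rw [e']
  simp only [LC, rh, co_wj, omH, Matrix.cons_val, Matrix.cons_val_zero, ofReal_div, zero_mul,
    add_zero] at e ⊢
  field_simp
  linear_combination -e - k ^ 2 * w z * co (J 0) k z * I_mul_I

theorem _root_.Vale.Agent.P218M.BH.cm {k : ℤ} {u u₁ u₂ : ℝ → ℂ} {z : ℝ} (h : BH w k u u₁ u₂ M z)
    (i : Fin 6) : ‖cm k u u₁ u₂ i z‖ ≤ M * omH w i z := by
  have := h.b0
  have := norm_nonneg (u z)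
  fin_cases i
  · change ‖u z‖ ≤ M * w z
    nlinarith [sq_nonneg (k : ℝ)]
  · simp only [P218W.cm, omH]
    simp
    nlinarith [mul_nonneg this (sq_nonneg (|(k : ℝ)| - 1)), sq_abs (k : ℝ),
      mul_nonneg this (abs_nonneg (k : ℝ))]
  · simp only [P218W.cm, omH]
    simp [← mul_assoc]
    nlinarith
  · exact h.bz
  · simpa [P218W.cm, omH] using h.bzt
  · exact h.bzz

theorem wH_pos (h : 0 < R) (e : 0 ≤ ε) : ∀ z ∈ Ici R, 0 < wH a ε z := fun _ hz =>
  add_pos_of_pos_of_nonneg (Real.rpow_pos_of_pos (h.trans_le hz) _) e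

theorem wH_cont (h : 0 < R) : ContinuousOn (wH a ε) (Ici R) :=
  (continuousOn_id.rpow_const fun _ hz => .inl (h.trans_le hz).ne').add continuousOn_const

theorem wH_le (h : 1 ≤ R) (ha : -1 / 2 ≤ a) (e : 0 ≤ ε) {z : ℝ} (hz : z ∈ Ici R) :
    wH a ε z ≤ (1 + ε) * √z := by
  have h1 : 1 ≤ z := h.trans hz
  have h2 : z ^ (-a) ≤ √z := Real.sqrt_eq_rpow z ▸ Real.rpow_le_rpow_of_exponent_le h1 (by linarith)
  have h3 : 1 ≤ √z := Real.one_le_sqrt.2 h1
  unfold wH
  nlinarith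

/-- **the half line**: the model operator and its small perturbations are invertible -/
theorem half : ∃ R₀ C : ℝ, 1 ≤ R₀ ∧ 0 < C ∧ ∀ R, R₀ ≤ R → ∀ a ∈ Icc (-1 / 2 : ℝ) (31 / 16),
    ∀ ε, 0 ≤ ε → Function.Bijective (TH R (wH a ε)) ∧ (∀ J, ‖J‖ ≤ C * ‖TH R (wH a ε) J‖) ∧
      ∀ P : XH R (wH a ε) →L[ℂ] W (max R), ‖P‖ ≤ 1 / (2 * C) →
        Function.Surjective (TH R (wH a ε) + P) ∧
          ∀ J, ‖J‖ ≤ 2 * C * ‖(TH R (wH a ε) + P) J‖ := by
  obtain ⟨R₁, C, C0, h₁⟩ := modeh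
  obtain ⟨R₂, h₂⟩ := modehx
  refine ⟨max 1 (max R₁ R₂), C, le_max_left _ _, C0, fun R hR a ha ε e0 => ?_⟩
  simp only [max_le_iff] at hR
  have R0 := one_pos.trans_le hR.1
  have r := ret_max R
  have p := wH_pos (a := a) R0 e0
  have c := omH_cont R0 (wH_cont (a := a) (ε := ε) R0)
  have gr : ∀ (x : W (max R)) k, ∀ z ∈ Ici R,
      ‖(wH a ε z : ℂ) * co x k z‖ ≤ (1 + ε) * ‖x‖ * √z := fun x k z hz => by
    rw [norm_mul, norm_real, Real.norm_of_nonneg (p z hz).le, mul_right_comm]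
    exact mul_le_mul (wH_le hR.1 ha.1 e0 hz) ((x.co_le k z).trans (half_le_self (norm_nonneg _)))
      (norm_nonneg _) (by positivity)
  have dt : ∀ (x : W (max R)) k {b : ℝ} {z : ℝ}, z ∈ Ici R → ‖co x k z‖ ≤ b * 1 →
      ‖(wH a ε z : ℂ) * co x k z‖ ≤ b * wH a ε z := fun x k b z hz l => by
    rw [norm_mul, norm_real, Real.norm_of_nonneg (p z hz).le, mul_comm]
    exact mul_le_mul_of_nonneg_right (by simpa using l) (p z hz).le
  have apr : ∀ J, ‖J‖ ≤ C * ‖TH R (wH a ε) J‖ := fun J => by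
    have m := XH.mj c J
    refine (pi_norm_le_iff_of_nonneg (by positivity)).2 fun i => r.norm_le
      (((TH R _ J).le_on (Ici R)).of_modes ((J.1 i).adm _) C0.le (by simp) fun k b _ l z hz => ?_)
    have := (h₁ R hR.2.1 a ha ε e0 k _ _ _ b ((1 + ε) * ‖J.1‖) (m.j2 (wj_cont c _) k)
      (fun z hz => co_LHW R0 m k hz ▸ dt _ k hz (l z hz))
      (fun hk => by rw [co_wj, J.2.2 k hk, mul_zero]) (fun z hz => ?_) z hz).cm i
    · rw [← m.cm k hz, co_wj, norm_mul, norm_real, Real.norm_of_nonneg (omH_pos R0 p i hz).le,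
        mul_comm] at this
      simpa using le_of_mul_le_mul_right this (omH_pos R0 p i hz)
    · have z1 : 1 ≤ z := hR.1.trans hz
      have h3 : √z ≤ z := Real.sqrt_le_iff.2 ⟨by linarith, by nlinarith⟩
      have l := fun i => (gr (J.1 i) k z hz).trans (show _ ≤ (1 + ε) * ‖J.1‖ * √z by
        gcongr; exact norm_le_pi_norm J.1 i)
      refine ⟨co_wj J.1 0 k z ▸ l 0, ?_⟩
      rw [co_wj]
      refine le_trans ?_ ((l 3).trans (by gcongr))
      rw [norm_mul, norm_mul, norm_real, norm_real, Real.norm_of_nonneg (p z hz).le,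
        Real.norm_of_nonneg (omH_pos R0 p 3 hz).le]
      gcongr
      exact div_le_self (p z hz).le z1
  have sur : Function.Surjective (TH R (wH a ε)) := fun y => by
    choose u u₁ u₂ K j e hb hK using fun k => h₂ R hR.2.2 k (fun z => wH a ε z * co y k z) _
      ((continuous_ofReal.comp_continuousOn (wH_cont R0)).mul (y.cont_co k).continuousOn) (gr y k)
    obtain ⟨b, hb', l⟩ := (y.le_on (Ici R)).ex
    obtain ⟨J, hJ, eJ⟩ := r.exists_jet c (fun i z => omH_pos R0 p i) j (hb'.smul C0.le)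
      fun i k z hz => (h₁ R hR.2.1 a ha ε e0 k _ _ _ _ _ (j k)
        (fun z hz => e k z hz ▸ dt y k hz (l k z hz)) (hb k) (hK k) z hz).cm i
    have ne : ∀ z ∈ Ici R, (wH a ε z : ℂ) ≠ 0 := fun z hz => by exact_mod_cast (p z hz).ne'
    let X : XH R (wH a ε) := ⟨J, hJ, fun k hk => (mul_eq_zero.1 ((co_wj J 0 k R).symm.trans
      ((eJ 0 k R self_mem_Ici).trans (hb k hk)))).resolve_left (ne R self_mem_Ici)⟩
    refine ⟨X, r.ext_co fun k z hz => mul_left_cancel₀ (ne z hz) ?_⟩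
    refine (co_LHW R0 (XH.mj c X) k hz).symm.trans (Eq.trans ?_ (e k z hz))
    simp only [LC, X, eJ _ k z hz]; rfl
  have bij : Function.Bijective (TH R (wH a ε)) :=
    ⟨(injective_iff_map_eq_zero _).2 fun J e => by simpa [e] using apr J, sur⟩
  refine ⟨bij, apr, fun P hP => ?_⟩
  have := (isClosed_XH R0 (wH_cont (a := a) (ε := ε) R0)).completeSpace_coe
  obtain ⟨s, l⟩ := neumann (q := normSeminorm ℂ _) ⟨1, by simp⟩ bij (P := P) fun J =>
    (P.le_opNorm J).trans ((mul_le_mul hP (apr J) (norm_nonneg _) (by positivity)).trans_eq (by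
      simp only [coe_normSeminorm]; field_simp))
  exact ⟨s, fun J => (apr J).trans (by
    have := l J
    simp only [coe_normSeminorm] at this
    nlinarith)⟩

end Vale.Agent.P218W
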