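import Vale.Agent.P218W.NLb
import Vale.Agent.P218L.Defs

/-! The nonlinear estimates in the natural and in the heavy seminorms. -/

open Set Complex Filter Topology

noncomputable section

namespace Vale.Agent.P218W

open Vale.Agent.P218M Vale.Agent.P218N Vale.Agent.P218T Vale.Agent.P218L

variable {Y R Z η M : ℝ} {c : ℂ}

/-- the natural seminorm on all families -/
abbrev nN (c : ℂ) (R Z : ℝ) : Seminorm ℂ (Fin 6 → WI R Z) := xw (wK (31 / 16) c) c R Z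

/-- the heavy weights of mode `0` -/
abbrev omP (c : ℂ) (Z : ℝ) : Fin 6 → ℝ → ℝ := om (fun z => hv c z * (rh c z).re)
  (fun z => hv c z * (gO c Z z + (rh c z).re)) (wK (19 / 32) c) c Z

/-- the heavy seminorm on all families -/
abbrev nH (c : ℂ) (R Z : ℝ) : Seminorm ℂ (Fin 6 → WI R Z) :=
  xn (Icc R Z) (omP c Z) (nu (wK (19 / 32) c) c Z)

theorem pN_eq (v : XE R Z) : pN c R Z v = nN c R Z v.1 := rfl
theorem pH_eq (v : XE R Z) : pH c R Z v = nH c R Z v.1 := rfl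

theorem XE.p2 (h : R < Z) (v : XE R Z) : v.1 ∈ P2 R Z := (XE.mj h v).p2 h.le

/-- the nonlinear parts of the equation and of the boundary conditions -/
def FE (c : ℂ) (R Z : ℝ) (J : Fin 6 → WI R Z) : YE R Z := (RR c R Z J, low Z (BB c R Z J))

section
variable (h : Cyl Y R Z c) (Y1 : 1 ≤ Y)
include h Y1

theorem qN_le {y : YE R Z} : qN c R Z y ≤ M ↔ YN (gO c Z) (gW (wK (31 / 16) c) c Z) (Z * wO c Z)
    (Z * wK (31 / 16) c Z) y M := by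
  have l : R ≤ Z := by linarith [h.RZ]
  have hZ := right_mem_Icc.2 l
  obtain ⟨a, b, e, -⟩ := pw_all h Y1
  exact yn_le_iff l e (pw_gW h (one_pos.trans_le Y1) (a _)) (mul_pos (h.z0 hZ) (b.pos hZ))
    (mul_pos (h.z0 hZ) ((a _).pos hZ))

theorem qH_le {y : YE R Z} : qH c R Z y ≤ M ↔ YN (fun z => hv c z * gO c Z z)
    (gW (wK (19 / 32) c) c Z) (hv c Z * (Z * wO c Z)) (Z * wK (19 / 32) c Z) y M := by
  have l : R ≤ Z := by linarith [h.RZ]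
  have hZ := right_mem_Icc.2 l
  obtain ⟨a, b, e, f, -⟩ := pw_all h Y1
  exact yn_le_iff l (f.mul isCompact_Icc e) (pw_gW h (one_pos.trans_le Y1) (a _))
    (mul_pos (f.pos hZ) (mul_pos (h.z0 hZ) (b.pos hZ))) (mul_pos (h.z0 hZ) ((a _).pos hZ))

theorem nN_le {J : Fin 6 → WI R Z} (M0 : 0 ≤ M) : nN c R Z J ≤ M ↔
    XN (Icc R Z) (omW (wK (31 / 16) c) c Z) (nu (wK (31 / 16) c) c Z) (fun i => J i) M := by
  have Y0 := one_pos.trans_le Y1
  obtain ⟨a, -, e, -, g, -⟩ := pw_all h Y1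
  exact (ret_cl (by linarith [h.RZ])).xn_le_iff (pw_om h Y0 (a _) g (e.add isCompact_Icc g))
    (pw_nu h Y0 (a _)) M0

theorem nH_le {J : Fin 6 → WI R Z} (M0 : 0 ≤ M) : nH c R Z J ≤ M ↔
    XN (Icc R Z) (omP c Z) (nu (wK (19 / 32) c) c Z) (fun i => J i) M := by
  have Y0 := one_pos.trans_le Y1
  obtain ⟨a, -, e, f, g, -⟩ := pw_all h Y1
  exact (ret_cl (by linarith [h.RZ])).xn_le_iff (pw_om h Y0 (a _) (f.mul isCompact_Icc g)
    (f.mul isCompact_Icc (e.add isCompact_Icc g))) (pw_nu h Y0 (a _)) M0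

theorem wk_key {z : ℝ} (hz : z ∈ Icc R Z) :
    wK (31 / 16) c z ≤ 6 * (wK (19 / 32) c z / hv c z) ∧
      wK (19 / 32) c z / hv c z ≤ 6 * (z ^ (-19 / 16 : ℝ) * (rh c z).re * √‖rh c z‖) := by
  obtain ⟨a, -, b⟩ := wtk_key (h.z0 hz) (h.re0 (one_pos.trans_le Y1) hz) (Complex.re_le_norm _)
    (h.dsc z hz) (Y1.trans (h.tip z hz))
  refine ⟨?_, b⟩
  rw [← mul_div_assoc, le_div_iff₀' ((pw_all h Y1).2.2.2.1.pos hz)]
  exact a

theorem sa_N {r : ℝ} (η0 : 0 < η) (l : η ≤ r) (ηY : 1 ≤ η ^ 8 * Y) :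
    Sa r Y R Z η c (wK (31 / 16) c) :=
  have a := (pw_all h Y1).1 (31 / 16)
  ⟨h, Y1, fun z hz => ⟨a.pos hz, by linarith [wk_key h Y1 hz]⟩, a.c, η0, l, ηY⟩

theorem sa_H {r : ℝ} (η0 : 0 < η) (l : η ≤ r) (ηY : 1 ≤ η ^ 8 * Y) :
    Sa r Y R Z η c fun z => wK (19 / 32) c z / hv c z := by
  obtain ⟨a, -, -, f, -⟩ := pw_all h Y1
  refine ⟨h, Y1, fun z hz => ?_, (a _).c.div f.c fun z hz => (f.pos hz).ne', η0, l, ηY⟩
  have := div_pos ((a (19 / 32)).pos hz) (f.pos hz)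
  exact ⟨this, by linarith [wk_key h Y1 hz]⟩

end

theorem nu_le {w w' : ℝ → ℝ} {z C : ℝ} (h : Cyl Y R Z c) (Y0 : 0 < Y) (hz : z ∈ Icc R Z)
    (w0 : 0 ≤ w z) (l : w z ≤ C * w' z) (C0 : 0 ≤ C) (i : Fin 6) :
    nu w c Z i z ≤ C * nu w' c Z i z := by
  rw [← nu_mul (s := fun _ => C) C0]
  have := h.z0 hz
  have := h.re0 Y0 hz
  have : 0 < sg c z := by have := norm_pos_iff.2 (cyl_ne h Y0 hz); rw [sg_eq]; positivity
  have := ly_pos Z z
  have := w0.trans l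
  fin_cases i <;> simp only [nu, gW, ta, Fin.reduceFinMk, Matrix.cons_val] <;> gcongr

/-- the natural seminorm dominates the weak seminorm of the heavy package -/
theorem xw_le_nN {r : ℝ} (h : Sa r Y R Z η c fun z => wK (19 / 32) c z / hv c z)
    (J : Fin 6 → WI R Z) : xw (fun z => wK (19 / 32) c z / hv c z) c R Z J ≤ 6 * nN c R Z J := by
  have k := fun z hz => nu_le h.cyl h.Y0 (z := z) (w' := fun z => wK (19 / 32) c z / hv c z) hz
    (((pw_all h.cyl h.Y1).1 _).pos hz).le (wk_key h.cyl h.Y1 hz).1 (by norm_num)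
  refine (h.xw_le (by positivity)).2 fun i => ?_
  have := (nN_le h.cyl h.Y1 (apply_nonneg _ _)).1 (le_refl (nN c R Z J)) i
  refine ⟨this.1.wt (by norm_num) (fun z hz => ((h.po i).pos hz).le) fun z hz => ?_,
    this.2.wt (by norm_num) (fun z hz => ((h.pn i).pos hz).le) fun z hz => k z hz i⟩
  have p := (h.po i).pos hz
  fin_cases i <;> simp only [omW, om, Fin.reduceFinMk, Matrix.cons_val] at p ⊢
  exacts [by linarith, k z hz 1, k z hz 2, by linarith, k z hz 4, by linarith]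

theorem om_mul {s o₀ o₁ w w' : ℝ → ℝ} {z : ℝ} (e : ∀ i, nu w' c Z i z = s z * nu w c Z i z) (i) :
    om (fun z => s z * o₀ z) (fun z => s z * o₁ z) w' c Z i z = s z * om o₀ o₁ w c Z i z := by
  fin_cases i
  exacts [rfl, e 1, e 2, mul_div_assoc _ _ _, e 4, rfl]

theorem yn_of {g₀ g b₀ b₁ : ℝ → ℝ} (l : R ≤ Z) {x y : WI R Z} {N N' : ℝ}
    (hx : L2 (Icc R Z) x g₀ g N) (hy : L2 (Icc R Z) y b₀ b₁ N') (a : N ≤ M) (b : N' ≤ M) :
    YN g₀ g (b₀ Z) (b₁ Z) (x, low Z y) M :=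
  ⟨hx.mono subset_rfl (fun _ _ => le_rfl) (fun _ _ => le_rfl) a, low_le
    (hy.mono subset_rfl (fun _ _ => le_rfl) (fun _ _ => le_rfl) b) (right_mem_Icc.2 l)⟩

theorem fderiv_FE {J : Fin 6 → WI R Z} (a : AnalyticAt ℂ (RR c R Z) J) (b : AnalyticAt ℂ (BB c R Z) J)
    (d) : fderiv ℂ (FE c R Z) J d = (fderiv ℂ (RR c R Z) J d, low Z (fderiv ℂ (BB c R Z) J d)) :=
  DFunLike.congr_fun (a.differentiableAt.hasFDerivAt.prodMk ((low Z).hasFDerivAt.comp J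
    b.differentiableAt.hasFDerivAt)).fderiv d

section
variable (h : Cyl Y R Z c) (Y1 : 1 ≤ Y) {F G : (Fin 6 → WI R Z) → WI R Z} {C C' : ℝ}
  {J d : Fin 6 → WI R Z} (hJ : J ∈ P2 R Z) (hd : d ∈ P2 R Z) (η0 : 0 < η) (C0 : 0 < C) (C1 : 0 < C')
include h Y1 hJ hd η0 C0 C1

theorem pk_N (d₁ : DB (wK (31 / 16) c) c R Z F (gO c Z) (gW (wK (31 / 16) c) c Z) η C)
    (d₂ : DB (wK (31 / 16) c) c R Z G (fun z => z * wO c z) (fun z => z * wK (31 / 16) c z) η C')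
    (l : nN c R Z J ≤ η / 4) :
    qN c R Z (fderiv ℂ F J d, low Z (fderiv ℂ G J d)) ≤ (C + C') * η * nN c R Z d ∧
    ∀ J' ∈ P2 R Z, nN c R Z J' ≤ η / 8 → qN c R Z (fderiv ℂ F (J + J') d - fderiv ℂ F J d,
      low Z (fderiv ℂ G (J + J') d - fderiv ℂ G J d)) ≤ (C + C') * nN c R Z J' * nN c R Z d := by
  have le : R ≤ Z := by linarith [h.RZ]
  have p1 : PW (Icc R Z) fun _ => 1 := pw_cyl continuousOn_const (by simp)
  have xN : XN (Icc R Z) (fun i z => 1 * omW (wK (31 / 16) c) c Z i z)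
      (fun i z => 1 * nu (wK (31 / 16) c) c Z i z) (fun i => d i) (nN c R Z d) := by
    simpa only [one_mul] using (nN_le h Y1 (apply_nonneg _ _)).1 le_rfl
  replace d₁ := d₁ _ p1 J hJ d hd _ xN
  replace d₂ := d₂ _ p1 J hJ d hd _ xN
  simp only [one_mul] at d₁ d₂
  have l' := l.trans (show η / 4 ≤ η / 2 by linarith)
  exact ⟨(qN_le h Y1).2 (yn_of le (d₁.1 l') (d₂.1 l') (by gcongr; linarith) (by gcongr; linarith)),
    fun J' a b => (qN_le h Y1).2 (yn_of le (d₁.2 J' a l b) (d₂.2 J' a l b) (by gcongr; linarith)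
      (by gcongr; linarith))⟩

theorem pk_H {w : ℝ → ℝ} (hw : w = fun z => wK (19 / 32) c z / hv c z)
    (d₁ : DB w c R Z F (gO c Z) (gW w c Z) η C)
    (d₂ : DB w c R Z G (fun z => z * wO c z) (fun z => z * w z) η C') (l : xw w c R Z J ≤ η / 4) :
    qH c R Z (fderiv ℂ F J d, low Z (fderiv ℂ G J d)) ≤ (C + C') * η * nH c R Z d ∧
    ∀ J' ∈ P2 R Z, xw w c R Z J' ≤ η / 8 → qH c R Z (fderiv ℂ F (J + J') d - fderiv ℂ F J d,
      low Z (fderiv ℂ G (J + J') d - fderiv ℂ G J d)) ≤ (C + C') * xw w c R Z J' * nH c R Z d := by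
  have le : R ≤ Z := by linarith [h.RZ]
  have pv := (pw_all h Y1).2.2.2.1
  have e : ∀ z ∈ Icc R Z, wK (19 / 32) c z = hv c z * w z := fun z hz => by
    rw [hw, mul_div_cancel₀ _ (pv.pos hz).ne']
  have ev : ∀ z ∈ Icc R Z, ∀ i, nu (wK (19 / 32) c) c Z i z = hv c z * nu w c Z i z :=
    fun z hz i => by
      rw [← nu_mul (pv.pos hz).le]
      fin_cases i <;> simp only [nu, gW, Fin.reduceFinMk, Matrix.cons_val, e z hz]
  have xH : XN (Icc R Z) (fun i z => hv c z * omW w c Z i z) (fun i z => hv c z * nu w c Z i z)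
      (fun i => d i) (nH c R Z d) := fun i => ((nH_le h Y1 (apply_nonneg _ _)).1 le_rfl i).mono
    subset_rfl (fun z hz => (om_mul (ev z hz) i).le) (fun z hz => (ev z hz i).le) le_rfl
  replace d₁ := d₁ _ pv J hJ d hd _ xH
  replace d₂ := d₂ _ pv J hJ d hd _ xH
  have fin : ∀ {x y : WI R Z} {N N' M}, L2 (Icc R Z) x (fun z => hv c z * gO c Z z)
      (fun z => hv c z * gW w c Z z) N → L2 (Icc R Z) y (fun z => hv c z * (z * wO c z))
      (fun z => hv c z * (z * w z)) N' → N ≤ M → N' ≤ M → qH c R Z (x, low Z y) ≤ M :=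
    fun a b f g => (qH_le h Y1).2 (yn_of le (b₁ := fun z => z * wK (19 / 32) c z)
      (a.mono subset_rfl (fun _ _ => le_rfl) (fun z hz => by rw [gW, gW, e z hz, mul_assoc]) le_rfl)
      (b.mono subset_rfl (fun _ _ => le_rfl) (fun z hz => by rw [e z hz, mul_left_comm]) le_rfl) f g)
  have l' := l.trans (show η / 4 ≤ η / 2 by linarith)
  exact ⟨fin (d₁.1 l') (d₂.1 l') (by gcongr; linarith) (by gcongr; linarith), fun J' a b =>
    fin (d₁.2 J' a l b) (d₂.2 J' a l b) (by gcongr; linarith) (by gcongr; linarith)⟩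

end

/-- **The nonlinear estimates on a cylindrical end** -/
theorem end_pk : ∃ r₀ C : ℝ, 0 < r₀ ∧ 0 < C ∧ ∀ Y R Z η c, Cyl Y R Z c → 1 ≤ Y → 0 < η → η ≤ r₀ →
    1 ≤ η ^ 8 * Y → ∀ J ∈ P2 R Z, nN c R Z J ≤ η → IsUnit ((rJ c R Z + J) 0) ∧
      IsUnit (vD ((rJ c R Z + J) 0) ((rJ c R Z + J) 3) ((rJ c R Z + J) 1)) ∧
      AnalyticAt ℂ (RR c R Z) J ∧ AnalyticAt ℂ (BB c R Z) J ∧
      (∀ J₀ J₁ v ε k, Bc J₀ J₁ v ε k Z (rh c Z) (fun θ => 2 * c * Z + J 3 (Z, θ)) =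
        low Z (J 3) + low Z (BB c R Z J) + ![2 * c * Z + 4 * ((1 - v) * HJ.gm J₀ Z (rh c Z) +
          v * HJ.gm J₁ Z (rh c Z)) / (Z * (1 + ε * lk k (Z ^ 2 + rh c Z))), 0, 0]) ∧
      qN c R Z (FE c R Z J) ≤ C * η ^ 2 ∧ ∀ d ∈ P2 R Z,
        qN c R Z (fderiv ℂ (FE c R Z) J d) ≤ C * η * nN c R Z d ∧
        qH c R Z (fderiv ℂ (FE c R Z) J d) ≤ C * η * nH c R Z d ∧
        ∀ J' ∈ P2 R Z, nN c R Z J' ≤ η →
          qN c R Z (fderiv ℂ (FE c R Z) (J + J') d - fderiv ℂ (FE c R Z) J d) ≤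
            C * nN c R Z J' * nN c R Z d ∧
          qH c R Z (fderiv ℂ (FE c R Z) (J + J') d - fderiv ℂ (FE c R Z) J d) ≤
            C * nN c R Z J' * nH c R Z d := by
  obtain ⟨r₀, _, p₀, -, e₀⟩ := end_val
  obtain ⟨r₁, C₁, p₁, c₁, e₁⟩ := end_nl
  obtain ⟨r₂, C₂, p₂, c₂, e₂⟩ := bc_nl
  refine ⟨min r₀ (min r₁ r₂) / 48, 2304 * (C₁ + C₂), by positivity, by positivity,
    fun Y R Z η c h Y1 η0 ηr ηY J hJ l => ?_⟩
  rw [le_div_iff₀' (by norm_num), le_min_iff, le_min_iff] at ηr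
  replace ηY : 1 ≤ (48 * η) ^ 8 * Y := ηY.trans (by gcongr; linarith)
  have η1 : 0 < 48 * η := by positivity
  have s := sa_H h Y1 η1 ηr.2.1 ηY
  have sN := sa_N h Y1 η1 ηr.1 ηY
  obtain ⟨n₁, d₁⟩ := e₁ _ _ _ _ _ _ (sa_N h Y1 η1 ηr.2.1 ηY)
  obtain ⟨n₂, d₂⟩ := e₂ _ _ _ _ _ _ (sa_N h Y1 η1 ηr.2.2 ηY)
  have l' := l.trans (show η ≤ 48 * η by linarith)
  obtain ⟨u₁, u₂, -⟩ := e₀ _ _ _ _ _ _ sN J hJ l'
  have v := yn_of (M := 2304 * (C₁ + C₂) * η ^ 2) s.le (sN.yw_le.1 (n₁ J hJ l').2) (n₂ J hJ l').2.1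
    (by nlinarith [mul_nonneg c₂.le (sq_nonneg η)]) (by nlinarith [mul_nonneg c₁.le (sq_nonneg η)])
  refine ⟨u₁, u₂, (n₁ J hJ l').1, (n₂ J hJ l').1, (n₂ J hJ l').2.2, by
    rw [FE]; exact (qN_le h Y1).2 v, fun d hd => ?_⟩
  obtain ⟨a₁, a₂⟩ := pk_N h Y1 hJ hd η1 c₁ c₂ d₁ d₂ (l.trans (by linarith))
  obtain ⟨b₁, b₂⟩ := pk_H h Y1 hJ hd η1 c₁ c₂ rfl (e₁ _ _ _ _ _ _ s).2
    (e₂ _ _ _ _ _ _ (sa_H h Y1 η1 ηr.2.2 ηY)).2 ((xw_le_nN s J).trans (by linarith))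
  have k : ∀ {x y t : ℝ}, 0 ≤ y → 0 ≤ t → x ≤ 48 * y →
      (C₁ + C₂) * x * t ≤ 2304 * (C₁ + C₂) * y * t := fun a b e =>
    mul_le_mul_of_nonneg_right (by nlinarith [mul_nonneg (add_pos c₁ c₂).le a]) b
  rw [fderiv_FE (n₁ J hJ l').1 (n₂ J hJ l').1]
  refine ⟨a₁.trans (k η0.le (apply_nonneg _ _) le_rfl), b₁.trans (k η0.le (apply_nonneg _ _) le_rfl),
    fun J' hJ' m => ?_⟩
  have l'' := (map_add_le_add (nN c R Z) J J').trans ((add_le_add l m).trans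
    (show η + η ≤ 48 * η by linarith))
  have w' := xw_le_nN s J'
  have n := apply_nonneg (nN c R Z) J'
  rw [fderiv_FE (n₁ _ (add_mem hJ hJ') l'').1 (n₂ _ (add_mem hJ hJ') l'').1, Prod.mk_sub_mk,
    ← map_sub]
  exact ⟨(a₂ J' hJ' (m.trans (by linarith))).trans (k n (apply_nonneg _ _) (by linarith)),
    (b₂ J' hJ' (w'.trans (by linarith))).trans (k n (apply_nonneg _ _) (w'.trans (by linarith)))⟩

/-- the derivative of the operator, pointwise -/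
theorem fderiv_VV (l : R ≤ Z) {V : Fin 6 → WI R Z} (h : IsUnit (V 0))
    (k : IsUnit (vD (V 0) (V 3) (V 1))) (d : Fin 6 → WI R Z) {z : ℝ} (hz : z ∈ Icc R Z) (θ : ℝ) :
    fderiv ℂ (VV R Z) V d (z, θ) = fderiv ℂ (vJ 1 z) (fun i => V i (z, θ)) fun i => d i (z, θ) := by
  let e : (Fin 6 → WI R Z) →L[ℂ] Fin 6 → ℂ :=
    .pi fun i => (W.ev (z, θ)).toContinuousLinearMap ∘L .proj i
  have a : DifferentiableAt ℂ (vJ 1 z) (e V) := by
    have h' : e V 0 ≠ 0 := W.ne_zero_of_isUnit h _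
    have k' : vD (e V 0) (e V 3) (e V 1) ≠ 0 := W.ne_zero_of_isUnit k (z, θ)
    unfold vJ vv
    unfold vD at *
    fun_prop (disch := assumption)
  have b := (W.ev (z, θ)).toContinuousLinearMap.hasFDerivAt.comp V
    (VV_an h k).differentiableAt.hasFDerivAt
  refine DFunLike.congr_fun (b.unique ((a.hasFDerivAt.comp V e.hasFDerivAt).congr_of_eventuallyEq
    ?_)) d
  have c₁ : Continuous fun V : Fin 6 → WI R Z => V 0 := continuous_apply 0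
  have c₂ : Continuous fun V : Fin 6 → WI R Z => vD (V 0) (V 3) (V 1) := by unfold vD; fun_prop
  filter_upwards [(Units.isOpen.preimage c₁).mem_nhds h, (Units.isOpen.preimage c₂).mem_nhds k]
    with V h k
  exact VV_ev l h k hz θ

theorem fderiv_RR {J : Fin 6 → WI R Z} (h : IsUnit ((rJ c R Z + J) 0))
    (k : IsUnit (vD ((rJ c R Z + J) 0) ((rJ c R Z + J) 3) ((rJ c R Z + J) 1))) (d) :
    fderiv ℂ (RR c R Z) J d = fderiv ℂ (VV R Z) (rJ c R Z + J) d - LW c R Z d :=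
  DFunLike.congr_fun (((VV_an h k).differentiableAt.hasFDerivAt.comp J
    ((hasFDerivAt_id J).const_add _)).sub (LW c R Z).hasFDerivAt).fderiv d

/-- the operator `TC` -/
theorem TC_eq {M : Mod} {k : ℕ} (L : LD M k) (l : L.z₀ ≤ Z) {V : Fin 6 → WI L.z₀ Z}
    (h : IsUnit (V 0)) (h' : IsUnit (vD (V 0) (V 3) (V 1))) {V' : Fin 6 → ℝ × ℝ → ℂ}
    (e : ∀ i, ∀ z ∈ Icc L.z₀ Z, ∀ θ, V i (z, θ) = V' i (z, θ)) (v : XE L.z₀ Z) :
    L.TC Z V' v = (fderiv ℂ (VV L.z₀ Z) V v.1, low Z (v.1 3)) := by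
  have : ∀ v : XE L.z₀ Z, toW (Icc L.z₀ Z) (cl L.z₀ Z) (fun y =>
      fderiv ℂ (vJ 1 y.1) (fun i => V' i y) fun i => v.1 i y) = fderiv ℂ (VV L.z₀ Z) V v.1 :=
    fun v => (ret_cl l).toW_eq fun z hz θ => by simp only [fderiv_VV l h h' _ hz, e _ z hz]
  rw [LD.TC, toL_apply ⟨(fderiv ℂ (VV L.z₀ Z) V).prod (low Z ∘L .proj 3) ∘L (XE _ _).subtypeL,
    fun v => by rw [this]; rfl⟩, this]

end Vale.Agent.P218W
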