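import Vale.Agent.P218T.Rn

/-! Cauchy estimates for seminorms. -/

open Set Filter Topology Metric

noncomputable section

namespace Vale.Agent.P218W

open Vale.Agent.P218T

variable {X Y : Type} [NormedAddCommGroup X] [NormedSpace ℂ X] [NormedAddCommGroup Y]
  [NormedSpace ℂ Y] {p : Seminorm ℂ X} {q : Seminorm ℂ Y} {S : Submodule ℂ X} {F : X → Y}
  {η B : ℝ} {x x' d : X}

theorem le_mul_of_gt {a K m : ℝ} (h : ∀ M > m, a ≤ K * M) : a ≤ K * m :=
  ge_of_tendsto (((continuous_const.mul continuous_id).tendsto m).mono_left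
    (nhdsWithin_le_nhds (s := Ioi m))) (eventually_nhdsWithin_of_forall h)

/-- `F` is holomorphic and bounded on a ball of `S` -/
def HB (p : Seminorm ℂ X) (q : Seminorm ℂ Y) (S : Submodule ℂ X) (F : X → Y) (η B : ℝ) : Prop :=
  ∀ x ∈ S, p x ≤ η → DifferentiableAt ℂ F x ∧ q (F x) ≤ B

theorem line_le {ρ : ℝ} {t : ℂ} (ht : ‖t‖ ≤ ρ) : p (x + t • d) ≤ p x + ρ * p d :=
  (map_add_le_add _ _ _).trans (by rw [map_smul_eq_mul]; gcongr)

theorem hd_line {t : ℂ} (h : DifferentiableAt ℂ F (x + t • d)) :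
    HasDerivAt (fun t : ℂ => F (x + t • d)) (fderiv ℂ F (x + t • d) d) t :=
  h.hasFDerivAt.comp_hasDerivAt t (by simpa using ((hasDerivAt_id t).smul_const d).const_add x)

theorem HB.line (h : HB p q S F η B) (hq : Eqv q) (hx : x ∈ S) (hd : d ∈ S) {ρ : ℝ}
    (hρ : p x + ρ * p d ≤ η) {t : ℂ} (ht : ‖t‖ ≤ ρ) :
    HasDerivAt (fun t : ℂ => Rn.mk hq (F (x + t • d))) (Rn.mk hq (fderiv ℂ F (x + t • d) d)) t ∧
      ‖Rn.mk hq (F (x + t • d))‖ ≤ B :=
  have k := h _ (S.add_mem hx (S.smul_mem t hd)) ((line_le ht).trans hρ)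
  ⟨(Rn.mk hq).hasFDerivAt.comp_hasDerivAt t (hd_line k.1), k.2⟩

theorem HB.der (h : HB p q S F η B) (hq : Eqv q) (η0 : 0 < η) (hx : x ∈ S) (hd : d ∈ S)
    (l : p x ≤ η / 2) : q (fderiv ℂ F x d) ≤ 2 * B / η * p d := le_mul_of_gt fun M hM => by
  have M0 := (apply_nonneg p d).trans_lt hM
  have a : p x + η / 2 / M * p d ≤ η := by
    have : η / 2 / M * p d ≤ η / 2 / M * M := by gcongr
    rw [div_mul_cancel₀ _ M0.ne'] at this; linarith
  have k := fun t ht => h.line hq hx hd a (t := t) ht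
  have := Complex.norm_deriv_le_of_forall_mem_sphere_norm_le (by positivity : 0 < η / 2 / M)
    (DifferentiableOn.diffContOnCl_ball (fun t ht => (k t (mem_closedBall_zero_iff.1 ht)).1
      |>.differentiableAt.differentiableWithinAt) subset_rfl)
    fun t ht => (k t (mem_sphere_zero_iff_norm.1 ht).le).2
  rw [(k 0 (by rw [norm_zero]; positivity)).1.deriv, zero_smul, add_zero] at this
  exact this.trans_eq (by field_simp)

theorem HB.lip (h : HB p q S F η B) (hq : Eqv q) (η0 : 0 < η) (hx : x ∈ S) (hd : d ∈ S)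
    (l : p x ≤ η / 2) (l' : p d ≤ η / 4) : q (F (x + d) - F x) ≤ 4 * B / η * p d := by
  have B0 := (apply_nonneg _ _).trans (h x hx (by linarith)).2
  refine le_mul_of_gt fun M hM => ?_
  wlog M1 : M ≤ η / 3 generalizing M
  · exact (this (η / 3) (by linarith) le_rfl).trans (by gcongr; linarith)
  have M0 := (apply_nonneg p d).trans_lt hM
  have a : p x + η / 2 / M * p d ≤ η := by
    have : η / 2 / M * p d ≤ η / 2 / M * M := by gcongr
    rw [div_mul_cancel₀ _ M0.ne'] at this; linarith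
  have k := fun t ht => h.line hq hx hd a (t := t) ht
  have := Complex.dist_le_div_mul_dist_of_mapsTo_ball (c := 0) (z := 1) (R₂ := 2 * B)
    (fun t ht => (k t (mem_ball_zero_iff.1 ht).le).1.differentiableAt.differentiableWithinAt)
    (fun t ht => mem_closedBall_iff_norm.2 ((norm_sub_le _ _).trans (by
      linarith [(k t (mem_ball_zero_iff.1 ht).le).2, (k 0 (by rw [norm_zero]; positivity)).2])))
    (by rw [mem_ball_zero_iff, norm_one, one_lt_div M0]; linarith)
  rw [dist_eq_norm, ← map_sub, one_smul, zero_smul, add_zero, dist_zero_right, norm_one] at this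
  exact this.trans_eq (by field_simp; ring)

theorem HB.lip2 [CompleteSpace Y] (h : HB p q S F η B) (hq : Eqv q) (η0 : 0 < η)
    (an : ∀ x ∈ S, p x ≤ η → AnalyticAt ℂ F x) (hx : x ∈ S) (hx' : x' ∈ S) (hd : d ∈ S)
    (l : p x ≤ η / 4) (l' : p x' ≤ η / 8) :
    q (fderiv ℂ F (x + x') d - fderiv ℂ F x d) ≤ 16 * B / η ^ 2 * p x' * p d :=
  (HB.lip (F := fun x => fderiv ℂ F x d) (η := η / 2) (fun x hx l =>
    ⟨(an x hx (by linarith)).fderiv.differentiableAt.clm_apply (differentiableAt_const d),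
      h.der hq η0 hx hd l⟩) hq (half_pos η0) hx hx' (by linarith) (by linarith)).trans_eq
    (by field_simp; ring)

/-- the second order remainder -/
theorem HB.tay [CompleteSpace Y] (h : HB p q S F η B) (hq : Eqv q) (η0 : 0 < η)
    (an : ∀ x ∈ S, p x ≤ η → AnalyticAt ℂ F x) (hx : x ∈ S) (hd : d ∈ S)
    (l : p x ≤ η / 4) (l' : p d ≤ η / 8) :
    q (F (x + d) - F x - fderiv ℂ F x d) ≤ 16 * B / η ^ 2 * p d * p d := by
  have k := fun t ht => h.line hq hx hd (ρ := 1) (by linarith) (t := t) ht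
  have B0 := (apply_nonneg _ _).trans (h x hx (by linarith)).2
  have := (convex_closedBall (0 : ℂ) 1).norm_image_sub_le_of_norm_hasDerivWithin_le
    (f := fun t : ℂ => Rn.mk hq (F (x + t • d)) - t • Rn.mk hq (fderiv ℂ F x d))
    (C := 16 * B / η ^ 2 * p d * p d) (x := 0) (y := 1)
    (fun t ht => ((k t (mem_closedBall_zero_iff.1 ht)).1.sub
      ((hasDerivAt_id t).smul_const _)).hasDerivWithinAt) (fun t ht => by
        have e : p (t • d) ≤ p d := by
          rw [map_smul_eq_mul]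
          exact mul_le_of_le_one_left (apply_nonneg _ _) (mem_closedBall_zero_iff.1 ht)
        rw [one_smul, ← map_sub]
        exact (h.lip2 hq η0 an hx (S.smul_mem t hd) hd l (e.trans l')).trans (by gcongr))
    (by simp) (by simp)
  rw [one_smul, one_smul, zero_smul, zero_smul, add_zero, sub_zero, sub_right_comm, ← map_sub,
    ← map_sub, sub_zero, norm_one, mul_one] at this
  exact this

/-- locality -/
theorem fderiv_loc (h : DifferentiableAt ℂ F x) (ℓ : Y →L[ℂ] ℂ)
    (e : ∀ᶠ t : ℂ in 𝓝 0, ℓ (F (x + t • d)) = ℓ (F x)) : ℓ (fderiv ℂ F x d) = 0 := by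
  have := ℓ.hasFDerivAt.comp_hasDerivAt (0 : ℂ) (hd_line (x := x) (d := d) (by simpa using h))
  rw [zero_smul, add_zero] at this
  exact this.unique ((hasDerivAt_const (0 : ℂ) (ℓ (F x))).congr_of_eventuallyEq e)

end Vale.Agent.P218W
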