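import Vale.Agent.P218W.NLf
import Vale.Agent.P218W.Cau

/-! The nonlinear part of the operator on a cylindrical end, as a holomorphic map. -/

open Set Complex Filter Topology

noncomputable section

namespace Vale.Agent.P218W

open Vale.Agent.P218M Vale.Agent.P218N Vale.Agent.P218T
open Ring (inverse)

variable {Y R Z η M : ℝ} {c : ℂ} {w : ℝ → ℝ}

theorem Ret.wn2_eqv {s : Set ℝ} {r o n : ℝ → ℝ} (h : Ret s r) (po : PW s o) (pn : PW s n) :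
    Eqv (wn2 (r := r) s o n) := by
  obtain ⟨A, a⟩ := h.xn_eqv (ι := Unit) (fun _ => po) fun _ => pn
  exact ⟨A, fun x => by simpa [xn] using a fun _ => x⟩

/-- families whose component `θθ` has mean zero -/
def P2 (R Z : ℝ) : Submodule ℂ (Fin 6 → WI R Z) := LinearMap.ker (W.P0.toLinearMap ∘ₗ .proj 2)

theorem mem_P2 (h : R ≤ Z) {J : Fin 6 → WI R Z} :
    J ∈ P2 R Z ↔ ∀ z ∈ Icc R Z, co (J 2) 0 z = 0 :=
  ⟨fun e z _ => by simpa [W.P0_f, p0] using congrArg (fun x : WI R Z => x (z, 0)) e,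
    fun e => (ret_cl h).ext fun z hz θ => by simpa [W.P0_f, p0] using e z hz⟩

theorem MJ.p2 (h : R ≤ Z) {J : Fin 6 → WI R Z} (m : MJ (Icc R Z) fun i => J i) : J ∈ P2 R Z :=
  (mem_P2 h).2 fun z hz => by simpa using m.t2 0 z hz

/-- the operator, on the jet of the squared radius -/
def VV (R Z : ℝ) (V : Fin 6 → WI R Z) : WI R Z :=
  (1 / 2 : ℂ) • vv2 1 (cI R Z fun z => z) (V 0) (V 3) (V 1) (V 5) (V 4) (V 2)

/-- the jet of `ρ` -/
def rJ (c : ℂ) (R Z : ℝ) : Fin 6 → WI R Z :=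
  ![cI R Z (rh c), 0, 0, cI R Z fun z => 2 * c * z, 0, cI R Z fun _ => 2 * c]

/-- the nonlinear part -/
def RR (c : ℂ) (R Z : ℝ) (J : Fin 6 → WI R Z) : WI R Z := VV R Z (rJ c R Z + J) - LW c R Z J

theorem VV_an {V : Fin 6 → WI R Z} (h : IsUnit (V 0)) (k : IsUnit (vD (V 0) (V 3) (V 1))) :
    AnalyticAt ℂ (VV R Z) V := by
  refine ContDiffAt.analyticAt ?_
  have i := ((W.analyticAt_inverse h).contDiffAt (n := ⊤)).comp V
    (f := fun V : Fin 6 → WI R Z => V 0) (by fun_prop)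
  have j := ((W.analyticAt_inverse k).contDiffAt (n := ⊤)).comp V
    (f := fun V : Fin 6 → WI R Z => vD (V 0) (V 3) (V 1)) (by unfold vD; fun_prop)
  unfold VV vv2 vN
  simp only [Function.comp_def] at i j
  fun_prop

theorem VV_ev (l : R ≤ Z) {V : Fin 6 → WI R Z} (h : IsUnit (V 0))
    (k : IsUnit (vD (V 0) (V 3) (V 1))) {z : ℝ} (hz : z ∈ Icc R Z) (θ : ℝ) : VV R Z V (z, θ) =
      vv 1 z (V 0 (z, θ)) (V 3 (z, θ)) (V 1 (z, θ)) (V 5 (z, θ)) (V 4 (z, θ)) (V 2 (z, θ)) := by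
  have := vv2_eq 1 z (V 0 (z, θ)) (V 3 (z, θ)) (V 1 (z, θ)) (V 5 (z, θ)) (V 4 (z, θ)) (V 2 (z, θ))
  simp only [vv2, vN, Ring.inverse_eq_inv, vD] at this
  simp only [VV, vv2, vN, W.smul_apply, W.add_apply, W.mul_apply, W.sub_apply, W.one_apply,
    W.ofNat_apply, W.pow_apply, W.inverse_apply h, W.inverse_apply k,
    cst_Icc l (φ := fun z => z) (by fun_prop) hz]
  simp only [vD, W.add_apply, W.mul_apply, W.ofNat_apply, W.pow_apply]
  linear_combination 1 / 2 * this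

theorem rJ_ev (l : R ≤ Z) {z : ℝ} (hz : z ∈ Icc R Z) (θ : ℝ) (i : Fin 6) :
    rJ c R Z i (z, θ) = ![rh c z, 0, 0, 2 * c * z, 0, 2 * c] i := by
  fin_cases i
  exacts [cst_Icc l (cont_rh c).continuousOn hz θ, rfl, rfl,
    cst_Icc l (φ := fun z => 2 * c * z) (by fun_prop) hz θ, rfl,
    cst_Icc l (φ := fun _ => 2 * c) (by fun_prop) hz θ]

/-- the weak seminorm -/
abbrev xw (w : ℝ → ℝ) (c : ℂ) (R Z : ℝ) : Seminorm ℂ (Fin 6 → WI R Z) :=
  xn (Icc R Z) (omW w c Z) (nu w c Z)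

/-- the seminorm of the data -/
abbrev yw (w : ℝ → ℝ) (c : ℂ) (R Z : ℝ) : Seminorm ℂ (WI R Z) :=
  wn2 (Icc R Z) (gO c Z) (gW w c Z)

/-- standing assumptions -/
structure Sa (r₀ Y R Z η : ℝ) (c : ℂ) (w : ℝ → ℝ) : Prop where
  cyl : Cyl Y R Z c
  Y1 : 1 ≤ Y
  adw : Adw c R Z w
  cw : ContinuousOn w (Icc R Z)
  η0 : 0 < η
  ηr : η ≤ r₀
  ηY : 1 ≤ η ^ 8 * Y

namespace Sa

variable {r₀ : ℝ} (h : Sa r₀ Y R Z η c w)
include h

theorem le : R ≤ Z := by linarith [h.cyl.RZ]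
theorem Y0 : 0 < Y := one_pos.trans_le h.Y1
theorem pw : PW (Icc R Z) w := pw_cyl h.cw fun z hz => (h.adw z hz).1
theorem pO : PW (Icc R Z) (gO c Z) := (pw_all h.cyl h.Y1).2.2.1
theorem pG : PW (Icc R Z) (gW w c Z) := pw_gW h.cyl h.Y0 h.pw
theorem pn (i : Fin 6) : PW (Icc R Z) (nu w c Z i) := pw_nu h.cyl h.Y0 h.pw i
theorem po (i : Fin 6) : PW (Icc R Z) (omW w c Z i) :=
  have := (pw_all h.cyl h.Y1).2.2.2.2.1
  pw_om h.cyl h.Y0 h.pw this (h.pO.add isCompact_Icc this) i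
theorem xw_le {J : Fin 6 → WI R Z} (M0 : 0 ≤ M) :
    xw w c R Z J ≤ M ↔ XN (Icc R Z) (omW w c Z) (nu w c Z) (fun i => J i) M :=
  (ret_cl h.le).xn_le_iff h.po h.pn M0
theorem yw_le {x : WI R Z} : yw w c R Z x ≤ M ↔ L2 (Icc R Z) x (gO c Z) (gW w c Z) M :=
  (ret_cl h.le).wn2_le_iff h.pO h.pG
theorem yw_eqv : Eqv (yw w c R Z) := (ret_cl h.le).wn2_eqv h.pO h.pG

end Sa

/-- the value of the nonlinear part -/
theorem end_val : ∃ r₀ C : ℝ, 0 < r₀ ∧ 0 < C ∧ ∀ Y R Z η c w, Sa r₀ Y R Z η c w →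
    ∀ J ∈ P2 R Z, xw w c R Z J ≤ η → IsUnit ((rJ c R Z + J) 0) ∧
      IsUnit (vD ((rJ c R Z + J) 0) ((rJ c R Z + J) 3) ((rJ c R Z + J) 1)) ∧
      (∀ z ∈ Icc R Z, ∀ θ, RR c R Z J (z, θ) = RRf c (fun i => J i) (z, θ)) ∧
      yw w c R Z (RR c R Z J) ≤ C * η ^ 2 := by
  obtain ⟨r₀, C, r0, C0, e⟩ := end_fn
  refine ⟨min r₀ 1, C, by positivity, C0, fun Y R Z η c w h J h2 hJ => ?_⟩
  obtain ⟨e₁, e₂, e₃⟩ := e ⟨Y, R, Z, η, c, w, fun i => J i, h.cyl, h.Y1, h.adw, h.η0,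
    h.ηr.trans (min_le_right _ _), h.ηY, (h.xw_le h.η0.le).1 hJ, (mem_P2 h.le).1 h2⟩
    (h.ηr.trans (min_le_left _ _))
  have r := ret_cl h.le
  obtain ⟨δ, δ0, lo⟩ := (pw_all h.cyl h.Y1).2.2.2.2.1.ex
  have ev := fun z hz θ => rJ_ev (c := c) h.le (z := z) hz θ
  have u : IsUnit ((rJ c R Z + J) 0) := r.isUnit_of_le (ρ := rh c) (inv_pos.2 δ0)
    (fun z hz => (lo z hz).1.trans (re_le_norm _)) (e₁.congr fun z hz θ => by simp [ev z hz]) le_rfl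
  have v : IsUnit (4 + ((rJ c R Z + J) 3 * (rJ c R Z + J) 3 * inverse ((rJ c R Z + J) 0) +
      J 1 * J 1 * inverse ((rJ c R Z + J) 0) * inverse ((rJ c R Z + J) 0))) :=
    r.isUnit_of_le (ρ := fun _ => 4) one_pos (by simp) (e₂.congr fun z hz θ => by
      simp only [W.add_apply, W.mul_apply, W.inverse_apply u]; simp [ev z hz, EEf]) le_rfl
  have u' : IsUnit (vD ((rJ c R Z + J) 0) ((rJ c R Z + J) 3) ((rJ c R Z + J) 1)) := by
    convert (u.pow 2).mul v using 1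
    have := Ring.inverse_mul_cancel _ u
    rw [vD, show (rJ c R Z + J) 1 = J 1 from zero_add _]
    generalize inverse ((rJ c R Z + J) 0) = i at this
    linear_combination (-(rJ c R Z + J) 0 * (rJ c R Z + J) 3 ^ 2 -
      J 1 ^ 2 * (i * (rJ c R Z + J) 0 + 1)) * this
  have e : ∀ z ∈ Icc R Z, ∀ θ, RR c R Z J (z, θ) = RRf c (fun i => J i) (z, θ) := fun z hz θ => by
    rw [RR, W.sub_apply, VV_ev h.le u u' hz, LW_ev h.le (fun z => cyl_ne h.cyl h.Y0) J hz]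
    simp [ev z hz, RRf]
  exact ⟨u, u', e, h.yw_le.2 (e₃.congr e)⟩

theorem nu_mul {s : ℝ → ℝ} {z : ℝ} (s0 : 0 ≤ s z) (i : Fin 6) :
    nu (fun z => s z * w z) c Z i z = s z * nu w c Z i z := by
  fin_cases i <;> simp only [nu, gW, Fin.reduceFinMk, Matrix.cons_val]
  · rw [← Real.sqrt_mul_self s0, ← Real.sqrt_mul (mul_self_nonneg _), Real.sqrt_mul_self s0]
    congr 1; ring
  all_goals ring

/-- derivatives of `F` in directions with the additional weight factor `s` -/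
def DB (w : ℝ → ℝ) (c : ℂ) (R Z : ℝ) (F : (Fin 6 → WI R Z) → WI R Z) (g₀ g₁ : ℝ → ℝ) (η C : ℝ) :
    Prop :=
  ∀ s, PW (Icc R Z) s → ∀ J ∈ P2 R Z, ∀ d ∈ P2 R Z, ∀ M, XN (Icc R Z)
    (fun i z => s z * omW w c Z i z) (fun i z => s z * nu w c Z i z) (fun i => d i) M →
    (xw w c R Z J ≤ η / 2 → L2 (Icc R Z) (fderiv ℂ F J d) (fun z => s z * g₀ z)
      (fun z => s z * g₁ z) (C * η * M)) ∧
    ∀ J' ∈ P2 R Z, xw w c R Z J ≤ η / 4 → xw w c R Z J' ≤ η / 8 →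
      L2 (Icc R Z) ((fderiv ℂ F (J + J') d - fderiv ℂ F J d :) : WI R Z)
        (fun z => s z * g₀ z) (fun z => s z * g₁ z) (C * xw w c R Z J' * M)

/-- maps which are local in `z` -/
theorem Sa.db {r₀ C : ℝ} (h : Sa r₀ Y R Z η c w) {F : (Fin 6 → WI R Z) → WI R Z} {g₀ g₁ : ℝ → ℝ}
    (p₀ : PW (Icc R Z) g₀) (p₁ : PW (Icc R Z) g₁) (C0 : 0 < C)
    (an : ∀ J ∈ P2 R Z, xw w c R Z J ≤ η → AnalyticAt ℂ F J)
    (bd : ∀ J ∈ P2 R Z, xw w c R Z J ≤ η → L2 (Icc R Z) (F J) g₀ g₁ (C * η ^ 2))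
    (lc : ∀ J ∈ P2 R Z, xw w c R Z J ≤ η → ∀ J' ∈ P2 R Z, xw w c R Z J' ≤ η → ∀ z ∈ Icc R Z,
      (∀ i θ, J i (z, θ) = J' i (z, θ)) → ∀ θ, F J (z, θ) = F J' (z, θ)) :
    DB w c R Z F g₀ g₁ η (16 * C) := fun s ps J hJ d hd M hM => by
  have η0 := h.η0
  have r := ret_cl h.le
  have q := r.wn2_eqv p₀ p₁
  have hb : HB (xw w c R Z) (wn2 (Icc R Z) g₀ g₁) (P2 R Z) F η (C * η ^ 2) := fun J a b =>
    ⟨(an J a b).differentiableAt, (r.wn2_le_iff p₀ p₁).2 (bd J a b)⟩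
  have n0 : ∀ z ∈ Icc R Z, (s z : ℂ) ≠ 0 := fun z hz => by exact_mod_cast (ps.pos hz).ne'
  have ev := fun z hz θ => cst_Icc h.le (φ := fun z => (s z : ℂ)⁻¹) (z := z)
    ((continuous_ofReal.comp_continuousOn ps.c).inv₀ n0) hz θ
  let d' : Fin 6 → WI R Z := fun i => cI R Z (fun z => (s z : ℂ)⁻¹) * d i
  have p' : d' ∈ P2 R Z := (mem_P2 h.le).2 fun z hz => by
    rw [co_congr (G := fun p => (s z : ℂ)⁻¹ * d 2 p) (fun θ => by simp [d', ev z hz]),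
      co_mulz fun _ => (s z : ℂ)⁻¹, (mem_P2 h.le).1 hd z hz, mul_zero]
  have k : ∀ {o : ℝ → ℝ}, ∀ z ∈ Icc R Z, ‖(s z : ℂ)⁻¹‖ * (s z * o z) ≤ 1 * o z := fun z hz => by
    simp [abs_of_pos (ps.pos hz), (ps.pos hz).ne']
  have l' : xw w c R Z d' ≤ M := (h.xw_le (hM 0).1.M0).2 fun i => (one_mul M ▸ (hM i).mulz
    (φ := fun z => (s z : ℂ)⁻¹) zero_le_one (fun z hz => ((h.po i).pos hz).le)
      (fun z hz => ((h.pn i).pos hz).le) k k).congr fun z hz θ => by simp [d', ev z hz]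
  have loc : ∀ J ∈ P2 R Z, xw w c R Z J < η → ∀ z ∈ Icc R Z, ∀ θ,
      fderiv ℂ F J d (z, θ) = s z * fderiv ℂ F J d' (z, θ) := fun J a b z hz θ => by
    have m := (P2 R Z).sub_mem hd ((P2 R Z).smul_mem (s z : ℂ) p')
    have := fderiv_loc (d := d - (s z : ℂ) • d') (hb J a b.le).1
      (W.ev (z, θ)).toContinuousLinearMap (by
        have : Continuous fun t : ℂ => xw w c R Z J + ‖t‖ * xw w c R Z (d - (s z : ℂ) • d') := by
          fun_prop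
        filter_upwards [(this.tendsto 0).eventually_le_const (by simpa using b)] with t ht
        exact lc _ ((P2 R Z).add_mem a ((P2 R Z).smul_mem t m)) ((line_le le_rfl).trans ht) J a
          b.le z hz (fun i θ => by simp [d', ev z hz, n0 z hz, -Complex.coe_smul]) θ)
    rw [map_sub, map_smul] at this
    exact sub_eq_zero.1 this
  have k' : ∀ {o : ℝ → ℝ}, ∀ z ∈ Icc R Z, ‖(s z : ℂ)‖ * o z ≤ 1 * (s z * o z) := fun z hz => by
    simp [abs_of_pos (ps.pos hz)]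
  have fin : ∀ {x : WI R Z} {N N'}, wn2 (Icc R Z) g₀ g₁ x ≤ N → N ≤ N' → L2 (Icc R Z)
      (fun p => s p.1 * x p) (fun z => s z * g₀ z) (fun z => s z * g₁ z) N' := fun a b => by
    simpa only [one_mul] using ((r.wn2_le_iff p₀ p₁).1 (a.trans b)).mulz (φ := fun z => s z)
      zero_le_one (fun z hz => (mul_pos (ps.pos hz) (p₀.pos hz)).le)
      (fun z hz => (mul_pos (ps.pos hz) (p₁.pos hz)).le) k' k'
  have M0 := (hM 0).1.M0
  refine ⟨fun a => (fin (hb.der q η0 hJ p' a) ?_).congr (loc J hJ (by linarith)),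
    fun J' b a a' => (fin (hb.lip2 q η0 an hJ b p' a a') ?_).congr fun z hz θ => ?_⟩
  · calc _ ≤ 2 * (C * η ^ 2) / η * M := by gcongr
      _ = 2 * (C * η * M) := by field_simp
      _ ≤ _ := by nlinarith [mul_nonneg (mul_pos C0 η0).le M0]
  · calc _ ≤ 16 * (C * η ^ 2) / η ^ 2 * xw w c R Z J' * M := by gcongr
      _ = _ := by field_simp
  · rw [W.sub_apply, W.sub_apply, loc J hJ (by linarith) z hz, loc _ ((P2 R Z).add_mem hJ b)
      ((map_add_le_add _ _ _).trans_lt (by linarith)) z hz, mul_sub]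

/-- **The nonlinear estimate on a cylindrical end** -/
theorem end_nl : ∃ r₀ C : ℝ, 0 < r₀ ∧ 0 < C ∧ ∀ Y R Z η c w, Sa r₀ Y R Z η c w →
    (∀ J ∈ P2 R Z, xw w c R Z J ≤ η → AnalyticAt ℂ (RR c R Z) J ∧
      yw w c R Z (RR c R Z J) ≤ C * η ^ 2) ∧ DB w c R Z (RR c R Z) (gO c Z) (gW w c Z) η C := by
  obtain ⟨r₀, C, r0, C0, e⟩ := end_val
  refine ⟨r₀, 16 * C, r0, by positivity, fun Y R Z η c w h => ?_⟩
  replace e := e Y R Z η c w h
  have an : ∀ J ∈ P2 R Z, xw w c R Z J ≤ η → AnalyticAt ℂ (RR c R Z) J := fun J a b =>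
    ((VV_an (e J a b).1 (e J a b).2.1).comp (f := fun J => rJ c R Z + J)
      (analyticAt_const.add analyticAt_id)).sub ((LW c R Z).analyticAt J)
  exact ⟨fun J a b => ⟨an J a b, (e J a b).2.2.2.trans (by gcongr; linarith)⟩,
    h.db h.pO h.pG C0 an (fun J a b => h.yw_le.1 (e J a b).2.2.2) fun J a b J' a' b' z hz k θ => by
      rw [(e J a b).2.2.1 z hz, (e J' a' b').2.2.1 z hz]; simp only [RRf, k]⟩

end Vale.Agent.P218W
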