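import Vale.Agent.P218W.Jet

/-! Hoelder bounds of the angular derivative give bounds in `W`. -/

open Set Complex Filter Topology
open scoped Real

noncomputable section

namespace Vale.Agent.P218W

theorem c1_shift {f : ℝ → ℂ} (p : ∀ θ, f (θ + 2 * π) = f θ) (k : ℤ) (h : ℝ) :
    c1 (fun θ => f (θ + h)) k = ex k h * c1 f k := by
  have q : Function.Periodic (fun θ => ex (-k) θ * f θ) (2 * π) := fun θ => by
    simp only [ex_per, p]
  have e : ∀ θ, ex (-k) θ * f (θ + h) = ex k h * (ex (-k) (θ + h) * f (θ + h)) := fun θ => by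
    simp only [ex, ← mul_assoc, ← Complex.exp_add]; push_cast; ring_nf
  have := q.intervalIntegral_add_eq h 0
  simp only [c1, e, intervalIntegral.integral_const_mul]
  rw [intervalIntegral.integral_comp_add_right (fun θ => ex (-k) θ * f θ), zero_add,
    add_comm (2 * π), this, zero_add, mul_left_comm]

theorem c1_holder {f : ℝ → ℂ} {K α : ℝ} (c : Continuous f) (p : ∀ θ, f (θ + 2 * π) = f θ)
    (b : ∀ θ θ', ‖f θ - f θ'‖ ≤ K * |θ - θ'| ^ α) {k : ℤ} (hk : k ≠ 0) :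
    2 * ‖c1 f k‖ ≤ K * (π / |(k : ℝ)|) ^ α := by
  have k0 : (k : ℂ) ≠ 0 := by exact_mod_cast hk
  have e : ex k (π / k) = -1 := by
    rw [ex, ← Complex.exp_pi_mul_I]; congr 1; push_cast; field_simp
  have := c1_le (f := fun θ => f θ + -1 * f (θ + π / k)) (K := K * (π / |(k : ℝ)|) ^ α)
    (fun θ _ => by
      simpa [abs_div, abs_of_pos Real.pi_pos, ← sub_eq_add_neg] using b θ (θ + π / k)) k
  rw [c1_add c (by fun_prop), c1_mul, c1_shift p, e, ← mul_assoc, neg_mul_neg, one_mul, one_mul,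
    ← two_mul, norm_mul, Complex.norm_ofNat] at this
  exact this

theorem sq_rpow {α : ℝ} (h : 1 / 2 < α) : ∃ C, Sq (fun k => |(k : ℝ)| ^ (-(1 + α))) C := by
  have s := Real.summable_abs_int_rpow (b := 2 * α) (by linarith)
  have s0 : 0 ≤ ∑' k : ℤ, |(k : ℝ)| ^ (-(2 * α)) := tsum_nonneg fun _ => by positivity
  refine ⟨√(32 * ∑' k : ℤ, |(k : ℝ)| ^ (-(2 * α))), Real.sqrt_nonneg _, fun _ => by positivity,
    fun t => ?_⟩
  have l : ∀ k : ℤ, (1 + (k : ℝ) ^ 2) * (|(k : ℝ)| ^ (-(1 + α))) ^ 2 ≤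
      2 * |(k : ℝ)| ^ (-(2 * α)) := fun k => by
    rcases eq_or_ne k 0 with rfl | hk
    · rw [Int.cast_zero, abs_zero, Real.zero_rpow (by linarith), Real.zero_rpow (by linarith)]
      simp
    have k1 : (1 : ℝ) ≤ |(k : ℝ)| := by exact_mod_cast Int.one_le_abs hk
    have e : |(k : ℝ)| ^ (-(2 * α)) = (k : ℝ) ^ 2 * (|(k : ℝ)| ^ (-(1 + α))) ^ 2 := by
      rw [← sq_abs (k : ℝ), ← Real.rpow_two, ← Real.rpow_two, ← Real.rpow_mul (abs_nonneg _),
        ← Real.rpow_add (by linarith)]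
      congr 1; ring
    rw [e, ← mul_assoc]
    exact mul_le_mul_of_nonneg_right (by nlinarith [sq_abs (k : ℝ)]) (sq_nonneg _)
  have := Finset.sum_le_sum fun k (_ : k ∈ t) => l k
  rw [← Finset.mul_sum] at this
  rw [Real.sq_sqrt (by positivity)]
  linarith [s.sum_le_tsum t fun _ _ => by positivity]

/-- bounds in `C^{1,α}_θ`, `α > 1/2`, give bounds in `W` -/
theorem le_of_holder {α : ℝ} (h : 1 / 2 < α) (h1 : α ≤ 1) : ∃ C > 0, ∀ (s : Set ℝ)
    (F F₁ : ℝ × ℝ → ℂ) (ω : ℝ → ℝ) (K : ℝ), 0 ≤ K → (∀ z ∈ s, 0 ≤ ω z) →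
    (∀ z ∈ s, ∀ θ, F (z, θ + 2 * π) = F (z, θ)) →
    (∀ z ∈ s, ∀ θ, HasDerivAt (fun θ => F (z, θ)) (F₁ (z, θ)) θ) →
    (∀ z ∈ s, ∀ θ, ‖F (z, θ)‖ ≤ K * ω z) →
    (∀ z ∈ s, ∀ θ θ', ‖F₁ (z, θ) - F₁ (z, θ')‖ ≤ K * ω z * |θ - θ'| ^ α) → Le s F ω (C * K) := by
  obtain ⟨C, hC⟩ := sq_rpow h
  have C0 := hC.M0
  refine ⟨4 + 2 * C, by positivity, fun s F F₁ ω K hK w0 p d b0 b1 => ⟨fun z hz =>
    ⟨continuous_iff_continuousAt.2 fun θ => (d z hz θ).continuousAt, p z hz⟩, w0, _,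
    ((sq_single 0 hK).add (hC.smul (C := 2 * K) (by positivity))).mono
      ((sq_single 0 hK).add (hC.smul (C := 2 * K) (by positivity))).a0 (fun _ => le_rfl)
      (le_of_eq (by simp [br]; ring)), fun k z hz => ?_⟩⟩
  have w := mul_nonneg hK (w0 z hz)
  rcases eq_or_ne k 0 with rfl | hk
  · refine (c1_le (fun θ _ => b0 z hz θ) 0).trans (mul_le_mul_of_nonneg_right ?_ (w0 z hz))
    rw [if_pos rfl]
    exact le_add_of_nonneg_right (by positivity)
  have c : Continuous fun θ => F₁ (z, θ) := continuous_iff_continuousAt.2 fun θ => by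
    refine tendsto_iff_norm_sub_tendsto_zero.2 (squeeze_zero (fun _ => norm_nonneg _)
      (fun θ' => b1 z hz θ' θ) ?_)
    have : Continuous fun θ' => K * ω z * |θ' - θ| ^ α :=
      continuous_const.mul ((continuous_id.sub continuous_const).abs.rpow_const fun _ =>
        .inr (by linarith))
    simpa [Real.zero_rpow (show α ≠ 0 by linarith)] using this.tendsto θ
  have p1 : ∀ θ, F₁ (z, θ + 2 * π) = F₁ (z, θ) := fun θ => by
    have := (d z hz (θ + 2 * π)).comp_add_const θ (2 * π)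
    simp only [p z hz] at this
    exact this.unique (d z hz θ)
  have e := c1_holder c p1 (b1 z hz) hk
  have k1 : (1 : ℝ) ≤ |(k : ℝ)| := by exact_mod_cast Int.one_le_abs hk
  have k0 : (0 : ℝ) < |(k : ℝ)| := by linarith
  rw [c1_deriv (d z hz) c (by simpa using p z hz 0), norm_mul, norm_mul, Complex.norm_I, mul_one,
    Complex.norm_intCast, Real.div_rpow Real.pi_pos.le k0.le, div_eq_mul_inv,
    ← Real.rpow_neg k0.le] at e
  have l : π ^ α ≤ 4 := ((Real.rpow_le_rpow_of_exponent_le (by linarith [Real.pi_gt_three])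
    h1).trans_eq (Real.rpow_one _)).trans Real.pi_le_four
  have e2 : |(k : ℝ)| ^ (-α) = |(k : ℝ)| * |(k : ℝ)| ^ (-(1 + α)) := by
    rw [← Real.rpow_one_add' k0.le (by linarith)]; congr 1; ring
  rw [if_neg hk, zero_add]
  refine le_of_mul_le_mul_left ?_ k0
  have := mul_le_mul_of_nonneg_left (mul_le_mul_of_nonneg_right l
    (Real.rpow_nonneg k0.le (-α))) w
  rw [e2] at this e
  unfold co
  linarith

end Vale.Agent.P218W
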