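import Vale.Agent.P218W.Le

/-! The commutative Banach algebra `W r` of continuous functions of `(z, θ)`, periodic in `θ`,
which factor through the retraction `r` in `z` and have `∑ (1+k²) sup_z |F_k|² < ∞`. -/

open Set Complex Filter Topology MeasureTheory
open scoped Real

noncomputable section

namespace Vale.Agent.P218W

variable {s t : Set ℝ} {F G : ℝ × ℝ → ℂ} {ω : ℝ → ℝ} {M N : ℝ} {r r' : ℝ → ℝ}

/-- composition with a map of the `z`-axis -/
theorem Le.comp (h : Le s F ω M) {q : ℝ → ℝ} (hq : ∀ z ∈ t, q z ∈ s) :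
    Le t (fun p => F (q p.1, p.2)) (fun z => ω (q z)) M := by
  obtain ⟨a, ha, e⟩ := h.ex
  exact ⟨fun z hz => h.adm _ (hq z hz), fun z hz => h.w0 _ (hq z hz), a, ha,
    fun k z hz => show ‖co F k (q z)‖ ≤ _ from e k _ (hq z hz)⟩

theorem Le.mul1 (h : Le s F (fun _ => 1) M) (k : Le s G ω N) :
    Le s (fun p => F p * G p) ω (M * N) := by simpa using h.mul k

/-- the best constant is attained -/
theorem le_of_forall_gt (M0 : 0 ≤ M) (h : ∀ N > M, Le s F ω N) : Le s F ω M := by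
  refine le_of_approx (h _ (lt_add_one M)).adm fun ε hε => ?_
  have p : 0 < M + ε := by positivity
  have k := h (M + ε) (by linarith)
  refine ⟨_, (k.cmul (M / (M + ε) : ℝ)).mono subset_rfl (fun _ _ => le_rfl) (le_of_eq ?_),
    fun z hz θ => ?_⟩
  · rw [Complex.norm_real, Real.norm_of_nonneg (by positivity), div_mul_cancel₀ _ p.ne']
  · have e : F (z, θ) - (M / (M + ε) : ℝ) * F (z, θ) = (ε / (M + ε) : ℝ) * F (z, θ) := by
      have : ((M + ε : ℝ) : ℂ) ≠ 0 := by exact_mod_cast p.ne'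
      push_cast at this ⊢; field_simp; ring
    rw [e, norm_mul, Complex.norm_real, Real.norm_of_nonneg (by positivity)]
    have := mul_le_mul_of_nonneg_left (k.apply hz θ) (show 0 ≤ ε / (M + ε) by positivity)
    refine this.trans ?_
    rw [← mul_assoc, show ε / (M + ε) * ((M + ε) / 2) = ε / 2 by field_simp]
    nlinarith [k.w0 z hz]

/-- bounds mode by mode -/
theorem Le.of_modes (h : Le s G ω M) {v : ℝ → ℝ} {C : ℝ} (hF : Adm t F) (hC : 0 ≤ C)
    (w0 : ∀ z ∈ t, 0 ≤ v z) (e : ∀ k a, 0 ≤ a → (∀ z ∈ s, ‖co G k z‖ ≤ a * ω z) →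
      ∀ z ∈ t, ‖co F k z‖ ≤ C * a * v z) : Le t F v (C * M) := by
  obtain ⟨a, ha, e'⟩ := h.ex
  exact ⟨hF, w0, _, ha.smul hC, fun k => e k _ (ha.a0 k) (e' k)⟩

/-- the subalgebra -/
def Wsub (r : ℝ → ℝ) : Subalgebra ℂ (ℝ × ℝ → ℂ) where
  carrier := {F | Continuous F ∧ (∀ z θ, F (r z, θ) = F (z, θ)) ∧ ∃ M, Le univ F (fun _ => 1) M}
  mul_mem' := fun ⟨a, b, _, c⟩ ⟨a', b', _, c'⟩ =>
    ⟨a.mul a', fun z θ => by simp only [Pi.mul_apply, b, b'], _, c.mul1 c'⟩
  add_mem' := fun ⟨a, b, _, c⟩ ⟨a', b', _, c'⟩ =>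
    ⟨a.add a', fun z θ => by simp only [Pi.add_apply, b, b'], _, c.add c'⟩
  algebraMap_mem' a := ⟨continuous_const, fun _ _ => rfl, _,
    le_z (φ := fun _ => a) (norm_nonneg a) (by simp) (by simp)⟩

/-- the algebra `W r` -/
def W (r : ℝ → ℝ) : Type := Wsub r

namespace W

instance : CommRing (W r) := inferInstanceAs (CommRing (Wsub r))
instance : Algebra ℂ (W r) := inferInstanceAs (Algebra ℂ (Wsub r))

/-- the underlying function -/
@[coe] def f (x : W r) : ℝ × ℝ → ℂ := x.1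

instance : CoeFun (W r) fun _ => ℝ × ℝ → ℂ := ⟨f⟩

variable {x y : W r}

@[ext] theorem ext (h : ∀ p, x p = y p) : x = y := Subtype.ext (funext h)
@[fun_prop] theorem cont (x : W r) : Continuous x := x.2.1
theorem fix (x : W r) (z θ : ℝ) : x (r z, θ) = x (z, θ) := x.2.2.1 z θ
theorem bdd (x : W r) : ∃ M, Le univ x (fun _ => 1) M := x.2.2.2
theorem adm (x : W r) (s : Set ℝ) : Adm s x := fun z _ => x.bdd.choose_spec.adm z trivial
theorem per (x : W r) (z θ : ℝ) : x (z, θ + 2 * π) = x (z, θ) := (x.adm univ z trivial).2 θ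

@[simp] theorem add_apply (x y : W r) (p) : (x + y) p = x p + y p := rfl
@[simp] theorem mul_apply (x y : W r) (p) : (x * y) p = x p * y p := rfl
@[simp] theorem sub_apply (x y : W r) (p) : (x - y) p = x p - y p := rfl
@[simp] theorem neg_apply (x : W r) (p) : (-x) p = -x p := rfl
@[simp] theorem zero_apply (p) : (0 : W r) p = 0 := rfl
@[simp] theorem one_apply (p) : (1 : W r) p = 1 := rfl
@[simp] theorem smul_apply (c : ℂ) (x : W r) (p) : (c • x) p = c * x p := rfl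
@[simp] theorem pow_apply (x : W r) (n : ℕ) (p) : (x ^ n) p = x p ^ n := rfl
@[simp] theorem algebraMap_apply (c : ℂ) (p) : algebraMap ℂ (W r) c p = c := rfl
@[simp] theorem natCast_apply (n : ℕ) (p) : (n : W r) p = n := rfl
@[simp] theorem ofNat_apply (n : ℕ) [n.AtLeastTwo] (p) : (ofNat(n) : W r) p = ofNat(n) := rfl

/-- the norm -/
def nrm (x : W r) : ℝ := sInf {M | Le univ x (fun _ => 1) M}

theorem nrm_le (h : Le univ x (fun _ => 1) M) : x.nrm ≤ M := csInf_le ⟨0, fun _ h => h.M0⟩ h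

theorem le_nrm (x : W r) : Le univ x (fun _ => 1) x.nrm :=
  le_of_forall_gt (le_csInf x.bdd fun _ h => h.M0) fun _ hN =>
    let ⟨_, h, l⟩ := exists_lt_of_csInf_lt x.bdd hN
    Le.mono h subset_rfl (fun _ _ => le_rfl) l.le

instance : NormedAddCommGroup (W r) := AddGroupNorm.toNormedAddCommGroup
  { toFun := nrm
    map_zero' := le_antisymm (nrm_le (le_zero (by simp))) (le_nrm _).M0
    add_le' := fun x y => nrm_le (x.le_nrm.add y.le_nrm)
    neg' := fun x => le_antisymm (nrm_le x.le_nrm.neg)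
      (nrm_le (by simpa using (-x).le_nrm.neg))
    eq_zero_of_map_eq_zero' := fun x h => ext fun p => by
      simpa [h] using x.le_nrm.apply (z := p.1) trivial p.2 }

theorem le_norm (x : W r) : Le univ x (fun _ => 1) ‖x‖ := x.le_nrm
theorem norm_le (h : Le univ x (fun _ => 1) M) : ‖x‖ ≤ M := nrm_le h
theorem le_on (x : W r) (s : Set ℝ) : Le s x (fun _ => 1) ‖x‖ :=
  x.le_norm.mono (subset_univ _) (fun _ _ => le_rfl) le_rfl
theorem apply_le (x : W r) (p : ℝ × ℝ) : ‖x p‖ ≤ ‖x‖ / 2 := by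
  simpa using x.le_norm.apply (z := p.1) trivial p.2

instance : NormedCommRing (W r) :=
  { (inferInstance : NormedAddCommGroup (W r)), (inferInstance : CommRing (W r)) with
    norm_mul_le := fun x y => norm_le (x.le_norm.mul1 y.le_norm) }

instance : NormedAlgebra ℂ (W r) := ⟨fun c x => norm_le (x.le_norm.cmul c)⟩

theorem norm_one_le : ‖(1 : W r)‖ ≤ 4 := norm_le (le_one univ)

instance : CompleteSpace (W r) := Metric.complete_of_cauchySeq_tendsto fun u hu => by
  have d : ∀ m n p, dist (u m p) (u n p) ≤ dist (u m) (u n) := fun m n p => by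
    rw [dist_eq_norm, dist_eq_norm]
    exact ((u m - u n).apply_le p).trans (half_le_self (norm_nonneg _))
  have hu' := Metric.cauchySeq_iff.1 hu
  have uc : UniformCauchySeqOn (fun n => (u n).f) atTop univ :=
    Metric.uniformCauchySeqOn_iff.2 fun ε hε =>
      let ⟨N, h⟩ := hu' ε hε
      ⟨N, fun m hm n hn p _ => (d m n p).trans_lt (h m hm n hn)⟩
  choose g hg using fun p => cauchySeq_tendsto_of_complete (uc.cauchySeq (mem_univ p))
  have un := tendstoUniformlyOn_univ.1 (uc.tendstoUniformlyOn_of_tendsto fun p _ => hg p)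
  have cg : Continuous g := un.continuous (Frequently.of_forall fun n => (u n).cont)
  have ag : Adm univ g := fun z _ => ⟨by fun_prop, fun θ =>
    tendsto_nhds_unique (hg _) (by simpa only [per] using hg (z, θ))⟩
  have key : ∀ ε > 0, ∃ N, ∀ n ≥ N, Le univ (fun p => u n p - g p) (fun _ => 1) ε := fun ε hε => by
    obtain ⟨N, h⟩ := hu' ε hε
    refine ⟨N, fun n hn => le_of_approx (((u n).adm _).sub ag) fun δ hδ => ?_⟩
    obtain ⟨m, h1, h2⟩ :=
      ((Metric.tendstoUniformly_iff.1 un δ hδ).and (eventually_ge_atTop N)).exists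
    refine ⟨(u n - u m).f, (le_norm _).mono subset_rfl (fun _ _ => le_rfl)
      (by rw [← dist_eq_norm]; exact (h n hn m h2).le), fun z _ θ => ?_⟩
    have := h1 (z, θ)
    rw [dist_comm, dist_eq_norm] at this
    simpa using this.le
  obtain ⟨N, h⟩ := key 1 one_pos
  let G : W r := ⟨g, cg, fun z θ => tendsto_nhds_unique (hg _)
    (by simpa only [fix] using hg (z, θ)), _, by simpa using (u N).le_norm.sub (h N le_rfl)⟩
  refine ⟨G, Metric.tendsto_atTop.2 fun ε hε => ?_⟩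
  obtain ⟨N, h⟩ := key (ε / 2) (by positivity)
  exact ⟨N, fun n hn => by
    rw [dist_eq_norm]; exact (norm_le (x := u n - G) (h n hn)).trans_lt (half_lt_self hε)⟩

/-- evaluation at a point -/
def ev (p : ℝ × ℝ) : W r →A[ℂ] ℂ where
  toFun x := x p
  map_one' := rfl
  map_mul' _ _ := rfl
  map_zero' := rfl
  map_add' _ _ := rfl
  commutes' _ := rfl
  cont := AddMonoidHomClass.continuous_of_bound
    (⟨⟨fun x : W r => x p, rfl⟩, fun _ _ => rfl⟩ : W r →+ ℂ) 1 fun x =>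
      ((x.apply_le p).trans (half_le_self (norm_nonneg _))).trans_eq (one_mul _).symm

@[simp] theorem ev_apply (p : ℝ × ℝ) (x : W r) : ev p x = x p := rfl

@[fun_prop] theorem cont_ev (p : ℝ × ℝ) : Continuous fun x : W r => x p := (ev p).cont

@[simp] theorem sum_apply {ι : Type*} (I : Finset ι) (g : ι → W r) (p) :
    (∑ i ∈ I, g i) p = ∑ i ∈ I, g i p := map_sum (ev p) g I

end W

/-- `r` is a continuous retraction of the line onto `s` -/
structure Ret (s : Set ℝ) (r : ℝ → ℝ) : Prop where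
  cont : Continuous r
  mem : ∀ z, r z ∈ s
  fix : ∀ z ∈ s, r z = z

/-- the retraction onto `[R, Z]` -/
def cl (R Z z : ℝ) : ℝ := max R (min Z z)

theorem ret_cl {R Z : ℝ} (h : R ≤ Z) : Ret (Icc R Z) (cl R Z) :=
  ⟨by unfold cl; fun_prop, fun _ => ⟨le_max_left _ _, max_le h (min_le_left _ _)⟩,
    fun z hz => by rw [cl, min_eq_right hz.2, max_eq_right hz.1]⟩

theorem ret_max (R : ℝ) : Ret (Ici R) (max R) :=
  ⟨by fun_prop, fun z => le_max_left R z, fun _ hz => max_eq_right hz⟩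

theorem Ret.idem (h : Ret s r) (z : ℝ) : r (r z) = r z := h.fix _ (h.mem z)

theorem Ret.ext (h : Ret s r) {x y : W r} (e : ∀ z ∈ s, ∀ θ, x (z, θ) = y (z, θ)) : x = y :=
  W.ext fun p => by rw [← Prod.mk.eta (p := p), ← x.fix, ← y.fix, e _ (h.mem _)]

theorem Ret.norm_le (h : Ret s r) {x : W r} (k : Le s x (fun _ => 1) M) : ‖x‖ ≤ M :=
  W.norm_le ((k.comp fun z _ => h.mem z).congr fun z _ θ => (x.fix z θ).symm)

/-- an element of `W r` from a function on `s × ℝ` -/
def Ret.mk' (h : Ret s r) (F : ℝ × ℝ → ℂ) (c : ContinuousOn F (s ×ˢ univ))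
    (b : ∃ M, Le s F (fun _ => 1) M) : W r :=
  ⟨fun p => F (r p.1, p.2), c.comp_continuous ((h.cont.comp continuous_fst).prodMk continuous_snd)
    fun p => ⟨h.mem _, trivial⟩, fun z θ => by simp only [h.idem], _,
    b.choose_spec.comp fun z _ => h.mem z⟩

theorem Ret.mk'_apply (h : Ret s r) (F c b) {z : ℝ} (hz : z ∈ s) (θ : ℝ) :
    h.mk' F c b (z, θ) = F (z, θ) := by
  change F (r z, θ) = _
  rw [h.fix z hz]

theorem Ret.mk'_le (h : Ret s r) (c b) (ht : t ⊆ s) (k : Le t F ω M) : Le t (h.mk' F c b) ω M :=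
  k.congr fun _ hz θ => h.mk'_apply F c b (ht hz) θ

open Classical in
/-- the element of `W r` which agrees with `F` on `s × ℝ` (zero if there is none) -/
def toW (s : Set ℝ) (r : ℝ → ℝ) (F : ℝ × ℝ → ℂ) : W r :=
  if h : ∃ x : W r, ∀ z ∈ s, ∀ θ, x (z, θ) = F (z, θ) then h.choose else 0

theorem Ret.toW_apply (h : Ret s r) (c : ContinuousOn F (s ×ˢ univ))
    (b : Le s F (fun _ => 1) M) {z : ℝ} (hz : z ∈ s) (θ : ℝ) : toW s r F (z, θ) = F (z, θ) := by
  have e : ∃ x : W r, ∀ z ∈ s, ∀ θ, x (z, θ) = F (z, θ) :=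
    ⟨h.mk' F c ⟨_, b⟩, fun z hz θ => h.mk'_apply _ _ _ hz θ⟩
  rw [toW, dif_pos e]
  exact e.choose_spec z hz θ

theorem Ret.toW_eq (h : Ret s r) {x : W r} (e : ∀ z ∈ s, ∀ θ, x (z, θ) = F (z, θ)) :
    toW s r F = x := by
  have e' : ∃ x : W r, ∀ z ∈ s, ∀ θ, x (z, θ) = F (z, θ) := ⟨x, e⟩
  rw [toW, dif_pos e']
  exact h.ext fun z hz θ => (e'.choose_spec z hz θ).trans (e z hz θ).symm

/-- a function of `z` as an element of `W r` -/
def cst (s : Set ℝ) (r : ℝ → ℝ) (φ : ℝ → ℂ) : W r := toW s r fun p => φ p.1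

theorem Ret.cst_apply (h : Ret s r) {φ : ℝ → ℂ} (c : ContinuousOn φ s) {C : ℝ}
    (b : ∀ z ∈ s, ‖φ z‖ ≤ C) {z : ℝ} (hz : z ∈ s) (θ : ℝ) : cst s r φ (z, θ) = φ z :=
  h.toW_apply (c.comp continuous_fst.continuousOn fun _ hp => hp.1)
    (le_z ((norm_nonneg _).trans (b z hz)) (by simp) (by simpa using b)) hz θ

theorem cst_Icc {R Z : ℝ} (h : R ≤ Z) {φ : ℝ → ℂ} (c : ContinuousOn φ (Icc R Z)) {z : ℝ}
    (hz : z ∈ Icc R Z) (θ : ℝ) : cst (Icc R Z) (cl R Z) φ (z, θ) = φ z :=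
  let ⟨_, b⟩ := isCompact_Icc.exists_bound_of_continuousOn c
  (ret_cl h).cst_apply c b hz θ

end Vale.Agent.P218W
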