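import Vale.Agent.P218W.Sem
import Vale.Agent.P218W.Fc

/-! Weighted bounds up to uniform constants, along a filter of data. -/

open Set Complex Filter Topology

noncomputable section

namespace Vale.Agent.P218W

variable {D : Type} {l : Filter D} {I : D → Set ℝ} {F G : D → ℝ × ℝ → ℂ}
  {ω ω' o o' ν ν' : D → ℝ → ℝ}

/-- `F = O(ω)` in `W` -/
def Bd (l : Filter D) (I : D → Set ℝ) (F : D → ℝ × ℝ → ℂ) (ω : D → ℝ → ℝ) : Prop :=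
  ∃ C, ∀ᶠ d in l, Le (I d) (F d) (ω d) C

/-- `ω = O(ω')` -/
def Wl (l : Filter D) (I : D → Set ℝ) (ω ω' : D → ℝ → ℝ) : Prop :=
  ∃ C, 0 ≤ C ∧ ∀ᶠ d in l, ∀ z ∈ I d, 0 ≤ ω' d z ∧ ω d z ≤ C * ω' d z

theorem wl_of (C : ℝ) (hC : 0 ≤ C) (h : ∀ d, ∀ z ∈ I d, 0 ≤ ω' d z ∧ ω d z ≤ C * ω' d z) :
    Wl l I ω ω' := ⟨C, hC, .of_forall h⟩

namespace Bd

theorem wt (h : Bd l I F ω) (k : Wl l I ω ω') : Bd l I F ω' :=
  let ⟨_, h⟩ := h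
  let ⟨_, c, k⟩ := k
  ⟨_, (h.and k).mono fun _ e =>
    e.1.wt c (fun z hz => (e.2 z hz).1) fun z hz => (e.2 z hz).2⟩

theorem add (h : Bd l I F ω) (k : Bd l I G ω) : Bd l I (fun d p => F d p + G d p) ω :=
  let ⟨_, h⟩ := h
  let ⟨_, k⟩ := k
  ⟨_, (h.and k).mono fun _ e => e.1.add e.2⟩

theorem sub (h : Bd l I F ω) (k : Bd l I G ω) : Bd l I (fun d p => F d p - G d p) ω :=
  let ⟨_, h⟩ := h
  let ⟨_, k⟩ := k
  ⟨_, (h.and k).mono fun _ e => e.1.sub e.2⟩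

theorem mul (h : Bd l I F ω) (k : Bd l I G ω') :
    Bd l I (fun d p => F d p * G d p) fun d z => ω d z * ω' d z :=
  let ⟨_, h⟩ := h
  let ⟨_, k⟩ := k
  ⟨_, (h.and k).mono fun _ e => e.1.mul e.2⟩

theorem cmul (h : Bd l I F ω) (c : ℂ) : Bd l I (fun d p => c * F d p) ω :=
  let ⟨_, h⟩ := h
  ⟨_, h.mono fun _ e => e.cmul c⟩

theorem congr (h : Bd l I F ω) (e : ∀ᶠ d in l, ∀ z ∈ I d, ∀ θ, G d (z, θ) = F d (z, θ)) :
    Bd l I G ω :=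
  let ⟨_, h⟩ := h
  ⟨_, (h.and e).mono fun _ e => e.1.congr e.2⟩

theorem p0 (h : Bd l I F ω) : Bd l I (fun d => p0 (F d)) ω :=
  let ⟨_, h⟩ := h
  ⟨_, h.mono fun _ e => e.p0⟩

theorem pn (h : Bd l I F ω) : Bd l I (fun d => pn (F d)) ω :=
  let ⟨_, h⟩ := h
  ⟨_, h.mono fun _ e => e.pn⟩

theorem adm (h : Bd l I F ω) : ∀ᶠ d in l, Adm (I d) (F d) :=
  let ⟨_, h⟩ := h
  h.mono fun _ e => e.adm

theorem w0 (h : Bd l I F ω) : ∀ᶠ d in l, ∀ z ∈ I d, 0 ≤ ω d z :=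
  let ⟨_, h⟩ := h
  h.mono fun _ e => e.w0

theorem add' (h : Bd l I F ω) (k : Bd l I G ω') :
    Bd l I (fun d p => F d p + G d p) fun d z => ω d z + ω' d z :=
  have e := h.w0.and k.w0
  (h.wt ⟨1, zero_le_one, e.mono fun _ e z hz => by
    constructor <;> linarith [e.1 z hz, e.2 z hz]⟩).add
    (k.wt ⟨1, zero_le_one, e.mono fun _ e z hz => by
      constructor <;> linarith [e.1 z hz, e.2 z hz]⟩)

/-- small perturbations of a function of `z` -/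
theorem small {ρ : D → ℝ → ℂ} {e : D → ℝ} (h : Bd l I F fun d z => e d * ‖ρ d z‖)
    (e0 : ∀ d, 0 ≤ e d) (he : Tendsto e l (𝓝 0)) :
    ∀ᶠ d in l, Le (I d) (F d) (fun z => ‖ρ d z‖) (1 / 2) := by
  obtain ⟨C, h⟩ := h
  filter_upwards [h, (tendsto_order.1 (he.mul_const C)).2 (1 / 2) (by simp)] with d h k
  exact (h.wt (e0 d) (by simp) fun _ _ => le_rfl).mono subset_rfl (fun _ _ => le_rfl) k.le

theorem inv {ρ : D → ℝ → ℂ} (h : ∀ᶠ d in l, Le (I d) (F d) (fun z => ‖ρ d z‖) (1 / 2))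
    (n : ∀ d, ∀ z ∈ I d, ρ d z ≠ 0) :
    Bd l I (fun d p => (ρ d p.1 + F d p)⁻¹) fun d z => ‖ρ d z‖⁻¹ :=
  ⟨_, h.mono fun d h => (h.inv_add le_rfl (n d)).2⟩

end Bd

theorem Le.ne {s : Set ℝ} {f : ℝ × ℝ → ℂ} {ρ : ℝ → ℂ} (h : Le s f (fun z => ‖ρ z‖) (1 / 2))
    {z : ℝ} (hz : z ∈ s) (n : ρ z ≠ 0) (θ : ℝ) : ρ z + f (z, θ) ≠ 0 := fun e => by
  have := h.apply hz θ
  rw [eq_neg_of_add_eq_zero_right e, norm_neg] at this
  linarith [norm_pos_iff.2 n]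

theorem bd_z {φ : D → ℝ → ℂ} (h : Wl l I (fun d z => ‖φ d z‖) ω) :
    Bd l I (fun d p => φ d p.1) ω :=
  let ⟨_, c, h⟩ := h
  ⟨_, h.mono fun _ e => le_z c (fun z hz => (e z hz).1) fun z hz => (e z hz).2⟩

theorem bd_const (c : ℂ) : Bd l I (fun _ _ => c) fun _ _ => 1 :=
  bd_z (φ := fun _ _ => c) (wl_of ‖c‖ (norm_nonneg _) (by simp))

/-- total weight `o`, weight `ν` of the modes `k ≠ 0` -/
def B2 (l : Filter D) (I : D → Set ℝ) (F : D → ℝ × ℝ → ℂ) (o ν : D → ℝ → ℝ) : Prop :=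
  Bd l I F o ∧ Bd l I (fun d => pn (F d)) ν

theorem Bd.b2 (h : Bd l I F o) : B2 l I F o o := ⟨h, h.pn⟩

namespace B2

theorem wt (h : B2 l I F o ν) (k : Wl l I o o') (k' : Wl l I ν ν') : B2 l I F o' ν' :=
  ⟨h.1.wt k, h.2.wt k'⟩

theorem congr (h : B2 l I F o ν) (e : ∀ᶠ d in l, ∀ z ∈ I d, ∀ θ, G d (z, θ) = F d (z, θ)) :
    B2 l I G o ν :=
  ⟨h.1.congr e, h.2.congr (e.mono fun d e z hz θ => by
    simp only [pn, e z hz, co_congr (e z hz) 0])⟩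

theorem add (h : B2 l I F o ν) (k : B2 l I G o ν) : B2 l I (fun d p => F d p + G d p) o ν :=
  ⟨h.1.add k.1, (h.2.add k.2).congr ((h.1.adm.and k.1.adm).mono fun d e z hz θ => by
    simp only [pn, co_add e.1 e.2 0 hz]; ring)⟩

theorem add_z (h : B2 l I F o ν) {φ : D → ℝ → ℂ} (k : Wl l I (fun d z => ‖φ d z‖) o) :
    B2 l I (fun d p => φ d p.1 + F d p) o ν :=
  ⟨(bd_z k).add h.1, h.2.congr (h.1.adm.mono fun d e z hz θ => by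
    simp only [pn, co_add (adm_z _ (φ d)) e 0 hz, co_z, if_true]; ring)⟩

theorem mul (h : B2 l I F o ν) (k : B2 l I G o' ν') : B2 l I (fun d p => F d p * G d p)
    (fun d z => o d z * o' d z) fun d z => ν d z * o' d z + o d z * ν' d z :=
  ⟨h.1.mul k.1, ((h.2.mul k.1).add' (h.1.p0.mul k.2)).pn.congr
    ((h.1.adm.and k.1.adm).mono fun d e z hz θ => by
      rw [pn_sub_z (e.1.mul e.2) (fun z => co (F d) 0 z * co (G d) 0 z) hz]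
      congr 1; ext; simp only [pn, p0]; ring)⟩

theorem inv {ρ : D → ℝ → ℂ} (h : ∀ᶠ d in l, Le (I d) (F d) (fun z => ‖ρ d z‖) (1 / 2))
    (k : Bd l I (fun d => pn (F d)) ν) (n : ∀ d, ∀ z ∈ I d, ρ d z ≠ 0) :
    B2 l I (fun d p => (ρ d p.1 + F d p)⁻¹) (fun d z => ‖ρ d z‖⁻¹)
      fun d z => ν d z * ‖ρ d z‖⁻¹ * ‖ρ d z‖⁻¹ := by
  have h0 := h.mono fun d h => h.p0
  have i := Bd.inv h n
  refine ⟨i, (((k.mul i).mul (Bd.inv h0 n)).cmul (-1)).pn.congr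
    ((i.adm.and (h.and h0)).mono fun d e z hz θ => ?_)⟩
  rw [pn_sub_z e.1 (fun z => (ρ d z + co (F d) 0 z)⁻¹) hz]
  have key : ∀ θ, (ρ d z + F d (z, θ))⁻¹ - (ρ d z + co (F d) 0 z)⁻¹ =
      -1 * (pn (F d) (z, θ) * (ρ d z + F d (z, θ))⁻¹ * (ρ d z + p0 (F d) (z, θ))⁻¹) := fun θ => by
    have a := e.2.1.ne hz (n d z hz) θ
    have b : ρ d z + co (F d) 0 z ≠ 0 := e.2.2.ne hz (n d z hz) θ
    simp only [pn, p0]; field_simp; ring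
  simp only [pn, key, co] at key ⊢

end B2

end Vale.Agent.P218W
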