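import Vale.Agent.P218W.Seq

/-! Weighted Fourier bounds `Le s F ω M` for functions of `(z, θ)`: the calculus. -/

open Set Complex Filter Topology MeasureTheory
open scoped Real

noncomputable section

namespace Vale.Agent.P218W

/-- Fourier coefficient in `θ` at height `z` -/
def co (F : ℝ × ℝ → ℂ) (k : ℤ) (z : ℝ) : ℂ := c1 (fun θ => F (z, θ)) k

/-- the slices over `s` are continuous and `2π`-periodic -/
def Adm (s : Set ℝ) (F : ℝ × ℝ → ℂ) : Prop :=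
  ∀ z ∈ s, Continuous (fun θ => F (z, θ)) ∧ ∀ θ, F (z, θ + 2 * π) = F (z, θ)

/-- `16 ∑ (1+k²) (sup_{z ∈ s} |F_k(z)| / ω z)² ≤ M²` -/
structure Le (s : Set ℝ) (F : ℝ × ℝ → ℂ) (ω : ℝ → ℝ) (M : ℝ) : Prop where
  adm : Adm s F
  w0 : ∀ z ∈ s, 0 ≤ ω z
  ex : ∃ a, Sq a M ∧ ∀ k, ∀ z ∈ s, ‖co F k z‖ ≤ a k * ω z

variable {s t : Set ℝ} {F G : ℝ × ℝ → ℂ} {ω ω' : ℝ → ℝ} {M N : ℝ}

theorem Adm.add (h : Adm s F) (k : Adm s G) : Adm s fun p => F p + G p := fun z hz =>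
  ⟨(h z hz).1.add (k z hz).1, fun θ => by simp only [(h z hz).2, (k z hz).2]⟩

theorem Adm.mul (h : Adm s F) (k : Adm s G) : Adm s fun p => F p * G p := fun z hz =>
  ⟨(h z hz).1.mul (k z hz).1, fun θ => by simp only [(h z hz).2, (k z hz).2]⟩

theorem adm_z (s : Set ℝ) (φ : ℝ → ℂ) : Adm s fun p => φ p.1 := fun z _ =>
  ⟨show Continuous fun _ : ℝ => φ z from continuous_const, fun _ => rfl⟩

theorem Adm.sub (h : Adm s F) (k : Adm s G) : Adm s fun p => F p - G p := fun z hz =>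
  ⟨(h z hz).1.sub (k z hz).1, fun θ => by simp only [(h z hz).2, (k z hz).2]⟩

theorem co_add (h : Adm s F) (k : Adm s G) (j : ℤ) {z : ℝ} (hz : z ∈ s) :
    co (fun p => F p + G p) j z = co F j z + co G j z := c1_add (h z hz).1 (k z hz).1 j

theorem co_mulz (φ : ℝ → ℂ) (F : ℝ × ℝ → ℂ) (j : ℤ) (z : ℝ) :
    co (fun p => φ p.1 * F p) j z = φ z * co F j z := c1_mul (φ z) (fun θ => F (z, θ)) j

theorem co_sub (h : Adm s F) (k : Adm s G) (j : ℤ) {z : ℝ} (hz : z ∈ s) :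
    co (fun p => F p - G p) j z = co F j z - co G j z := by
  have := co_add h ((adm_z s fun _ => -1).mul k) j hz
  rw [co_mulz (fun _ => -1)] at this
  simpa [sub_eq_add_neg] using this

theorem co_z (φ : ℝ → ℂ) (j : ℤ) (z : ℝ) :
    co (fun p => φ p.1) j z = if j = 0 then φ z else 0 := by
  have := c1_mul (φ z) (fun _ => 1) j
  simpa [c1_one, co] using this

theorem co_congr {z : ℝ} (h : ∀ θ, F (z, θ) = G (z, θ)) (j : ℤ) : co F j z = co G j z := by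
  simp only [co, h]

theorem Le.M0 (h : Le s F ω M) : 0 ≤ M := h.ex.choose_spec.1.M0

theorem Le.mono (h : Le s F ω M) (ht : t ⊆ s) (hw : ∀ z ∈ t, ω z ≤ ω' z) (hN : M ≤ N) :
    Le t F ω' N := by
  obtain ⟨a, ha, e⟩ := h.ex
  exact ⟨fun z hz => h.adm z (ht hz), fun z hz => (h.w0 z (ht hz)).trans (hw z hz), a,
    ha.mono ha.a0 (fun _ => le_rfl) hN, fun k z hz => (e k z (ht hz)).trans
      (mul_le_mul_of_nonneg_left (hw z hz) (ha.a0 k))⟩

theorem Le.congr (h : Le s F ω M) (e : ∀ z ∈ s, ∀ θ, G (z, θ) = F (z, θ)) : Le s G ω M := by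
  obtain ⟨a, ha, k⟩ := h.ex
  exact ⟨fun z hz => by simpa only [e z hz] using h.adm z hz, h.w0, a, ha,
    fun j z hz => by rw [co_congr (e z hz)]; exact k j z hz⟩

theorem Le.sm (h : Le s F ω M) {z : ℝ} (hz : z ∈ s) : Summable fun k => ‖co F k z‖ := by
  obtain ⟨a, ha, e⟩ := h.ex
  exact (ha.summable.mul_right _).of_nonneg_of_le (fun _ => norm_nonneg _) fun k => e k z hz

theorem Le.hasSum (h : Le s F ω M) {z : ℝ} (hz : z ∈ s) (θ : ℝ) :
    HasSum (fun k => co F k z * P218W.ex k θ) (F (z, θ)) :=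
  hasSum_c1 (h.adm z hz).1 (h.adm z hz).2 (h.sm hz) θ

theorem Le.tsum_le (h : Le s F ω M) {z : ℝ} (hz : z ∈ s) : ∑' k, ‖co F k z‖ ≤ M / 2 * ω z := by
  obtain ⟨a, ha, e⟩ := h.ex
  refine ((h.sm hz).tsum_le_tsum (fun k => e k z hz) (ha.summable.mul_right _)).trans ?_
  rw [tsum_mul_right]; exact mul_le_mul_of_nonneg_right ha.tsum_le (h.w0 z hz)

/-- pointwise bound -/
theorem Le.apply (h : Le s F ω M) {z : ℝ} (hz : z ∈ s) (θ : ℝ) : ‖F (z, θ)‖ ≤ M / 2 * ω z := by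
  rw [← (h.hasSum hz θ).tsum_eq]
  exact (norm_tsum_le_tsum_norm (by simpa using h.sm hz)).trans (by simpa using h.tsum_le hz)

theorem Le.co_le (h : Le s F ω M) (k : ℤ) {z : ℝ} (hz : z ∈ s) : ‖co F k z‖ ≤ M / 2 * ω z :=
  c1_le (fun θ _ => h.apply hz θ) k

theorem Le.add (h : Le s F ω M) (k : Le s G ω N) : Le s (fun p => F p + G p) ω (M + N) := by
  obtain ⟨a, ha, e⟩ := h.ex
  obtain ⟨b, hb, e'⟩ := k.ex
  refine ⟨h.adm.add k.adm, h.w0, _, ha.add hb, fun j z hz => ?_⟩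
  rw [co_add h.adm k.adm j hz, add_mul]
  exact norm_add_le_of_le (e j z hz) (e' j z hz)

/-- multiplication by a function of `z` -/
theorem Le.mulz (h : Le s F ω M) {φ : ℝ → ℂ} {C : ℝ} (hC : 0 ≤ C) (w0 : ∀ z ∈ s, 0 ≤ ω' z)
    (hφ : ∀ z ∈ s, ‖φ z‖ * ω z ≤ C * ω' z) : Le s (fun p => φ p.1 * F p) ω' (C * M) := by
  obtain ⟨a, ha, e⟩ := h.ex
  refine ⟨(adm_z s φ).mul h.adm, w0, _, ha.smul hC, fun j z hz => ?_⟩
  rw [co_mulz, norm_mul]
  have := mul_le_mul_of_nonneg_left (e j z hz) (norm_nonneg (φ z))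
  have := mul_le_mul_of_nonneg_left (hφ z hz) (ha.a0 j)
  nlinarith

theorem Le.cmul (h : Le s F ω M) (c : ℂ) : Le s (fun p => c * F p) ω (‖c‖ * M) :=
  h.mulz (φ := fun _ => c) (norm_nonneg _) h.w0 fun _ _ => le_rfl

theorem Le.neg (h : Le s F ω M) : Le s (fun p => -F p) ω M := by
  simpa using h.cmul (-1)

theorem Le.sub (h : Le s F ω M) (k : Le s G ω N) : Le s (fun p => F p - G p) ω (M + N) := by
  simpa only [sub_eq_add_neg] using h.add k.neg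

/-- change of weight -/
theorem Le.wt (h : Le s F ω M) {C : ℝ} (hC : 0 ≤ C) (w0 : ∀ z ∈ s, 0 ≤ ω' z)
    (hw : ∀ z ∈ s, ω z ≤ C * ω' z) : Le s F ω' (C * M) := by
  simpa using h.mulz (φ := fun _ => 1) hC w0 (by simpa using hw)

theorem sq_single (j : ℤ) {x : ℝ} (hx : 0 ≤ x) :
    Sq (fun k => if k = j then x else 0) (4 * br j * x) := by
  refine ⟨by have := br_pos j; positivity, fun k => by split_ifs <;> simp [hx], fun t => ?_⟩
  have : ∀ k : ℤ, (1 + (k : ℝ) ^ 2) * (if k = j then x else 0) ^ 2 =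
      if k = j then (1 + (j : ℝ) ^ 2) * x ^ 2 else 0 := fun k => by split_ifs with e <;> simp [e]
  simp only [this, Finset.sum_ite_eq', mul_pow, br_sq]
  split_ifs
  · linarith
  · nlinarith [mul_nonneg (sq_nonneg (j : ℝ)) (sq_nonneg x), sq_nonneg x]

/-- functions of `z` -/
theorem le_z {φ : ℝ → ℂ} {C : ℝ} (hC : 0 ≤ C) (w0 : ∀ z ∈ s, 0 ≤ ω z)
    (hφ : ∀ z ∈ s, ‖φ z‖ ≤ C * ω z) : Le s (fun p => φ p.1) ω (4 * C) := by
  refine ⟨adm_z s φ, w0, _, by simpa [br] using sq_single 0 hC, fun j z hz => ?_⟩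
  rw [co_z]; split_ifs
  · exact hφ z hz
  · simp

theorem le_one (s : Set ℝ) : Le s (fun _ => 1) (fun _ => 1) 4 := by
  simpa using le_z (s := s) (φ := fun _ => 1) (ω := fun _ => 1) zero_le_one (by simp) (by simp)

theorem le_zero (w0 : ∀ z ∈ s, 0 ≤ ω z) : Le s (fun _ => 0) ω 0 := by
  simpa using le_z (φ := fun _ => 0) le_rfl w0 (by simp)

/-- the product rule -/
theorem Le.mul (h : Le s F ω M) (k : Le s G ω' N) :
    Le s (fun p => F p * G p) (fun z => ω z * ω' z) (M * N) := by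
  obtain ⟨a, ha, e⟩ := h.ex
  obtain ⟨b, hb, e'⟩ := k.ex
  obtain ⟨sm, q⟩ := ha.conv hb
  refine ⟨h.adm.mul k.adm, fun z hz => mul_nonneg (h.w0 z hz) (k.w0 z hz), _, q, fun j z hz => ?_⟩
  rw [← tsum_mul_right]
  refine (c1_prod (h.adm z hz).1 (h.adm z hz).2 (h.sm hz) (k.adm z hz).1 j).norm_le_of_bounded
    ((sm j).mul_right _).hasSum fun i => ?_
  rw [norm_mul, mul_mul_mul_comm]
  exact mul_le_mul (e i z hz) (e' _ z hz) (norm_nonneg _) ((norm_nonneg _).trans (e i z hz))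

/-- the product rule with a change of weight -/
theorem Le.mul' (h : Le s F ω M) (k : Le s G ω' N) {v : ℝ → ℝ} {C : ℝ} (hC : 0 ≤ C)
    (w0 : ∀ z ∈ s, 0 ≤ v z) (hw : ∀ z ∈ s, ω z * ω' z ≤ C * v z) :
    Le s (fun p => F p * G p) v (C * (M * N)) := (h.mul k).wt hC w0 hw

theorem Le.pow (h : Le s F ω M) (n : ℕ) :
    Le s (fun p => F p ^ (n + 1)) (fun z => ω z ^ (n + 1)) (M ^ (n + 1)) := by
  induction n with
  | zero => simpa using h
  | succ n ih => simpa only [pow_succ] using ih.mul h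

theorem Le.sum {ι : Type*} (I : Finset ι) {f : ι → ℝ × ℝ → ℂ} {m : ι → ℝ}
    (w0 : ∀ z ∈ s, 0 ≤ ω z) (h : ∀ i ∈ I, Le s (f i) ω (m i)) :
    Le s (fun p => ∑ i ∈ I, f i p) ω (∑ i ∈ I, m i) := by
  classical
  induction I using Finset.induction_on with
  | empty => simpa using le_zero w0
  | insert i I hi ih =>
    simp only [Finset.sum_insert hi]
    exact (h i (by simp)).add (ih fun j hj => h j (by simp [hj]))

theorem sq_fin (t : Finset ℤ) : ∃ C, Sq (fun k => if k ∈ t then 1 else 0) C := by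
  classical
  induction t using Finset.induction_on with
  | empty => exact ⟨0, le_rfl, by simp, by simp⟩
  | insert j t hj ih =>
    obtain ⟨C, h⟩ := ih
    refine ⟨_, ((sq_single j zero_le_one).add h).mono (fun k => by positivity) (fun k => ?_) le_rfl⟩
    by_cases e : k = j <;> by_cases e' : k ∈ t <;> simp [e, e', hj]

/-- closedness under weighted uniform limits -/
theorem le_of_approx (hF : Adm s F) (h : ∀ ε > 0, ∃ G, Le s G ω M ∧
    ∀ z ∈ s, ∀ θ, ‖F (z, θ) - G (z, θ)‖ ≤ ε * ω z) : Le s F ω M := by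
  classical
  obtain ⟨G₀, g₀, -⟩ := h 1 one_pos
  have key : ∀ ε > 0, ∃ a, Sq a M ∧ ∀ k, ∀ z ∈ s, ‖co F k z‖ ≤ (a k + ε) * ω z := fun ε hε => by
    obtain ⟨G, hG, e⟩ := h ε hε
    obtain ⟨a, ha, e'⟩ := hG.ex
    refine ⟨a, ha, fun k z hz => ?_⟩
    have := c1_le (f := fun θ => F (z, θ) - G (z, θ)) (fun θ _ => e z hz θ) k
    change ‖co (fun p => F p - G p) k z‖ ≤ _ at this
    rw [co_sub hF hG.adm k hz] at this
    have := norm_sub_norm_le (co F k z) (co G k z)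
    linarith [e' k z hz]
  have dv : ∀ {x c : ℝ} {z : ℝ}, z ∈ s → 0 ≤ c → x ≤ c * ω z → x / ω z ≤ c := fun hz hc hx =>
    div_le_of_le_mul₀ (g₀.w0 _ hz) hc hx
  let b : ℤ → ℝ := fun k => ⨆ z : s, ‖co F k z‖ / ω z
  have b0 : ∀ k, 0 ≤ b k := fun k =>
    Real.iSup_nonneg fun z => div_nonneg (norm_nonneg _) (g₀.w0 _ z.2)
  refine ⟨hF, g₀.w0, b, ⟨g₀.M0, b0, fun t => ?_⟩, fun k z hz => ?_⟩
  · obtain ⟨C, hC⟩ := sq_fin t
    have : ∀ ε > 0, 16 * ∑ k ∈ t, (1 + (k : ℝ) ^ 2) * b k ^ 2 ≤ (M + ε * C) ^ 2 := fun ε hε => by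
      obtain ⟨a, ha, e⟩ := key ε hε
      refine le_trans ?_ ((ha.add (hC.smul hε.le)).le t)
      gcongr with k hk
      · exact b0 k
      · have := add_nonneg (ha.a0 k) hε.le
        simpa [hk] using Real.iSup_le (fun z : s => dv z.2 this (e k z z.2)) this
    have l : Tendsto (fun ε : ℝ => (M + ε * C) ^ 2) (𝓝[>] 0) (𝓝 ((M + 0 * C) ^ 2)) :=
      Tendsto.mono_left (Continuous.tendsto (by fun_prop) _) nhdsWithin_le_nhds
    simpa using ge_of_tendsto l (eventually_mem_nhdsWithin.mono this)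
  · obtain ⟨a, ha, e⟩ := key 1 one_pos
    rcases (g₀.w0 z hz).eq_or_lt with e0 | e0
    · simpa [← e0] using e k z hz
    · exact (div_le_iff₀ e0).1 (le_ciSup (f := fun z : s => ‖co F k z‖ / ω z) ⟨a k + 1, by
        rintro _ ⟨y, rfl⟩; exact dv y.2 (add_nonneg (ha.a0 k) zero_le_one) (e k y y.2)⟩ ⟨z, hz⟩)

/-- the inverse: `(1 - F)⁻¹ - 1` -/
theorem Le.inv (h : Le s F (fun _ => 1) M) (hM : M ≤ 1 / 2) :
    Le s (fun p => (1 - F p)⁻¹ - 1) (fun _ => 1) (2 * M) := by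
  have M0 := h.M0
  have b : ∀ z ∈ s, ∀ θ, ‖F (z, θ)‖ ≤ 1 / 2 := fun z hz θ => (h.apply hz θ).trans (by linarith)
  have lo : ∀ z ∈ s, ∀ θ, 1 / 2 ≤ ‖1 - F (z, θ)‖ := fun z hz θ => by
    have := norm_sub_norm_le 1 (F (z, θ))
    rw [norm_one] at this; linarith [b z hz θ]
  have ne : ∀ z ∈ s, ∀ θ, 1 - F (z, θ) ≠ 0 := fun z hz θ e => by
    have := lo z hz θ
    rw [e, norm_zero] at this; linarith
  refine le_of_approx (fun z hz => ⟨((continuous_const.sub (h.adm z hz).1).inv₀ (ne z hz)).sub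
    continuous_const, fun θ => by simp only [(h.adm z hz).2]⟩) fun ε hε => ?_
  obtain ⟨n, hn⟩ := exists_pow_lt_of_lt_one hε (show (1 / 2 : ℝ) < 1 by norm_num)
  refine ⟨fun p => ∑ i ∈ Finset.range n, F p ^ (i + 1), (Le.sum _ (by simp) fun i _ => by
    simpa using h.pow i).mono subset_rfl (fun _ _ => le_rfl) ?_, fun z hz θ => ?_⟩
  · have : ∑ i ∈ Finset.range n, M ^ (i + 1) ≤ ∑ i ∈ Finset.range n, M * (1 / 2) ^ i :=
      Finset.sum_le_sum fun i _ => by rw [pow_succ']; gcongr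
    rw [← Finset.mul_sum] at this
    nlinarith [sum_geometric_two_le n]
  · have e : (1 - F (z, θ))⁻¹ - 1 - ∑ i ∈ Finset.range n, F (z, θ) ^ (i + 1) =
        F (z, θ) ^ (n + 1) * (1 - F (z, θ))⁻¹ := by
      have := mul_neg_geom_sum (F (z, θ)) (n + 1)
      rw [Finset.sum_range_succ'] at this
      have := ne z hz θ
      field_simp
      linear_combination -‹(1 - F (z, θ)) * _ = _›
    rw [e, norm_mul, norm_pow, norm_inv, pow_succ, mul_assoc, mul_one]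
    have h1 : ‖F (z, θ)‖ * ‖1 - F (z, θ)‖⁻¹ ≤ 1 := by
      rw [← div_eq_mul_inv, div_le_one (by linarith [lo z hz θ])]; linarith [b z hz θ, lo z hz θ]
    calc _ ≤ (1 / 2) ^ n * 1 := by gcongr; exact b z hz θ
      _ ≤ ε := by linarith

/-- inverse of a perturbation `ρ + F` of a function of `z` -/
theorem Le.inv_add {ρ : ℝ → ℂ} (h : Le s F (fun z => ‖ρ z‖) M) (hM : M ≤ 1 / 2)
    (h0 : ∀ z ∈ s, ρ z ≠ 0) :
    Le s (fun p => (ρ p.1 + F p)⁻¹ - (ρ p.1)⁻¹) (fun z => ‖ρ z‖⁻¹) (2 * M) ∧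
      Le s (fun p => (ρ p.1 + F p)⁻¹) (fun z => ‖ρ z‖⁻¹) 5 := by
  have h1 := h.mulz (φ := fun z => -(ρ z)⁻¹) (ω' := fun _ => 1) zero_le_one (by simp)
    fun z hz => by simp [h0 z hz]
  rw [one_mul] at h1
  have h2 := (h1.inv hM).mulz (φ := fun z => (ρ z)⁻¹) (ω' := fun z => ‖ρ z‖⁻¹) zero_le_one
    (by simp) (by simp)
  have h3 : Le s (fun p => (ρ p.1 + F p)⁻¹ - (ρ p.1)⁻¹) (fun z => ‖ρ z‖⁻¹) (2 * M) := by
    refine (one_mul (2 * M) ▸ h2).congr fun z hz θ => ?_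
    have := h0 z hz
    simp only
    rw [mul_sub, mul_one, ← mul_inv]; congr 2; field_simp; ring
  refine ⟨h3, ((h3.add (le_z (φ := fun z => (ρ z)⁻¹) zero_le_one (by simp) (by simp))).congr
    fun z _ θ => by simp).mono subset_rfl (fun _ _ => le_rfl) (by linarith)⟩

/-- mode `0` -/
def p0 (F : ℝ × ℝ → ℂ) (p : ℝ × ℝ) : ℂ := co F 0 p.1
/-- the modes `k ≠ 0` -/
def pn (F : ℝ × ℝ → ℂ) (p : ℝ × ℝ) : ℂ := F p - co F 0 p.1

theorem co_p0 (F : ℝ × ℝ → ℂ) (k : ℤ) (z : ℝ) : co (p0 F) k z = if k = 0 then co F 0 z else 0 :=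
  co_z _ _ _

theorem co_pn (h : Adm s F) (k : ℤ) {z : ℝ} (hz : z ∈ s) :
    co (pn F) k z = if k = 0 then 0 else co F k z := by
  have := co_sub h (adm_z s (co F 0)) k hz
  rw [co_z] at this
  refine this.trans ?_
  split_ifs with e <;> simp [e]

theorem Le.p0 (h : Le s F ω M) : Le s (p0 F) ω M := by
  obtain ⟨a, ha, e⟩ := h.ex
  refine ⟨adm_z s _, h.w0, a, ha, fun k z hz => ?_⟩
  rw [co_p0]; split_ifs with e0
  · exact e0 ▸ e 0 z hz
  · simpa using mul_nonneg (ha.a0 k) (h.w0 z hz)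

theorem Le.pn (h : Le s F ω M) : Le s (pn F) ω M := by
  obtain ⟨a, ha, e⟩ := h.ex
  refine ⟨h.adm.sub (adm_z s _), h.w0, a, ha, fun k z hz => ?_⟩
  rw [co_pn h.adm k hz]; split_ifs with e0
  · simpa using mul_nonneg (ha.a0 k) (h.w0 z hz)
  · exact e k z hz

/-- `pn` does not see functions of `z` -/
theorem pn_sub_z (h : Adm s F) (φ : ℝ → ℂ) {z : ℝ} (hz : z ∈ s) (θ : ℝ) :
    pn F (z, θ) = pn (fun p => F p - φ p.1) (z, θ) := by
  simp only [pn, co_sub h (adm_z s φ) 0 hz, co_z, if_true]; ring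

theorem Le.pn_of_sub (hF : Adm s F) {φ : ℝ → ℂ} (h : Le s (fun p => F p - φ p.1) ω M) :
    Le s (P218W.pn F) ω M := h.pn.congr fun _ hz θ => pn_sub_z hF φ hz θ

/-- bounds in `C²_θ` give bounds in `W` -/
theorem le_of_c2 {F₁ F₂ : ℝ × ℝ → ℂ} {K : ℝ} (hK : 0 ≤ K) (w0 : ∀ z ∈ s, 0 ≤ ω z)
    (p : ∀ z ∈ s, ∀ θ, F (z, θ + 2 * π) = F (z, θ))
    (d1 : ∀ z ∈ s, ∀ θ, HasDerivAt (fun θ => F (z, θ)) (F₁ (z, θ)) θ)
    (d2 : ∀ z ∈ s, ∀ θ, HasDerivAt (fun θ => F₁ (z, θ)) (F₂ (z, θ)) θ)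
    (c2 : ∀ z ∈ s, Continuous fun θ => F₂ (z, θ))
    (b0 : ∀ z ∈ s, ∀ θ, ‖F (z, θ)‖ ≤ K * ω z) (b2 : ∀ z ∈ s, ∀ θ, ‖F₂ (z, θ)‖ ≤ K * ω z) :
    Le s F ω (16 * K) := by
  refine ⟨fun z hz => ⟨continuous_iff_continuousAt.2 fun θ => (d1 z hz θ).continuousAt, p z hz⟩,
    w0, fun k => 2 * K * (1 + (k : ℝ) ^ 2)⁻¹, ⟨by positivity, fun k => by positivity, fun t => ?_⟩,
    fun k z hz => ?_⟩
  · have : ∑ k ∈ t, (1 + (k : ℝ) ^ 2) * (2 * K * (1 + (k : ℝ) ^ 2)⁻¹) ^ 2 =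
        4 * K ^ 2 * ∑ k ∈ t, (1 + (k : ℝ) ^ 2)⁻¹ := by
      rw [Finset.mul_sum]; exact Finset.sum_congr rfl fun k _ => by field_simp; ring
    rw [this]; nlinarith [mul_le_mul_of_nonneg_left (sum_inv_le t) (sq_nonneg K)]
  · have p1 : F₁ (z, 2 * π) = F₁ (z, 0) := by
      have := (d1 z hz (0 + 2 * π)).comp_add_const 0 (2 * π)
      simp only [p z hz, zero_add] at this
      exact this.unique (d1 z hz 0)
    have e1 := c1_deriv (d1 z hz) (continuous_iff_continuousAt.2 fun θ =>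
      (d2 z hz θ).continuousAt) (by simpa using p z hz 0) k
    have e2 := c1_deriv (d2 z hz) (c2 z hz) p1 k
    have h0 := c1_le (fun θ _ => b0 z hz θ) k
    have h2 := c1_le (fun θ _ => b2 z hz θ) k
    rw [e2, e1] at h2
    simp only [norm_mul, Complex.norm_I, mul_one, Complex.norm_intCast, ← mul_assoc,
      abs_mul_abs_self] at h2
    rw [mul_right_comm, ← div_eq_mul_inv, le_div_iff₀ (by positivity), co]
    nlinarith

end Vale.Agent.P218W
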