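import Vale.Agent.P218W.NLc
import Vale.Agent.P218N.Amb

/-! The nonlinear part of the boundary conditions on a cylindrical end. -/

open Set Complex Filter Topology
open scoped Real

noncomputable section

namespace Vale.Agent.P218W

open Vale.Agent.P218M Vale.Agent.P218N Vale.Agent.P218T

section
variable {D : Type} {l : Filter D} {I : D → Set ℝ} {F : D → ℝ × ℝ → ℂ} {o ν ω : D → ℝ → ℝ}
  {e : D → ℝ}

theorem B2.mul_z (h : B2 l I F o ν) {φ : D → ℝ → ℂ} (k : Wl l I (fun d z => ‖φ d z‖) ω) :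
    B2 l I (fun d p => F d p * φ d p.1) (fun d z => o d z * ω d z) fun d z => ν d z * ω d z :=
  ⟨h.1.mul (bd_z k), (h.2.mul (bd_z k)).congr (.of_forall fun d z _ θ => by
    simp only [pn, mul_comm _ (φ d _), co_mulz]; ring)⟩

theorem Bd.cpow (h : Bd l I F o) (e0 : ∀ d, 0 < e d) (he : Tendsto e l (𝓝 0))
    (oe : ∀ d, ∀ z ∈ I d, o d z ≤ e d) {a : ℂ} (ha : ‖a‖ ≤ 1) :
    Bd l I (fun d p => (1 + F d p) ^ a - 1) o := by
  obtain ⟨C, h⟩ := h
  refine ⟨2 * C, ?_⟩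
  filter_upwards [h, (tendsto_order.1 (he.mul_const C)).2 (1 / 2) (by simp)] with d h k
  have := e0 d
  exact (((h.wt (ω' := fun z => o d z / e d) this.le (fun z hz => div_nonneg (h.w0 z hz) this.le)
    fun z _ => by rw [mul_div_cancel₀ _ this.ne']).cpow (fun z hz => (div_le_one this).2
      (oe d z hz)) k.le ha).wt (inv_pos.2 this).le h.w0 fun z _ => by
        rw [div_eq_inv_mul]).mono subset_rfl (fun _ _ => le_rfl) (le_of_eq (by field_simp))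

theorem B2.isqrt (h : B2 l I F o ν) (e0 : ∀ d, 0 < e d) (he : Tendsto e l (𝓝 0))
    (oe : ∀ d, ∀ z ∈ I d, o d z ≤ e d) :
    B2 l I (fun d p => (1 + F d p) ^ (-2⁻¹ : ℂ) - 1) o ν := by
  have ha : ‖(-2⁻¹ : ℂ)‖ ≤ 1 := by simp; norm_num
  have y := h.1.cpow e0 he oe ha
  have y0 := h.1.p0.cpow e0 he oe ha
  have sm : ∀ {G} (a : ℂ), 1 ≤ ‖a‖ → Bd l I G o → ∀ᶠ d in l, Le (I d) (G d) (fun _ => ‖a‖) (1 / 2) :=
    fun a ha g => (g.wt (wl_of 1 zero_le_one fun d z hz => ⟨by have := e0 d; positivity,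
      by nlinarith [oe d z hz, e0 d]⟩)).small (ρ := fun _ _ => a) (fun d => (e0 d).le) he
  have s := sm 2 (by simp) (y.add y0)
  have t : ∀ {G}, Bd l I G o → Bd l I (fun d p => (1 + G d p)⁻¹) fun _ _ => ‖(1 : ℂ)‖⁻¹ := fun g =>
    Bd.inv (ρ := fun _ _ => 1) (sm 1 (by simp) g) (by simp)
  refine ⟨y, (((((h.2.mul (t h.1)).mul (t h.1.p0)).mul (Bd.inv (ρ := fun _ _ => 2) s
    (by simp))).cmul (-1)).wt ⟨1, zero_le_one, h.2.w0.mono fun d k z hz => ⟨k z hz, by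
      simp; linarith [k z hz]⟩⟩).pn.congr ?_⟩
  filter_upwards [y.adm, s, sm 1 (by simp) h.1, sm 1 (by simp) h.1.p0] with d a s s₁ s₀ z hz θ
  rw [pn_sub_z a (fun z => (1 + co (F d) 0 z) ^ (-2⁻¹ : ℂ) - 1) hz]
  have sq : ∀ x : ℂ, (x ^ (-2⁻¹ : ℂ)) ^ 2 = x⁻¹ := fun x => by
    rw [← cpow_nat_mul]; norm_num [cpow_neg_one]
  have key : ∀ θ, (1 + F d (z, θ)) ^ (-2⁻¹ : ℂ) - 1 - ((1 + co (F d) 0 z) ^ (-2⁻¹ : ℂ) - 1) =
      -1 * (pn (F d) (z, θ) * (1 + F d (z, θ))⁻¹ * (1 + p0 (F d) (z, θ))⁻¹ *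
        (2 + ((1 + F d (z, θ)) ^ (-2⁻¹ : ℂ) - 1 + ((1 + p0 (F d) (z, θ)) ^ (-2⁻¹ : ℂ) - 1)))⁻¹) :=
    fun θ => by
      have a := Le.ne (ρ := fun _ => 2) s hz (by simp) θ
      have b := Le.ne (ρ := fun _ => 1) s₁ hz (by simp) θ
      have c := Le.ne (ρ := fun _ => 1) s₀ hz (by simp) θ
      simp only [pn, p0] at a b c ⊢
      rw [← mul_assoc, eq_mul_inv_iff_mul_eq₀ a]
      linear_combination sq (1 + F d (z, θ)) - sq (1 + co (F d) 0 z) + (1 + F d (z, θ))⁻¹ *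
        -mul_inv_cancel₀ c + (1 + co (F d) 0 z)⁻¹ * mul_inv_cancel₀ b
  simp only [pn, key, co] at key ⊢

end

namespace Pt

variable {z x n r l w G η k : ℝ} (h : Pt z x n r l w G η k)
include h

theorem e0 : η * hH r l / z * (η * hH r l / z) * n⁻¹ ≤ 9 * η := by
  nlinarith [h.b1, mul_le_mul_of_nonneg_left h.HH (sq_nonneg η), h.η0, h.η1]

theorem e1 : η * hH r l / z * (η * hH r l / z * (η * hH r l / z) * n⁻¹) ≤
    27 * (η ^ 2 * (z * (x * r ^ 18))) := by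
  have r0 := h.r0; have H0 := h.H0; have z0 := h.z0; have η0 := h.η0; have x0 := h.x0
  have e : x = (r ^ 24 * z ^ 2)⁻¹ := eq_inv_of_mul_eq_one_right (by linarith [h.rt])
  calc _ ≤ 1 * hH r l / z * (η ^ 2 * (hH r l ^ 2 * r ^ 24)) := by
        have := h.n0
        gcongr ?_ * _ / _ * ?_; exacts [h.η1, h.b1]
    _ = (hH r l * r ^ 10) ^ 3 * (η ^ 2 * (z * (x * r ^ 18))) := by rw [e]; field_simp
    _ ≤ 3 ^ 3 * _ := by gcongr; exact h.H3
    _ = _ := by norm_num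

theorem e2 : η * (G * (n / x) / z) * (η * hH r l / z * (η * hH r l / z) * n⁻¹) +
    (η * hH r l / z + n / z) * ((η * (G * (n / x) / z) * (η * hH r l / z) +
      η * hH r l / z * (η * (G * (n / x) / z))) * n⁻¹) ≤ 126 * (η ^ 2 * (z * w)) := by
  have r0 := h.r0; have H0 := h.H0; have z0 := h.z0; have η0 := h.η0; have x0 := h.x0
  have n0 := h.n0; have w0 := h.w0; have G0 := h.G0
  have e : x = (r ^ 24 * z ^ 2)⁻¹ := eq_inv_of_mul_eq_one_right (by linarith [h.rt])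
  have a : G ≤ 2 * w * z ^ 2 := by
    have : G * x * r ^ 24 ≤ w * 2 := by
      nlinarith [mul_le_mul_of_nonneg_right h.Gw (pow_pos r0 24).le, h.l2]
    calc G = G * x * r ^ 24 * z ^ 2 := by rw [e]; field_simp
      _ ≤ w * 2 * z ^ 2 := by gcongr
      _ = _ := by ring
  have b : hH r l * r ^ 24 ≤ 3 := le_trans (by gcongr _ * ?_; exact h.rle (by norm_num)) h.H3
  calc _ = η ^ 2 * G / z * (3 * (η * (hH r l ^ 2 * r ^ 24)) + 2 * (n * (hH r l * r ^ 24))) := by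
        rw [e]; field_simp; ring
    _ ≤ η ^ 2 * (2 * w * z ^ 2) / z * (3 * (1 * 9) + 2 * (6 * 3)) := by
        gcongr; exacts [h.η1, h.HH, h.n6]
    _ = _ := by field_simp; norm_num

end Pt

/-- `V_z² / (4 ρ)` -/
def xf (c : ℂ) (u : ℝ × ℝ → ℂ) (p : ℝ × ℝ) : ℂ :=
  (2 * c * p.1 + u p) * (2 * c * p.1 + u p) * (4 * rh c p.1)⁻¹

namespace Dat

theorem bx : B2 fl I (fun d => xf d.c (d.u 3)) wX fun d z =>
    (d.η * (d.G z * (‖rh d.c z‖ / (rh d.c z).re) / z) * d.wP z +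
      d.wP z * (d.η * (d.G z * (‖rh d.c z‖ / (rh d.c z).re) / z))) * ‖rh d.c z‖⁻¹ :=
  (bp.mul bp).mul_z (φ := fun d z => (4 * rh d.c z)⁻¹) (wl _ 1 (by norm_num) (fun d z hz => by
    obtain ⟨_, _, _, _, _, _, _, _, _, _⟩ := d.pp hz; positivity) fun d z hz => by
    have := inv_pos.2 (d.pt hz).n0
    simp; linarith)

theorem tn : Tendsto (fun d : Dat => 9 * d.η) fl (𝓝 0) := by
  simpa using (tendsto_comap (f := η) (x := 𝓝 0)).const_mul 9

theorem sx : ∀ᶠ d in fl, Le d.I (xf d.c (d.u 3)) (fun _ => ‖(1 : ℂ)‖) (1 / 2) :=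
  Bd.small (ρ := fun _ _ => 1) (bx.1.wt (wl _ 1 (by norm_num) (fun d z hz => by
    obtain ⟨_, _, _, _, _, _, _, _, _, _⟩ := d.pp hz; positivity) fun d z hz => by simpa using (d.pt hz).e0))
    (fun d => by linarith [d.η0]) tn

theorem bc : Bd fl I (fun d p => (2 * d.c * p.1 + d.u 3 p) * ((1 + xf d.c (d.u 3) p) ^ (-2⁻¹ : ℂ) - 1))
      (fun d z => d.η ^ 2 * (z * ((rh d.c z).re * rr d.c z ^ 18))) ∧
    Bd fl I (fun d => pn fun p => (-(2 * rh d.c p.1 / p.1) + (2 * d.c * p.1 + d.u 3 p)) *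
      ((1 + xf d.c (d.u 3) p) ^ (-2⁻¹ : ℂ) - 1)) fun d z => d.η ^ 2 * (z * d.w z) := by
  have y := bx.isqrt (fun d => by linarith [d.η0]) tn fun d z hz => (d.pt hz).e0
  have q := B2.add_z ⟨bp.1.wt (wl (fun d z => d.wP z + ‖rh d.c z‖ / z) 1 (by norm_num) (fun d z hz => by
    obtain ⟨_, _, _, _, _, _, _, _, _, _⟩ := d.pp hz; positivity) fun d z hz => by
    linarith [div_pos (d.pt hz).n0 (d.pt hz).z0]), bp.2⟩ (φ := fun d z => -(2 * rh d.c z / z))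
    (wl _ 2 (by norm_num) (fun d z hz => by
    obtain ⟨_, _, _, _, _, _, _, _, _, _⟩ := d.pp hz; positivity) fun d z hz => by
      have := div_pos (mul_pos d.η0 (d.pt hz).H0) (d.pt hz).z0
      simp [abs_of_pos (d.pt hz).z0, mul_div_assoc] at this ⊢; linarith)
  exact ⟨(bp.1.mul y.1).wt (wl _ 27 (by norm_num) (fun d z hz => by
    obtain ⟨_, _, _, _, _, _, _, _, _, _⟩ := d.pp hz; positivity) fun d z hz => (d.pt hz).e1),
    (q.mul y).2.wt (wl _ 126 (by norm_num) (fun d z hz => by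
    obtain ⟨_, _, _, _, _, _, _, _, _, _⟩ := d.pp hz; positivity) fun d z hz => (d.pt hz).e2)⟩

end Dat

variable {Y R Z η M z : ℝ} {c : ℂ} {w : ℝ → ℝ}

theorem wO_eq (h : Cyl Y R Z c) (Y0 : 0 < Y) (hz : z ∈ Icc R Z) :
    wO c z = (rh c z).re * rr c z ^ 18 := by
  have z0 := h.z0 hz
  have x0 := h.re0 Y0 hz
  have l0 : 0 < z ^ 2 * ly Z z := mul_pos (pow_pos z0 2) (ly_pos Z z)
  have := gO_eq h Y0 hz
  rw [gO, ll] at this
  refine mul_right_cancel₀ (add_pos (inv_pos.2 x0) l0).ne' (this.trans ?_)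
  field_simp

/-- the total `V_z` -/
def PB (c : ℂ) (R Z : ℝ) (J : Fin 6 → WI R Z) : WI R Z := cI R Z (fun z => 2 * c * z) + J 3

/-- `(1 + V_z² / (4 ρ)) ^ (-1/2)` -/
def TB (c : ℂ) (R Z : ℝ) (J : Fin 6 → WI R Z) : WI R Z :=
  W.pw (-2⁻¹) (PB c R Z J * PB c R Z J * cI R Z fun z => (4 * rh c z)⁻¹)

/-- the nonlinear part of the boundary conditions, at all heights -/
def BB (c : ℂ) (R Z : ℝ) (J : Fin 6 → WI R Z) : WI R Z := W.P0 (PB c R Z J * (TB c R Z J - 1)) +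
  W.Pn ((cI R Z (fun z => -(2 * rh c z / z)) + PB c R Z J) * (TB c R Z J - 1))

theorem mn_eq {f : ℝ → ℂ} {F : ℝ × ℝ → ℂ} (e : ∀ θ, f θ = F (z, θ)) :
    mn f = co F 0 z := by
  simp [mn, interval_average_eq, co, c1, e, ex]

theorem low_z {r : ℝ → ℝ} {x : W r} {a : ℂ} (e : ∀ θ, x (z, θ) = a) : low z x = ![a, 0, 0] := by
  have : ∀ k, co x k z = if k = 0 then a else 0 := fun k =>
    (co_congr (G := fun _ => a) e k).trans (co_z (fun _ => a) k z)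
  ext i; fin_cases i <;> simp [low_0, low_1, low_2, this]

theorem low_P0 {r : ℝ → ℝ} (x : W r) : low z (W.P0 x) = ![low z x 0, 0, 0] :=
  low_z fun _ => by rw [W.P0_f]; rfl

theorem low_le {r : ℝ → ℝ} {x : W r} {s : Set ℝ} {g₀ g₁ : ℝ → ℝ} (h : L2 s x g₀ g₁ M) (hz : z ∈ s)
    (i : Fin 3) : ‖low z x i‖ ≤ M * ![g₀ z, g₁ z, g₁ z] i := by
  have a := h.1.co_le 0 hz
  have b := fun k => h.2.co_le k hz
  have b₁ := b 1
  have b₂ := b (-1)
  rw [co_p0, if_pos rfl] at a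
  rw [co_pn (x.adm s) _ hz, if_neg (by simp)] at b₁ b₂
  have := mul_nonneg h.1.M0 (h.1.w0 z hz)
  have := mul_nonneg h.1.M0 (h.2.w0 z hz)
  fin_cases i
  · change ‖co x 0 z‖ ≤ M * g₀ z; linarith
  · change ‖1 / 2 * (co x 1 z + co x (-1) z)‖ ≤ M * g₁ z
    rw [norm_mul]; simp; linarith [norm_add_le (co x 1 z) (co x (-1) z)]
  · change ‖I / 2 * (co x 1 z - co x (-1) z)‖ ≤ M * g₁ z
    rw [norm_mul]; simp; linarith [norm_sub_le (co x 1 z) (co x (-1) z)]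

/-- **The nonlinear estimate for the boundary conditions** -/
theorem bc_nl : ∃ r₀ C : ℝ, 0 < r₀ ∧ 0 < C ∧ ∀ Y R Z η c w, Sa r₀ Y R Z η c w →
    (∀ J ∈ P2 R Z, xw w c R Z J ≤ η → AnalyticAt ℂ (BB c R Z) J ∧
      L2 (Icc R Z) (BB c R Z J) (fun z => z * wO c z) (fun z => z * w z) (C * η ^ 2) ∧
      ∀ J₀ J₁ v ε k, Bc J₀ J₁ v ε k Z (rh c Z) (fun θ => 2 * c * Z + J 3 (Z, θ)) =
        low Z (J 3) + low Z (BB c R Z J) + ![2 * c * Z + 4 * ((1 - v) * HJ.gm J₀ Z (rh c Z) +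
          v * HJ.gm J₁ Z (rh c Z)) / (Z * (1 + ε * lk k (Z ^ 2 + rh c Z))), 0, 0]) ∧
    DB w c R Z (BB c R Z) (fun z => z * wO c z) (fun z => z * w z) η C := by
  obtain ⟨⟨C₁, h₁⟩, C₂, h₂⟩ := Dat.bc
  obtain ⟨t, ht, e⟩ := mem_comap.1 (Dat.sx.and (h₁.and h₂))
  obtain ⟨ε, ε0, ht⟩ := Metric.mem_nhds_iff.1 ht
  have C0 : 0 < |C₁| + |C₂| + 1 := by positivity
  refine ⟨min (ε / 2) 1, 16 * (|C₁| + |C₂| + 1), by positivity, by positivity,
    fun Y R Z η c w h => ?_⟩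
  have r := ret_cl h.le
  have ne := fun z => cyl_ne h.cyl h.Y0 (z := z)
  have cr := (cont_rh c).continuousOn (s := Icc R Z)
  have eP : ∀ J : Fin 6 → WI R Z, ∀ z ∈ Icc R Z, ∀ θ, PB c R Z J (z, θ) = 2 * c * z + J 3 (z, θ) :=
    fun J z hz θ => by rw [PB, W.add_apply, cst_Icc h.le (φ := fun z => 2 * c * z) (by fun_prop) hz]
  have eQ := fun z hz θ => cst_Icc h.le (φ := fun z => -(2 * rh c z / z)) (z := z)
    (((continuousOn_const.mul cr).div continuous_ofReal.continuousOn fun z hz => by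
      exact_mod_cast (h.cyl.z0 hz).ne').neg) hz θ
  have ex : ∀ J : Fin 6 → WI R Z, ∀ z ∈ Icc R Z, ∀ θ, (PB c R Z J * PB c R Z J *
      cI R Z fun z => (4 * rh c z)⁻¹) (z, θ) = xf c (J 3) (z, θ) := fun J z hz θ => by
    rw [W.mul_apply, W.mul_apply, eP J z hz, cst_Icc h.le (φ := fun z => (4 * rh c z)⁻¹)
      ((continuousOn_const.mul cr).inv₀ fun z hz => by simp [ne z hz]) hz, xf]
  have pz : PW (Icc R Z) fun z => z := pw_cyl continuousOn_id fun z hz => h.cyl.z0 hz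
  have p₀ := pz.mul isCompact_Icc (pw_all h.cyl h.Y1).2.1
  have p₁ := pz.mul isCompact_Icc h.pw
  have key : ∀ J ∈ P2 R Z, xw w c R Z J ≤ η → AnalyticAt ℂ (BB c R Z) J ∧
      (∀ z ∈ Icc R Z, ∀ θ, TB c R Z J (z, θ) = (1 + xf c (J 3) (z, θ)) ^ (-2⁻¹ : ℂ)) ∧
      L2 (Icc R Z) (BB c R Z J) (fun z => z * wO c z) (fun z => z * w z)
        ((|C₁| + |C₂| + 1) * η ^ 2) := fun J a b => by
    obtain ⟨k₀, k₁, k₂⟩ := e (a := ⟨Y, R, Z, η, c, w, fun i => J i, h.cyl, h.Y1, h.adw, h.η0,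
      h.ηr.trans (min_le_right _ _), h.ηY, (h.xw_le h.η0.le).1 b, (mem_P2 h.le).1 a⟩)
      (ht (by simp [abs_of_pos h.η0]; linarith [h.ηr.trans (min_le_left _ _)]))
    have n : ‖PB c R Z J * PB c R Z J * cI R Z fun z => (4 * rh c z)⁻¹‖ < 1 :=
      (r.norm_le (by simpa using k₀.congr (ex J))).trans_lt (by norm_num : (2⁻¹ : ℝ) < 1)
    have ha : ‖(-2⁻¹ : ℂ)‖ ≤ 1 := by simp; norm_num
    have eT : ∀ z ∈ Icc R Z, ∀ θ, TB c R Z J (z, θ) = (1 + xf c (J 3) (z, θ)) ^ (-2⁻¹ : ℂ) :=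
      fun z hz θ => by rw [TB, W.pw_apply ha n, ex J z hz]
    have aP : AnalyticAt ℂ (PB c R Z) J := analyticAt_const.add
      ((ContinuousLinearMap.proj (R := ℂ) (φ := fun _ => WI R Z) 3).analyticAt J)
    have aT : AnalyticAt ℂ (fun J => TB c R Z J - 1) J := ((W.analyticAt_pw ha n).comp
      (f := fun J => PB c R Z J * PB c R Z J * cI R Z fun z => (4 * rh c z)⁻¹)
        ((aP.mul aP).mul analyticAt_const)).sub analyticAt_const
    have s := sq_nonneg η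
    refine ⟨((W.P0.analyticAt _).comp (aP.mul aT)).add ((W.Pn.analyticAt _).comp
      ((analyticAt_const.add aP).mul aT)), eT, ?_, ?_⟩
    · refine ((k₁.p0.wt s (fun z hz => (p₀.pos hz).le) fun z hz => by
        rw [wO_eq h.cyl h.Y0 hz]).mono subset_rfl (fun _ _ => le_rfl)
          (by nlinarith [le_abs_self C₁, abs_nonneg C₂])).congr fun z hz θ => ?_
      change W.coL 0 z _ = _
      rw [BB, map_add, W.coL_apply, W.coL_apply, W.P0_f, W.Pn_f, co_p0, co_pn (W.adm _ _) 0 hz]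
      simpa [p0] using co_congr (fun θ => by simp [eP J z hz, eT z hz]) 0
    · refine ((k₂.wt s (fun z hz => (p₁.pos hz).le) fun z hz => le_rfl).mono subset_rfl
        (fun _ _ => le_rfl) (by nlinarith [le_abs_self C₂, abs_nonneg C₁])).congr fun z hz θ => ?_
      have : W.Pn (BB c R Z J) = W.Pn ((cI R Z (fun z => -(2 * rh c z / z)) + PB c R Z J) *
          (TB c R Z J - 1)) := W.ext fun p => by
        rw [BB, map_add]
        simp only [W.add_apply, W.Pn_f, W.P0_f, pn, p0, co_p0, if_true,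
          co_pn (W.adm _ univ) 0 (mem_univ _)]
        ring
      rw [← W.Pn_f, this, W.Pn_f]
      have : ∀ θ, ((cI R Z (fun z => -(2 * rh c z / z)) + PB c R Z J) * (TB c R Z J - 1)) (z, θ) =
          (-(2 * rh c z / z) + (2 * c * z + J 3 (z, θ))) * ((1 + xf c (J 3) (z, θ)) ^ (-2⁻¹ : ℂ) - 1) :=
        fun θ => by simp [eP J z hz, eT z hz, eQ z hz]
      simp only [pn, co, this]
  refine ⟨fun J a b => ⟨(key J a b).1, (key J a b).2.2.mono subset_rfl (fun _ _ => le_rfl)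
    (fun _ _ => le_rfl) (by nlinarith [sq_nonneg η]), fun J₀ J₁ v ε k => ?_⟩,
    h.db p₀ p₁ C0 (fun J a b => (key J a b).1) (fun J a b => (key J a b).2.2)
      fun J a b J' a' b' z hz k θ => by
        simp only [BB, W.add_apply, W.P0_f, W.Pn_f, p0, pn, co, W.mul_apply, W.sub_apply,
          eP _ z hz, (key J a b).2.1 z hz, (key J' a' b').2.1 z hz, xf, k]⟩
  have hZ : Z ∈ Icc R Z := right_mem_Icc.2 h.le
  have Z0 : (Z : ℂ) ≠ 0 := by exact_mod_cast (h.cyl.z0 hZ).ne'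
  have sq := HJ.sqrt_sq (rh c Z)
  have s0 : Complex.sqrt (rh c Z) ≠ 0 := fun e => ne Z hZ (by rw [← sq, e]; simp)
  have eT : ∀ θ, Qc (rh c Z) (2 * c * Z + J 3 (Z, θ)) = TB c R Z J (Z, θ) := fun θ => by
    rw [(key J a b).2.1 Z hZ, cpow_neg, Qc, one_div, div_pow, sq, xf, Complex.sqrt]
    congr 2; ring
  have eP' : ∀ θ, Pc (rh c Z) (2 * c * Z + J 3 (Z, θ)) =
      (Complex.sqrt (rh c Z))⁻¹ * (PB c R Z J * TB c R Z J) (Z, θ) := fun θ => by
    rw [W.mul_apply, ← eT, eP J Z hZ, Pc, Qc]; ring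
  have eQ' : ∀ θ (t : ℂ), t * (Z / 2 * Pc (rh c Z) (2 * c * Z + J 3 (Z, θ)) - Complex.sqrt (rh c Z) *
      Qc (rh c Z) (2 * c * Z + J 3 (Z, θ))) = (2 * Complex.sqrt (rh c Z) / Z)⁻¹ *
        (t * ((cI R Z (fun z => -(2 * rh c z / z)) + PB c R Z J) * TB c R Z J) (Z, θ)) :=
    fun θ t => by
      rw [eP', eT]; simp only [W.mul_apply, W.add_apply, eQ Z hZ]
      generalize Complex.sqrt (rh c Z) = s at sq s0
      rw [← sq]; field_simp; ring
  have l₁ := low_z (x := cI R Z fun z => 2 * c * z) (cst_Icc h.le (by fun_prop) hZ)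
  have l₂ := low_z (eQ Z hZ)
  have m : ∀ (a : ℂ) (F : ℝ × ℝ → ℂ), a ≠ 0 → a * mn (fun θ => a⁻¹ * F (Z, θ)) = co F 0 Z :=
    fun a F ha => by
      rw [mn_eq (F := fun p => a⁻¹ * F p) (z := Z) fun _ => rfl, co_mulz fun _ => a⁻¹,
        mul_inv_cancel_left₀ ha]
  have a0 : 2 * Complex.sqrt (rh c Z) / Z ≠ 0 := by simp [s0, Z0]
  have e₁ : ∀ x : WI R Z, x * TB c R Z J = x * (TB c R Z J - 1) + x := fun x => by ring
  simp only [Bc, eQ']
  simp only [eP']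
  rw [m _ _ s0, m _ (fun p => Real.cos p.2 * _) a0, m _ (fun p => Real.sin p.2 * _) a0, ← low_0,
    ← low_cos, ← low_sin, BB, W.Pn, e₁, e₁ (_ + _)]
  simp only [map_add, sub_apply, map_sub, low_P0, ContinuousLinearMap.id_apply,
    l₂]
  rw [show low Z (PB c R Z J) = ![2 * c * Z, 0, 0] + low Z (J 3) by rw [PB, map_add, l₁]]
  generalize low Z (J 3) = x, low Z (PB c R Z J * _) = y, low Z ((_ + _) * _) = y'
  ext i; fin_cases i <;> simp [Matrix.vecHead, Matrix.vecTail] <;> ring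

end Vale.Agent.P218W
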