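import Vale.Agent.P218W.NLp
import Vale.Agent.P218W.Big
import Vale.Agent.P218N.Form

/-! The nonlinear estimate on a cylindrical end, for functions. -/

open Set Complex Filter Topology

noncomputable section

namespace Vale.Agent.P218W

open Vale.Agent.P218M Vale.Agent.P218N

/-- the weak weights of mode `0` -/
def omW (w : ℝ → ℝ) (c : ℂ) (Z : ℝ) : Fin 6 → ℝ → ℝ :=
  om (fun z => (rh c z).re) (fun z => gO c Z z + (rh c z).re) w c Z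

/-- the nonlinear part of the operator at `V = ρ + u` -/
def RRf (c : ℂ) (u : Fin 6 → ℝ × ℝ → ℂ) (p : ℝ × ℝ) : ℂ :=
  vv 1 p.1 (rh c p.1 + u 0 p) (2 * c * p.1 + u 3 p) (u 1 p) (2 * c + u 5 p) (u 4 p) (u 2 p) -
    (u 5 p - p.1 / 2 * u 3 p + u 0 p + (rh c p.1)⁻¹ * u 2 p)

/-- `vD / V² - 4` -/
def EEf (c : ℂ) (u : Fin 6 → ℝ × ℝ → ℂ) (p : ℝ × ℝ) : ℂ :=
  (2 * c * p.1 + u 3 p) * (2 * c * p.1 + u 3 p) * (rh c p.1 + u 0 p)⁻¹ +
    u 1 p * u 1 p * (rh c p.1 + u 0 p)⁻¹ * (rh c p.1 + u 0 p)⁻¹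

theorem Le.abs {s : Set ℝ} {F : ℝ × ℝ → ℂ} {ω : ℝ → ℝ} {η : ℝ} (h : Le s F ω η) (η0 : 0 < η) :
    Le s F (fun z => η * ω z) 1 :=
  inv_mul_cancel₀ η0.ne' ▸ h.wt (inv_pos.2 η0).le (fun z hz => mul_nonneg η0.le (h.w0 z hz))
    fun z _ => by rw [inv_mul_cancel_left₀ η0.ne']

/-- the data of the estimate -/
structure Dat where
  Y : ℝ
  R : ℝ
  Z : ℝ
  η : ℝ
  c : ℂ
  w : ℝ → ℝ
  u : Fin 6 → ℝ × ℝ → ℂ
  cyl : Cyl Y R Z c
  Y1 : 1 ≤ Y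
  adw : Adw c R Z w
  η0 : 0 < η
  η1 : η ≤ 1
  ηY : 1 ≤ η ^ 8 * Y
  xn : XN (Icc R Z) (omW w c Z) (nu w c Z) u η
  p2 : ∀ z ∈ Icc R Z, co (u 2) 0 z = 0

namespace Dat

/-- the interval -/
abbrev I (d : Dat) : Set ℝ := Icc d.R d.Z
/-- small data -/
abbrev fl : Filter Dat := comap η (𝓝 0)

theorem pt (d : Dat) {z : ℝ} (hz : z ∈ d.I) : Pt z (rh d.c z).re ‖rh d.c z‖ (rr d.c z)
    (ll d.c d.Z z) (d.w z) (gW d.w d.c d.Z z) d.η ‖d.c‖ :=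
  pt_cyl d.cyl d.Y1 d.adw d.η0.le d.η1 d.ηY hz

theorem ne (d : Dat) (z : ℝ) (hz : z ∈ d.I) : rh d.c z ≠ 0 := norm_pos_iff.1 (d.pt hz).n0

theorem gO_eq (d : Dat) {z : ℝ} (hz : z ∈ d.I) : gO d.c d.Z z = ll d.c d.Z z * rr d.c z ^ 18 :=
  P218W.gO_eq d.cyl (one_pos.trans_le d.Y1) hz

theorem bn (i : Fin 6) : Bd fl I (fun d => pn (d.u i)) fun d z => d.η * nu d.w d.c d.Z i z :=
  ⟨1, .of_forall fun d => (d.xn i).2.abs d.η0⟩

theorem bt (i : Fin 6) : Bd fl I (fun d => d.u i)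
    fun d z => d.η * omW d.w d.c d.Z i z + d.η * nu d.w d.c d.Z i z :=
  (Bd.add' ⟨1, .of_forall fun d => (d.xn i).1.abs d.η0⟩ (bn i)).congr
    (.of_forall fun _ _ _ _ => (p0_add_pn _ _).symm)

theorem bt' (i : Fin 6) (e : ∀ w c Z, omW w c Z i = nu w c Z i) :
    Bd fl I (fun d => d.u i) fun d z => d.η * nu d.w d.c d.Z i z :=
  (bt i).wt ⟨2, zero_le_two, (bn i).w0.mono fun d h z hz => ⟨h z hz, by simp only [e]; linarith⟩⟩

/-- abbreviations for the weights -/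
abbrev G (d : Dat) (z : ℝ) := gW d.w d.c d.Z z
/-- abbreviations for the weights -/
abbrev wS (d : Dat) (z : ℝ) := hS (rr d.c z) (ll d.c d.Z z)
/-- abbreviations for the weights -/
abbrev wP (d : Dat) (z : ℝ) := d.η * hH (rr d.c z) (ll d.c d.Z z) / z
/-- abbreviations for the weights -/
abbrev wM (d : Dat) (z : ℝ) := d.η ^ 2 * d.G z * rr d.c z ^ 4
/-- abbreviations for the weights -/
abbrev wV (d : Dat) (z : ℝ) := d.wM z / d.wS z
/-- abbreviations for the weights -/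
abbrev wG (d : Dat) (z : ℝ) := d.η ^ 2 * d.G z
/-- abbreviations for the weights -/
abbrev wO (d : Dat) (z : ℝ) := d.η ^ 2 * (ll d.c d.Z z * rr d.c z ^ 18)

theorem wl {ω : Dat → ℝ → ℝ} (ω' : Dat → ℝ → ℝ) (C : ℝ) (hC : 0 ≤ C)
    (p : ∀ d, ∀ z ∈ d.I, 0 ≤ ω' d z) (h : ∀ d, ∀ z ∈ d.I, ω d z ≤ C * ω' d z) : Wl fl I ω ω' :=
  wl_of C hC fun d z hz => ⟨p d z hz, h d z hz⟩

theorem pp (d : Dat) {z : ℝ} (hz : z ∈ d.I) : 0 < z ∧ 0 < (rh d.c z).re ∧ 0 < ‖rh d.c z‖ ∧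
    0 < rr d.c z ∧ 0 < d.w z ∧ 0 < gW d.w d.c d.Z z ∧ 0 < d.η ∧ 0 < hS (rr d.c z) (ll d.c d.Z z) ∧
    0 < hH (rr d.c z) (ll d.c d.Z z) ∧ 0 < ll d.c d.Z z :=
  have h := d.pt hz
  ⟨h.z0, h.x0, h.n0, h.r0, h.w0, h.G0, d.η0, h.S0, h.H0, one_pos.trans_le h.l1⟩

theorem pS (d : Dat) (z : ℝ) (hz : z ∈ d.I) : 0 ≤ d.wS z := (d.pt hz).S0.le
theorem pP (d : Dat) (z : ℝ) (hz : z ∈ d.I) : 0 ≤ d.wP z := by
  obtain ⟨_, _, _, _, _, _, _, _, _, _⟩ := d.pp hz; positivity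
theorem pM (d : Dat) (z : ℝ) (hz : z ∈ d.I) : 0 ≤ d.wM z := by
  obtain ⟨_, _, _, _, _, _, _, _, _, _⟩ := d.pp hz; positivity
theorem pV (d : Dat) (z : ℝ) (hz : z ∈ d.I) : 0 ≤ d.wV z := by
  obtain ⟨_, _, _, _, _, _, _, _, _, _⟩ := d.pp hz; positivity
theorem pG (d : Dat) (z : ℝ) (hz : z ∈ d.I) : 0 ≤ d.wG z := by
  obtain ⟨_, _, _, _, _, _, _, _, _, _⟩ := d.pp hz; positivity
theorem pO (d : Dat) (z : ℝ) (hz : z ∈ d.I) : 0 ≤ d.wO z := by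
  obtain ⟨_, _, _, _, _, _, _, _, _, _⟩ := d.pp hz; positivity

variable (d : Dat) (z : ℝ)

theorem om0 : omW d.w d.c d.Z 0 z = (rh d.c z).re := by simp only [omW, om, Matrix.cons_val_zero]
theorem om3 : omW d.w d.c d.Z 3 z = (gO d.c d.Z z + (rh d.c z).re) / z := by
  simp only [omW, om, Matrix.cons_val]
theorem om5 : omW d.w d.c d.Z 5 z = gO d.c d.Z z + (rh d.c z).re := by
  simp only [omW, om, Matrix.cons_val]
theorem nu0 : nu d.w d.c d.Z 0 z = d.w z := by simp only [nu, Matrix.cons_val_zero]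
theorem nu3 : nu d.w d.c d.Z 3 z = d.G z * (‖rh d.c z‖ / (rh d.c z).re) / z := by
  simp only [nu, ta, Matrix.cons_val]
theorem nu4 : nu d.w d.c d.Z 4 z = d.G z * (‖rh d.c z‖ / (rh d.c z).re) * √‖rh d.c z‖ := by
  simp only [nu, ta, Matrix.cons_val]
theorem nu5 : nu d.w d.c d.Z 5 z = d.G z * (‖rh d.c z‖ / (rh d.c z).re) := by
  simp only [nu, ta, Matrix.cons_val]

theorem nu1 : nu d.w d.c d.Z 1 z =
    √(d.w z * (d.G z * (‖rh d.c z‖ ^ 2 / (rh d.c z).re))) := by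
  change √(_ / sg _ _) = _
  rw [sg_eq, div_div_eq_mul_div, mul_div_assoc, mul_assoc]

theorem nu2 : nu d.w d.c d.Z 2 z = d.G z * (‖rh d.c z‖ ^ 2 / (rh d.c z).re) := by
  change _ / sg _ _ = _
  rw [sg_eq, div_div_eq_mul_div, mul_div_assoc]

theorem u0 : Bd fl I (fun d => d.u 0) fun d z => d.η * (rh d.c z).re :=
  (bt 0).wt (wl _ 1297 (by norm_num) (fun d z hz => by
    obtain ⟨_, _, _, _, _, _, _, _, _, _⟩ := d.pp hz; positivity) fun d z hz => by rw [om0, nu0]; exact (d.pt hz).a0)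

theorem s0 : ∀ᶠ d in fl, Le d.I (d.u 0) (fun z => ‖rh d.c z‖) (1 / 2) :=
  Bd.small (ρ := fun d : Dat => rh d.c) (e := η) (u0.wt (wl _ 1 (by norm_num) (fun d z hz => by
    obtain ⟨_, _, _, _, _, _, _, _, _, _⟩ := d.pp hz; positivity) fun d _ hz =>
    (mul_le_mul_of_nonneg_left (d.pt hz).xn d.η0.le).trans_eq (one_mul _).symm))
      (fun d => d.η0.le) tendsto_comap

theorem bi : B2 fl I (fun d p => (rh d.c p.1 + d.u 0 p)⁻¹) (fun d z => ‖rh d.c z‖⁻¹)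
    fun d z => d.η * d.w z * ‖rh d.c z‖⁻¹ * ‖rh d.c z‖⁻¹ := by
  simpa only [nu0] using B2.inv s0 (bn 0) ne

theorem bp : B2 fl I (fun d p => 2 * d.c * p.1 + d.u 3 p) wP
    fun d z => d.η * (d.G z * (‖rh d.c z‖ / (rh d.c z).re) / z) := by
  simpa only [nu3] using B2.add_z ⟨(bt 3).wt (wl wP 1303 (by norm_num) pP fun d z hz => by
      rw [om3, nu3, d.gO_eq hz]; exact (d.pt hz).a3), bn 3⟩ (φ := fun d z => 2 * d.c * z)
    (wl wP 16 (by norm_num) pP fun d z hz => by simpa [abs_of_pos (d.pt hz).z0] using (d.pt hz).a1)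

theorem ba : B2 fl I (fun d p => 2 * d.c + 2 + d.u 5 p) wS
    fun d z => d.η * (d.G z * (‖rh d.c z‖ / (rh d.c z).re)) := by
  simpa only [nu5] using B2.add_z ⟨(bt 5).wt (wl wS 1303 (by norm_num) pS fun d z hz => by
      rw [om5, nu5, d.gO_eq hz]; exact (d.pt hz).a4), bn 5⟩
    (φ := fun d _ => 2 * d.c + 2) (wl wS 98 (by norm_num) pS fun d z hz => (norm_add_le _ _).trans (by
      simp; linarith [(d.pt hz).k48, (d.pt hz).S1]))

/-- the weight of `V_z² / V` -/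
abbrev wX (d : Dat) (z : ℝ) := d.wP z * d.wP z * ‖rh d.c z‖⁻¹

theorem bX : B2 fl I (fun d p => (2 * d.c * p.1 + d.u 3 p) * (2 * d.c * p.1 + d.u 3 p) *
    (rh d.c p.1 + d.u 0 p)⁻¹) wX wV :=
  have X := (bp.mul bp).mul bi
  ⟨X.1, X.2.wt (wl wV 50 (by norm_num) pV fun d _ hz => (d.pt hz).b2)⟩

theorem bQ : Bd fl I (fun d p => d.u 1 p * d.u 1 p * (rh d.c p.1 + d.u 0 p)⁻¹ *
    (rh d.c p.1 + d.u 0 p)⁻¹) wV :=
  have q := bt' 1 fun _ _ _ => rfl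
  (((q.mul q).mul bi.1).mul bi.1).wt (wl wV 3888 (by norm_num) pV fun d z hz =>
    le_trans (le_of_eq (by
      have := (d.pt hz).n0; have := (d.pt hz).x0; have := (d.pt hz).w0; have := (d.pt hz).G0
      rw [mul_mul_mul_comm, nu1, Real.mul_self_sqrt (by positivity)]; field_simp)) (d.pt hz).b3)

theorem sE : ∀ᶠ d in fl, Le d.I (EEf d.c d.u) (fun _ => ‖(4 : ℂ)‖) (1 / 2) :=
  ((bX.1.add' bQ).wt (wl (fun d _ => d.η * ‖(4 : ℂ)‖) 1305 (by norm_num) (fun d z hz => by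
    obtain ⟨_, _, _, _, _, _, _, _, _, _⟩ := d.pp hz; positivity) fun d z hz =>
    (d.pt hz).b4.trans (by simp; linarith [d.η0]))).small (ρ := fun _ _ => 4)
      (fun d => d.η0.le) tendsto_comap

theorem bj : B2 fl I (fun d p => (4 + EEf d.c d.u p)⁻¹) (fun _ _ => 1) wV :=
  have pE : Bd fl I (fun d => pn (EEf d.c d.u)) wV := (bX.2.add bQ.pn).congr
    ((bX.1.adm.and bQ.adm).mono fun d e z hz θ => by
      simp only [pn, EEf, show co (EEf d.c d.u) 0 z = _ from co_add e.1 e.2 0 hz]; ring)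
  (B2.inv (ρ := fun _ _ => 4) sE pE (by simp)).wt (wl (fun _ _ => 1) 1 (by norm_num) (fun d z hz => by
    obtain ⟨_, _, _, _, _, _, _, _, _, _⟩ := d.pp hz; positivity) (by norm_num))
    (wl wV 1 (by norm_num) pV fun d z hz => by
      have := div_pos (mul_pos (mul_pos (pow_pos d.η0 2) (d.pt hz).G0) (pow_pos (d.pt hz).r0 4))
        (d.pt hz).S0
      simp; linarith)

theorem key (h : Le d.I (d.u 0) (fun z => ‖rh d.c z‖) (1 / 2))
    (k : Le d.I (EEf d.c d.u) (fun _ => ‖(4 : ℂ)‖) (1 / 2)) (z : ℝ) (hz : z ∈ d.I) (θ : ℝ) :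
    RRf d.c d.u (z, θ) = d.u 2 (z, θ) * ((rh d.c z + d.u 0 (z, θ))⁻¹ - (rh d.c z)⁻¹) -
      ((2 * d.c * z + d.u 3 (z, θ)) * (2 * d.c * z + d.u 3 (z, θ)) * (rh d.c z + d.u 0 (z, θ))⁻¹ *
        (2 * d.c + 2 + d.u 5 (z, θ)) * (4 + EEf d.c d.u (z, θ))⁻¹ +
      (d.u 1 (z, θ) * d.u 1 (z, θ) * (rh d.c z + d.u 0 (z, θ))⁻¹ * (rh d.c z + d.u 0 (z, θ))⁻¹ *
        (d.u 2 (z, θ) * (rh d.c z + d.u 0 (z, θ))⁻¹ + 4) * (4 + EEf d.c d.u (z, θ))⁻¹ +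
      2 * ((2 * d.c * z + d.u 3 (z, θ)) * d.u 1 (z, θ) * d.u 4 (z, θ) *
        (rh d.c z + d.u 0 (z, θ))⁻¹ * (rh d.c z + d.u 0 (z, θ))⁻¹ *
          (4 + EEf d.c d.u (z, θ))⁻¹))) := by
  have h1 := h.ne hz (d.ne z hz) θ
  have h2 := Le.ne (ρ := fun _ => 4) k hz (by simp) θ
  have h3 : vD (rh d.c z + d.u 0 (z, θ)) (2 * d.c * z + d.u 3 (z, θ)) (d.u 1 (z, θ)) =
      (rh d.c z + d.u 0 (z, θ)) ^ 2 * (4 + EEf d.c d.u (z, θ)) := by
    simp only [vD, EEf]; field_simp; ring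
  have h4 : rh d.c z = 2 + d.c * (z ^ 2 - 2) := rfl
  simp only [RRf, vv, h3]
  generalize 4 + EEf d.c d.u (z, θ) = E at h2
  generalize hV : rh d.c z + d.u 0 (z, θ) = V at h1
  have : V⁻¹ * V = 1 := inv_mul_cancel₀ h1
  simp only [div_eq_mul_inv, mul_inv, ← inv_pow]
  generalize V⁻¹ = i at this
  linear_combination h4 - hV - (2 * d.c * z + d.u 3 (z, θ)) ^ 2 * (2 * d.c + d.u 5 (z, θ) + 2) *
    E⁻¹ * i * this

theorem main : Bd fl I (fun d => p0 (RRf d.c d.u)) wO ∧ Bd fl I (fun d => pn (RRf d.c d.u)) wG := by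
  have q := bt' 1 fun _ _ _ => rfl
  have c := bt' 2 fun _ _ _ => rfl
  have b := bt' 4 fun _ _ _ => rfl
  have T2 := ((bX.mul ba).mul bj).wt (wl wO 16 (by norm_num) pO fun d z hz => (d.pt hz).c1)
    (wl wG 19 (by norm_num) pG fun d z hz => (d.pt hz).c2)
  have ci := ((c.mul bi.1).wt (wl wS 1296 (by norm_num) pS fun d z hz => by
    simpa only [nu2] using (d.pt hz).c3)).add ((bd_const 4).wt
      (wl wS 1 (by norm_num) pS fun d z hz => by simpa using (d.pt hz).S1))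
  have T3 := ((bQ.mul ci).mul bj.1).wt (wl wM 1 (by norm_num) pM fun d z hz => by
    simp [div_mul_cancel₀ _ (d.pt hz).S0.ne'])
  have T4 := (((((bp.1.mul q).mul b).mul bi.1).mul bi.1).mul bj.1).wt
    (wl wM 7776 (by norm_num) pM fun d z hz => by rw [nu1, nu4]; exact (d.pt hz).c4)
  have T := T3.add (T4.cmul 2)
  have T1 := (c.mul ((u0.mul (bd_z (φ := fun d z => (rh d.c z)⁻¹)
    (wl (fun d z => ‖rh d.c z‖⁻¹) 1 (by norm_num) (fun d z hz => by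
    obtain ⟨_, _, _, _, _, _, _, _, _, _⟩ := d.pp hz; positivity) (by simp)))).mul bi.1)).wt (wl wG 1 (by norm_num) pG fun d z hz => le_of_eq (by
      have := (d.pt hz).n0; have := (d.pt hz).x0
      rw [nu2]; field_simp))
  have T0 := (c.mul bi.2).wt (wl wM 1296 (by norm_num) pM fun d z hz => by rw [nu2]; exact (d.pt hz).c5)
  have d1 := wl wG 1 (by norm_num) pG fun d z hz => (d.pt hz).d1
  have d2 := wl wO 1296 (by norm_num) pO fun d z hz => (d.pt hz).d2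
  have N := B2.add T2 ⟨T.wt d2, (T.wt d1).pn⟩
  have key := (s0.and sE).mono fun d e z hz θ => key d e.1 e.2 z hz θ
  have A : Bd fl I (fun d p => d.u 2 p * ((rh d.c p.1 + d.u 0 p)⁻¹ - (rh d.c p.1)⁻¹)) wG :=
    (T1.cmul (-1)).congr (s0.mono fun d h z hz θ => by
      have := h.ne hz (d.ne z hz) θ
      have := d.ne z hz
      simp only; field_simp; ring)
  have e := (key.and (A.adm.and N.1.adm)).mono fun d e z hz =>
    (co_congr (G := fun p => _ - _) (e.1 z hz) 0).trans (co_sub e.2.1 e.2.2 0 hz)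
  refine ⟨((T0.wt d2).p0.sub N.1.p0).congr ?_, (A.pn.sub N.2).congr ?_⟩
  · filter_upwards [e, c.adm, T0.adm, A.adm] with d e a₁ a₂ a₃ z hz θ
    have := co_add a₂ ((adm_z _ fun z => co (fun p => (rh d.c p.1 + d.u 0 p)⁻¹) 0 z -
      (rh d.c z)⁻¹).mul a₁) 0 hz
    rw [co_mulz (fun z => co (fun p => (rh d.c p.1 + d.u 0 p)⁻¹) 0 z - (rh d.c z)⁻¹), d.p2 z hz,
      mul_zero, add_zero] at this
    simp only [p0, e z hz, ← this]
    congr 2; ext; simp only [pn]; ring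
  · filter_upwards [e, key] with d e k z hz θ
    simp only [pn, e z hz, k z hz]; ring

end Dat

/-- The nonlinear estimate on a cylindrical end, for functions. -/
theorem end_fn : ∃ r₀ C : ℝ, 0 < r₀ ∧ 0 < C ∧ ∀ d : Dat, d.η ≤ r₀ →
    Le d.I (d.u 0) (fun z => ‖rh d.c z‖) (1 / 2) ∧
    Le d.I (EEf d.c d.u) (fun _ => ‖(4 : ℂ)‖) (1 / 2) ∧
    L2 d.I (RRf d.c d.u) (gO d.c d.Z) (gW d.w d.c d.Z) (C * d.η ^ 2) := by
  obtain ⟨⟨C₁, h₁⟩, C₂, h₂⟩ := Dat.main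
  obtain ⟨t, ht, e⟩ := mem_comap.1 ((Dat.s0.and Dat.sE).and (h₁.and h₂))
  obtain ⟨ε, ε0, h⟩ := Metric.mem_nhds_iff.1 ht
  refine ⟨ε / 2, |C₁| + |C₂| + 1, by positivity, by positivity, fun d hd => ?_⟩
  have k := e (h (show d.η ∈ _ by simp [abs_of_pos d.η0]; linarith))
  have := sq_nonneg d.η
  refine ⟨k.1.1, k.1.2, (k.2.1.wt this (fun z hz => ?_) fun z hz => by rw [d.gO_eq hz]).mono
    subset_rfl (fun _ _ => le_rfl) ?_, (k.2.2.wt this (fun z hz => (d.pt hz).G0.le)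
      fun z _ => le_rfl).mono subset_rfl (fun _ _ => le_rfl) ?_⟩
  · have := (d.pt hz).r0; have := one_pos.trans_le (d.pt hz).l1
    rw [d.gO_eq hz]; positivity
  all_goals nlinarith [le_abs_self C₁, le_abs_self C₂, abs_nonneg C₁, abs_nonneg C₂]

end Vale.Agent.P218W
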