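import Vale.Agent.P218W.Cyl

/-! Pointwise inequalities between the weights, for the nonlinear estimate on a cylindrical end. -/

open Set

noncomputable section

namespace Vale.Agent.P218W

open Vale.Agent.P218M

/-- the real quantities at a point: `r = (z² x)^(-1/24)`, `l = 1 + x L`, `G` the data weight -/
structure Pt (z x n r l w G η k : ℝ) : Prop where
  z0 : 0 < z
  x0 : 0 < x
  xn : x ≤ n
  n6 : n ≤ 6
  r0 : 0 < r
  r1 : r ≤ 1
  rt : r ^ 24 * (z ^ 2 * x) = 1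
  l1 : 1 ≤ l
  l2 : l * r ^ 24 ≤ 2
  w0 : 0 < w
  G0 : 0 < G
  wK : w * n ≤ 1296 * r ^ 14 * x ^ 2
  GK : G * (n / x) ≤ 1296 * (l * r ^ 14)
  Gw : G * x ≤ w * l
  wG : w * l * x ≤ 2 * G * n ^ 2
  η0 : 0 < η
  η1 : η ≤ 1
  ηr : r ^ 3 ≤ η
  k0 : 0 ≤ k
  kz : k * z ^ 2 ≤ 8

/-- the weight of `z V_z` -/
def hH (r l : ℝ) : ℝ := (r ^ 3)⁻¹ + l * r ^ 14
/-- the weight of `V_zz + 2` -/
def hS (r l : ℝ) : ℝ := 1 + l * r ^ 14

namespace Pt

variable {z x n r l w G η k : ℝ} (h : Pt z x n r l w G η k)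
include h

theorem n0 : 0 < n := h.x0.trans_le h.xn
theorem rp (a : ℕ) : r ^ a ≤ 1 := pow_le_one₀ h.r0.le h.r1
theorem rle {a b : ℕ} (e : a ≤ b) : r ^ b ≤ r ^ a := pow_le_pow_of_le_one h.r0.le h.r1 e
theorem S1 : 1 ≤ hS r l := le_add_of_nonneg_right (by have := h.r0; have := h.l1; positivity)
theorem S0 : 0 < hS r l := one_pos.trans_le h.S1
theorem SH : hS r l ≤ hH r l := by
  have := (one_le_inv₀ (pow_pos h.r0 3)).2 (h.rp 3)
  unfold hS hH; linarith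
theorem H0 : 0 < hH r l := h.S0.trans_le h.SH
omit h in
theorem lS : l * r ^ 14 ≤ hS r l := by unfold hS; linarith

theorem H3 : hH r l * r ^ 10 ≤ 3 := by
  have := h.r0
  have e : hH r l * r ^ 10 = r ^ 7 + l * r ^ 24 := by unfold hH; field_simp
  linarith [h.rp 7, h.l2]

theorem S3 : hS r l * r ^ 10 ≤ 3 :=
  (mul_le_mul_of_nonneg_right h.SH (pow_pos h.r0 _).le).trans h.H3

theorem HHS : hH r l ^ 2 * hS r l * r ^ 6 ≤ 16 * l := by
  have r0 := h.r0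
  have l1 := h.l1
  have e : hH r l * r ^ 3 = 1 + l * r ^ 17 := by unfold hH; field_simp
  have a : (1 + l * r ^ 17) ^ 2 ≤ 2 + 2 * (l * (l * r ^ 24) * r ^ 10) := by
    nlinarith [sq_nonneg (1 - l * r ^ 17)]
  have b : hS r l ≤ 2 * l := by unfold hS; nlinarith [h.rp 14]
  have c : l * (l * r ^ 24) * (hS r l * r ^ 10) ≤ l * 2 * 3 := by
    have := h.S0
    gcongr; exacts [h.l2, h.S3]
  calc _ = (hH r l * r ^ 3) ^ 2 * hS r l := by ring
    _ ≤ (2 + 2 * (l * (l * r ^ 24) * r ^ 10)) * hS r l := by rw [e]; gcongr; exact h.S0.le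
    _ ≤ _ := by nlinarith

theorem it : (z ^ 2 * x)⁻¹ = r ^ 24 := (eq_inv_of_mul_eq_one_left h.rt).symm

theorem HH : hH r l ^ 2 * r ^ 24 ≤ 9 := by
  have := mul_self_le_mul_self (mul_pos h.H0 (pow_pos h.r0 10)).le h.H3
  nlinarith [h.rle (show 20 ≤ 24 by norm_num), sq_nonneg (hH r l)]

theorem zn : (z ^ 2 * n)⁻¹ ≤ r ^ 24 := by
  rw [← h.it]
  exact inv_anti₀ (by have := h.z0; have := h.x0; positivity) (by gcongr; exact h.xn)

theorem wx : w ≤ 1296 * r ^ 14 * x := by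
  have := h.x0
  refine le_of_mul_le_mul_right ?_ h.x0
  nlinarith [h.wK, mul_le_mul_of_nonneg_left h.xn h.w0.le]

theorem GG : G ≤ 1296 * (l * r ^ 14) :=
  le_trans (le_mul_of_one_le_right h.G0.le ((one_le_div h.x0).2 h.xn)) h.GK

theorem k48 : k ≤ 48 := by
  have a : k * z ^ 2 * x * r ^ 24 ≤ 8 * 6 * 1 := by
    have := h.x0; have := h.r0
    gcongr; exacts [h.kz, h.xn.trans h.n6, h.rp 24]
  nlinarith [h.rt]

theorem a0 : η * x + η * w ≤ 1297 * (η * x) := by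
  nlinarith [mul_le_mul_of_nonneg_left h.wx h.η0.le, mul_pos h.η0 h.x0, h.rp 14]

theorem a1 : 2 * k * z ≤ 16 * (η * hH r l / z) := by
  have r0 := h.r0
  have l1 := h.l1
  have : 1 ≤ η * hH r l := by
    have := mul_le_mul_of_nonneg_right h.ηr (inv_pos.2 (pow_pos r0 3)).le
    rw [mul_inv_cancel₀ (pow_pos r0 3).ne'] at this
    have : 0 ≤ η * (l * r ^ 14) := by have := h.η0; positivity
    unfold hH; linarith
  rw [← mul_div_assoc, le_div_iff₀ h.z0]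
  nlinarith [h.kz]

theorem a2 : l * r ^ 18 + x + G * (n / x) ≤ 1303 * hS r l := by
  have := mul_le_mul_of_nonneg_left (h.rle (show 14 ≤ 18 by norm_num)) (one_pos.trans_le h.l1).le
  linarith [h.GK, lS (r := r) (l := l), h.S1, h.xn, h.n6]

theorem a3 : η * ((l * r ^ 18 + x) / z) + η * (G * (n / x) / z) ≤ 1303 * (η * hH r l / z) := by
  have := mul_le_mul_of_nonneg_left (h.a2.trans (mul_le_mul_of_nonneg_left h.SH (by norm_num)))
    (div_pos h.η0 h.z0).le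
  refine le_trans (le_of_eq ?_) (this.trans_eq ?_) <;> ring

theorem a4 : η * (l * r ^ 18 + x) + η * (G * (n / x)) ≤ 1303 * hS r l := by
  nlinarith [mul_le_mul_of_nonneg_left h.a2 h.η0.le, mul_le_mul_of_nonneg_right h.η1 h.S0.le]

theorem b1 : η * hH r l / z * (η * hH r l / z) * n⁻¹ ≤ η ^ 2 * (hH r l ^ 2 * r ^ 24) := by
  have := mul_le_mul_of_nonneg_left h.zn (sq_nonneg (η * hH r l))
  refine le_trans (le_of_eq ?_) (this.trans_eq ?_) <;> ring

theorem b2 : (η * (G * (n / x) / z) * (η * hH r l / z) + η * hH r l / z * (η * (G * (n / x) / z))) *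
    n⁻¹ + η * hH r l / z * (η * hH r l / z) * (η * w * n⁻¹ * n⁻¹) ≤
      50 * (η ^ 2 * G * r ^ 4 / hS r l) := by
  have r0 := h.r0; have G0 := h.G0; have S0 := h.S0; have H0 := h.H0; have n0 := h.n0
  have x0 := h.x0; have z0 := h.z0; have η0 := h.η0; have l0 := one_pos.trans_le h.l1
  have e1 : hH r l * r ^ 10 * (hS r l * r ^ 10) ≤ 3 * 3 := by gcongr; exacts [h.H3, h.S3]
  have e2 : η * (w * l * x) * (hH r l ^ 2 * hS r l * r ^ 6) * r ^ 14 ≤
      1 * (2 * G * n ^ 2) * (16 * l) * 1 := by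
    have := h.w0
    gcongr ?_ * ?_ * ?_ * ?_; exacts [h.η1, h.wG, h.HHS, h.rp 14]
  have e3 : z ^ 2 = (r ^ 24 * x)⁻¹ := eq_inv_of_mul_eq_one_left (by linarith [h.rt])
  calc _ = (η ^ 2 * r ^ 4 / hS r l) * (2 * G * (hH r l * r ^ 10 * (hS r l * r ^ 10)) +
        η * (w * l * x) * (hH r l ^ 2 * hS r l * r ^ 6) * r ^ 14 / (l * n ^ 2)) := by
        rw [show ∀ a b c d : ℝ, (a * (b / z) * (c / z) + c / z * (a * (b / z))) * n⁻¹ +
          c / z * (c / z) * d = (2 * a * b * c * n⁻¹ + c * c * d) / z ^ 2 from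
          fun a b c d => by ring, e3]
        field_simp
    _ ≤ (η ^ 2 * r ^ 4 / hS r l) * (2 * G * (3 * 3) +
        1 * (2 * G * n ^ 2) * (16 * l) * 1 / (l * n ^ 2)) := by gcongr
    _ = _ := by field_simp; ring

theorem b3 : η ^ 2 * (G * w / x) ≤ 3888 * (η ^ 2 * G * r ^ 4 / hS r l) := by
  have r0 := h.r0; have G0 := h.G0; have S0 := h.S0; have x0 := h.x0
  have : w / x * hS r l ≤ 3888 * r ^ 4 := by
    have := (div_le_iff₀ x0).2 h.wx
    nlinarith [mul_le_mul_of_nonneg_right this S0.le,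
      mul_le_mul_of_nonneg_right h.S3 (pow_pos r0 4).le]
  calc _ = η ^ 2 * G / hS r l * (w / x * hS r l) := by field_simp
    _ ≤ η ^ 2 * G / hS r l * (3888 * r ^ 4) := by gcongr
    _ = _ := by ring

theorem b4 : η * hH r l / z * (η * hH r l / z) * n⁻¹ + η ^ 2 * G * r ^ 4 / hS r l ≤ 1305 * η := by
  have η0 := h.η0
  have : G * r ^ 4 / hS r l ≤ 1296 := by
    rw [div_le_iff₀ h.S0]
    nlinarith [h.GG, lS (r := r) (l := l), h.rp 4, h.G0]
  have e : η ^ 2 ≤ η := by nlinarith [h.η1]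
  nlinarith [h.b1, mul_le_mul_of_nonneg_left h.HH (sq_nonneg η),
    mul_le_mul_of_nonneg_left this (sq_nonneg η),
    show η ^ 2 * G * r ^ 4 / hS r l = η ^ 2 * (G * r ^ 4 / hS r l) by ring]

theorem c1 : η * hH r l / z * (η * hH r l / z) * n⁻¹ * hS r l * 1 ≤ 16 * (η ^ 2 * (l * r ^ 18)) := by
  have := mul_le_mul_of_nonneg_left h.HHS (mul_pos (pow_pos h.η0 2) (pow_pos h.r0 18)).le
  nlinarith [mul_le_mul_of_nonneg_right h.b1 h.S0.le]

theorem c2 : (η ^ 2 * G * r ^ 4 / hS r l * hS r l +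
      η * hH r l / z * (η * hH r l / z) * n⁻¹ * (η * (G * (n / x)))) * 1 +
    η * hH r l / z * (η * hH r l / z) * n⁻¹ * hS r l * (η ^ 2 * G * r ^ 4 / hS r l) ≤
      19 * (η ^ 2 * G) := by
  have r0 := h.r0; have G0 := h.G0; have S0 := h.S0; have n0 := h.n0
  have x0 := h.x0; have z0 := h.z0; have η0 := h.η0
  have e1 : η * hH r l / z * (η * hH r l / z) * n⁻¹ * (η * (G * (n / x))) =
      η ^ 2 * G * (η * (hH r l ^ 2 * r ^ 24)) := by rw [← h.it]; field_simp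
  have e2 : η * (hH r l ^ 2 * r ^ 24) ≤ 1 * 9 := by gcongr; exacts [h.η1, h.HH]
  have e3 : η * hH r l / z * (η * hH r l / z) * n⁻¹ * r ^ 4 ≤ 1 ^ 2 * 9 * 1 :=
    mul_le_mul (h.b1.trans (by gcongr; exacts [h.η1, h.HH])) (h.rp 4) (by positivity) (by norm_num)
  have e4 : ∀ a, a * hS r l * (η ^ 2 * G * r ^ 4 / hS r l) = η ^ 2 * G * (a * r ^ 4) :=
    fun a => by field_simp
  have p : 0 < η ^ 2 * G := by positivity
  rw [e1, e4, div_mul_cancel₀ _ S0.ne']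
  nlinarith [h.rp 4]

theorem c3 : η * (G * (n ^ 2 / x)) * n⁻¹ ≤ 1296 * hS r l := by
  have := h.n0
  have e : η * (G * (n ^ 2 / x)) * n⁻¹ = η * (G * (n / x)) := by field_simp
  have : 0 < G * (n / x) := by have := h.G0; have := h.x0; positivity
  nlinarith [h.GK, lS (r := r) (l := l), h.η1]

theorem c4 : η * hH r l / z * (η * √(w * (G * (n ^ 2 / x)))) * (η * (G * (n / x) * √n)) * n⁻¹ *
    n⁻¹ * 1 ≤ 7776 * (η ^ 2 * G * r ^ 4) := by
  have r0 := h.r0; have G0 := h.G0; have H0 := h.H0; have n0 := h.n0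
  have x0 := h.x0; have z0 := h.z0; have η0 := h.η0; have w0 := h.w0
  have a : l ≤ 2 * (z ^ 2 * n) := by
    have : l * r ^ 24 * (z ^ 2 * x) ≤ 2 * (z ^ 2 * n) := by gcongr; exacts [h.l2, h.xn]
    rwa [mul_assoc, h.rt, mul_one] at this
  have b : √(w * (G * (n ^ 2 / x))) * √n ≤ 2 * w * n ^ 2 * z / x := by
    rw [← Real.sqrt_mul (by positivity)]
    refine Real.sqrt_le_iff.2 ⟨by positivity, ?_⟩
    calc _ = w * n ^ 3 / x ^ 2 * (G * x) := by field_simp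
      _ ≤ w * n ^ 3 / x ^ 2 * (w * (4 * (z ^ 2 * n))) := by
        gcongr _ * ?_; exact h.Gw.trans (by gcongr _ * ?_; nlinarith [mul_pos (pow_pos z0 2) n0])
      _ = _ := by field_simp; norm_num
  calc _ = η ^ 2 * G * (η * hH r l / (z * x * n)) * (√(w * (G * (n ^ 2 / x))) * √n) := by field_simp
    _ ≤ η ^ 2 * G * (1 * hH r l / (z * x * n)) * (2 * w * n ^ 2 * z / x) := by gcongr; exact h.η1
    _ = η ^ 2 * G * 2 * hH r l / x ^ 2 * (w * n) := by field_simp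
    _ ≤ η ^ 2 * G * 2 * hH r l / x ^ 2 * (1296 * r ^ 14 * x ^ 2) := by
      gcongr _ * ?_; exact h.wK
    _ = η ^ 2 * G * r ^ 4 * 2592 * (hH r l * r ^ 10) := by field_simp; norm_num
    _ ≤ η ^ 2 * G * r ^ 4 * 2592 * 3 := by gcongr; exact h.H3
    _ = _ := by ring

theorem c5 : η * (G * (n ^ 2 / x)) * (η * w * n⁻¹ * n⁻¹) ≤ 1296 * (η ^ 2 * G * r ^ 4) := by
  have r0 := h.r0; have G0 := h.G0; have n0 := h.n0; have x0 := h.x0
  calc _ = η ^ 2 * G / x * w := by field_simp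
    _ ≤ η ^ 2 * G / x * (1296 * r ^ 4 * x) := by
      gcongr; exact h.wx.trans (by gcongr ?_ * ?_ * _; exact h.rle (by norm_num))
    _ = _ := by field_simp

theorem d1 : η ^ 2 * G * r ^ 4 ≤ 1 * (η ^ 2 * G) := by
  nlinarith [h.rp 4, mul_pos (pow_pos h.η0 2) h.G0]

theorem d2 : η ^ 2 * G * r ^ 4 ≤ 1296 * (η ^ 2 * (l * r ^ 18)) := by
  nlinarith [mul_le_mul_of_nonneg_left h.GG (mul_pos (pow_pos h.η0 2) (pow_pos h.r0 4)).le]

end Pt

/-- admissible weights of the modes `k ≠ 0` for the nonlinear estimate -/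
def Adw (c : ℂ) (R Z : ℝ) (w : ℝ → ℝ) : Prop := ∀ z ∈ Icc R Z,
  0 < w z ∧ w z ≤ 36 * (z ^ (-19 / 16 : ℝ) * (rh c z).re * √‖rh c z‖)

/-- `(z² Re ρ)^(-1/24)` -/
def rr (c : ℂ) (z : ℝ) : ℝ := (z ^ 2 * (rh c z).re) ^ (-1 / 24 : ℝ)
/-- `1 + Re ρ z² ly` -/
def ll (c : ℂ) (Z z : ℝ) : ℝ := 1 + (rh c z).re * (z ^ 2 * ly Z z)

variable {Y R Z η z : ℝ} {c : ℂ} {w : ℝ → ℝ}

theorem gO_eq (h : Cyl Y R Z c) (Y0 : 0 < Y) (hz : z ∈ Icc R Z) :
    gO c Z z = ll c Z z * rr c z ^ 18 := by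
  have z0 := h.z0 hz
  have x0 := h.re0 Y0 hz
  have : wO c z = (rh c z).re * rr c z ^ 18 := by
    rw [wO, rr]
    generalize (rh c z).re = x at *
    obtain ⟨a, rfl⟩ : ∃ a, z = Real.exp a := ⟨_, (Real.exp_log z0).symm⟩
    obtain ⟨b, rfl⟩ : ∃ a, x = Real.exp a := ⟨_, (Real.exp_log x0).symm⟩
    simp only [← Real.exp_nat_mul, ← Real.exp_mul, ← Real.exp_add]
    congr 1; push_cast; ring
  rw [gO, this, ll]; field_simp

theorem pt_cyl (h : Cyl Y R Z c) (Y1 : 1 ≤ Y) (a : Adw c R Z w) (η0 : 0 ≤ η) (η1 : η ≤ 1)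
    (ηY : 1 ≤ η ^ 8 * Y) (hz : z ∈ Icc R Z) :
    Pt z (rh c z).re ‖rh c z‖ (rr c z) (ll c Z z) (w z) (gW w c Z z) η ‖c‖ := by
  have z0 := h.z0 hz
  have x0 := h.re0 (one_pos.trans_le Y1) hz
  have xn : (rh c z).re ≤ ‖rh c z‖ := Complex.re_le_norm _
  have n0 := x0.trans_le xn
  have d := h.dsc z hz
  have n6 : ‖rh c z‖ ≤ 6 := by nlinarith
  have t1 := Y1.trans (h.tip z hz)
  have r0 : 0 < rr c z := by unfold rr; positivity
  have rt : rr c z ^ 24 * (z ^ 2 * (rh c z).re) = 1 := by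
    rw [rr, ← Real.rpow_natCast, ← Real.rpow_mul (by positivity)]
    norm_num [Real.rpow_neg_one]; field_simp
  have L0 : 0 < z ^ 2 * ly Z z := mul_pos (pow_pos z0 2) (ly_pos Z z)
  have L1 : ly Z z ≤ 1 := Real.exp_le_one_iff.2 (by nlinarith only [z0, hz.2])
  obtain ⟨w0, wl⟩ := a z hz
  have wK : w z * ‖rh c z‖ ≤ 1296 * rr c z ^ 14 * (rh c z).re ^ 2 := by
    refine (mul_le_mul_of_nonneg_right wl n0.le).trans ?_
    rw [rr]
    generalize (rh c z).re = x, ‖rh c z‖ = n at *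
    obtain ⟨a, rfl⟩ : ∃ a, z = Real.exp a := ⟨_, (Real.exp_log z0).symm⟩
    obtain ⟨b, rfl⟩ : ∃ a, x = Real.exp a := ⟨_, (Real.exp_log x0).symm⟩
    obtain ⟨e, rfl⟩ : ∃ a, n = Real.exp a := ⟨_, (Real.exp_log n0).symm⟩
    obtain ⟨L, eL⟩ : ∃ x, (6 : ℝ) = Real.exp x := ⟨_, (Real.exp_log (by norm_num)).symm⟩
    have L0 : 0 ≤ L := Real.one_le_exp_iff.1 (eL ▸ by norm_num)
    rw [show (36 : ℝ) = 6 ^ 2 by norm_num, show (1296 : ℝ) = 6 ^ 4 by norm_num]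
    rw [eL] at d n6 ⊢
    rw [← Real.exp_zero] at t1
    simp only [Real.sqrt_eq_rpow, ← Real.exp_nat_mul, ← Real.exp_mul, ← Real.exp_add,
      Real.exp_le_exp, Nat.cast_ofNat] at d n6 t1 xn ⊢
    linarith
  have r3 : rr c z ^ 3 ≤ η := by
    refine le_of_pow_le_pow_left₀ (n := 8) (by norm_num) η0 ?_
    have := mul_le_mul_of_nonneg_left (h.tip z hz) (pow_nonneg η0 8)
    nlinarith [mul_le_mul_of_nonneg_left (ηY.trans this) (pow_pos r0 24).le]
  have sx : sg c z * (rh c z).re ≤ 1 := by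
    rw [sg_eq, div_mul_eq_mul_div, div_le_one (by positivity)]; nlinarith
  have Gw : gW w c Z z * (rh c z).re ≤ w z * ll c Z z := by
    rw [gW, ll, mul_assoc]; gcongr; nlinarith
  have s0 : 0 < sg c z := by rw [sg_eq]; positivity
  refine ⟨z0, x0, xn, n6, r0, Real.rpow_le_one_of_one_le_of_nonpos t1 (by norm_num), rt,
    le_add_of_nonneg_right (by positivity), ?_, w0, by unfold gW; positivity, wK, ?_, Gw, ?_,
    (pow_pos r0 3).trans_le r3, η1, r3, norm_nonneg _,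
    le_trans (by gcongr; exact hz.2) h.cZ⟩
  · have : rr c z ^ 24 ≤ 1 :=
      pow_le_one₀ r0.le (Real.rpow_le_one_of_one_le_of_nonpos t1 (by norm_num))
    unfold ll; nlinarith
  · have l0 : 0 < ll c Z z := by unfold ll; positivity
    calc _ = gW w c Z z * (rh c z).re * ‖rh c z‖ / (rh c z).re ^ 2 := by field_simp
      _ ≤ w z * ll c Z z * ‖rh c z‖ / (rh c z).re ^ 2 := by gcongr
      _ = ll c Z z / (rh c z).re ^ 2 * (w z * ‖rh c z‖) := by ring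
      _ ≤ ll c Z z / (rh c z).re ^ 2 * (1296 * rr c z ^ 14 * (rh c z).re ^ 2) := by gcongr
      _ = _ := by field_simp
  · have e : sg c z * ‖rh c z‖ ^ 2 = (rh c z).re := by rw [sg_eq]; field_simp
    have : (rh c z).re ^ 2 ≤ ‖rh c z‖ ^ 2 := by gcongr
    unfold gW ll
    nlinarith [mul_le_mul_of_nonneg_left this (mul_pos w0 L0).le, mul_pos w0 x0,
      mul_pos (mul_pos w0 L0) (pow_pos n0 2)]

end Vale.Agent.P218W
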