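import Vale.Agent.P218W.Alg

/-! Operators on `W r`: modes, synthesis, restriction, conjugation, integrals. -/

open Set Complex Filter Topology MeasureTheory
open scoped Real ComplexConjugate

noncomputable section

namespace Vale.Agent.P218W

variable {s t : Set ℝ} {F G : ℝ × ℝ → ℂ} {ω : ℝ → ℝ} {M N : ℝ} {r r' : ℝ → ℝ}

theorem cont_co (h : Continuous F) (k : ℤ) : Continuous (co F k) :=
  continuous_const.mul (intervalIntegral.continuous_parametric_intervalIntegral_of_continuous'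
    (f := fun z θ => ex (-k) θ * F (z, θ)) (by unfold Function.uncurry; fun_prop) _ _)

theorem contOn_co (h : ContinuousOn F (s ×ˢ univ)) (k : ℤ) : ContinuousOn (co F k) s := by
  rw [continuousOn_iff_continuous_domRestrict]
  have : Continuous fun p : s × ℝ => F (p.1, p.2) :=
    h.comp_continuous (by fun_prop) fun p => ⟨p.1.2, trivial⟩
  exact continuous_const.mul (intervalIntegral.continuous_parametric_intervalIntegral_of_continuous'
    (f := fun (z : s) θ => ex (-k) θ * F (z, θ))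
    (((cont_ex _).comp continuous_snd).mul this) _ _)

theorem co_ex_mul (j : ℤ) (F : ℝ × ℝ → ℂ) (k : ℤ) (z : ℝ) :
    co (fun p => ex j p.2 * F p) k z = co F (k - j) z := c1_ex_mul j (fun θ => F (z, θ)) k

theorem co_mode (φ : ℝ → ℂ) (j k : ℤ) (z : ℝ) :
    co (fun p => φ p.1 * ex j p.2) k z = if k = j then φ z else 0 := by
  rw [co_mulz φ fun p => ex j p.2, co]
  simp [c1_ex]

theorem adm_mode (s : Set ℝ) (φ : ℝ → ℂ) (j : ℤ) : Adm s fun p => φ p.1 * ex j p.2 :=
  fun z _ => ⟨(cont_ex j).const_mul (φ z), fun θ => by simp only [ex_per]⟩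

/-- a single mode -/
theorem le_mode {φ : ℝ → ℂ} {C : ℝ} (j : ℤ) (hC : 0 ≤ C) (w0 : ∀ z ∈ s, 0 ≤ ω z)
    (hφ : ∀ z ∈ s, ‖φ z‖ ≤ C * ω z) : Le s (fun p => φ p.1 * ex j p.2) ω (4 * br j * C) := by
  refine ⟨adm_mode s φ j, w0, _, sq_single j hC, fun k z hz => ?_⟩
  rw [co_mode]; split_ifs
  · exact hφ z hz
  · simp

theorem Le.mode (h : Le s F ω M) (j : ℤ) : Le s (fun p => co F j p.1 * P218W.ex j p.2) ω M := by
  obtain ⟨a, ha, e⟩ := h.ex
  refine ⟨adm_mode s _ j, h.w0, a, ha, fun k z hz => ?_⟩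
  rw [co_mode]; split_ifs with e0
  · exact e0 ▸ e k z hz
  · simpa using mul_nonneg (ha.a0 k) (h.w0 z hz)

/-- functions with the same coefficients agree -/
theorem Le.eq_of_co (h : Le s F ω M) {v : ℝ → ℝ} (k : Le s G v N) {z : ℝ} (hz : z ∈ s)
    (e : ∀ j, co F j z = co G j z) (θ : ℝ) : F (z, θ) = G (z, θ) :=
  (h.hasSum hz θ).unique (by simpa only [e] using k.hasSum hz θ)

theorem co_conj (F : ℝ × ℝ → ℂ) (k : ℤ) (z : ℝ) :
    co (fun p => conj (F p)) k z = conj (co F (-k) z) := by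
  have e : ∀ θ, ex (-k) θ = conj (ex (- -k) θ) := fun θ => by
    simp [ex, ← Complex.exp_conj]
  simp only [co, c1, map_mul, ← intervalIntegral.intervalIntegral_conj, e]
  simp [map_ofNat]

theorem Sq.neg {a : ℤ → ℝ} (h : Sq a M) : Sq (fun k => a (-k)) M :=
  ⟨h.M0, fun _ => h.a0 _, fun t => by
    simpa [Finset.sum_map] using h.le (t.map (Equiv.neg ℤ).toEmbedding)⟩

theorem Le.conj (h : Le s F ω M) : Le s (fun p => conj (F p)) ω M := by
  obtain ⟨a, ha, e⟩ := h.ex
  exact ⟨fun z hz => ⟨Complex.continuous_conj.comp (h.adm z hz).1, fun θ => by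
    simp only [(h.adm z hz).2]⟩, h.w0, _, ha.neg, fun k z hz => by
      rw [co_conj, Complex.norm_conj]; exact e _ z hz⟩

/-- synthesis -/
def syn (f : ℤ → ℝ → ℂ) (p : ℝ × ℝ) : ℂ := ∑' k, f k p.1 * ex k p.2

theorem co_syn {f : ℤ → ℝ → ℂ} {z : ℝ} (h : Summable fun k => ‖f k z‖) (k : ℤ) :
    co (syn f) k z = f k z := c1_syn h k

theorem le_syn {f : ℤ → ℝ → ℂ} {a : ℤ → ℝ} (ha : Sq a M) (w0 : ∀ z ∈ s, 0 ≤ ω z)
    (h : ∀ k, ∀ z ∈ s, ‖f k z‖ ≤ a k * ω z) : Le s (syn f) ω M := by
  have sm : ∀ z ∈ s, Summable fun k => ‖f k z‖ := fun z hz =>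
    (ha.summable.mul_right _).of_nonneg_of_le (fun _ => norm_nonneg _) fun k => h k z hz
  exact ⟨fun z hz => ⟨continuous_tsum (f := fun k θ => f k z * ex k θ) (fun k => by fun_prop)
    (sm z hz) (by simp), fun θ => by simp only [syn, ex_per]⟩, w0, a, ha,
    fun k z hz => by rw [co_syn (sm z hz)]; exact h k z hz⟩

theorem contOn_syn {f : ℤ → ℝ → ℂ} {a : ℤ → ℝ} (ha : Summable a) (c : ∀ k, ContinuousOn (f k) s)
    (h : ∀ k, ∀ z ∈ s, ‖f k z‖ ≤ a k) : ContinuousOn (syn f) (s ×ˢ univ) :=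
  continuousOn_tsum (fun k => ((c k).comp continuous_fst.continuousOn fun _ hp => hp.1).mul
    (Continuous.continuousOn (by fun_prop))) ha fun k p hp => by simpa using h k p.1 hp.1

/-- synthesis in `W r` -/
theorem Ret.syn (h : Ret s r) {f : ℤ → ℝ → ℂ} {a : ℤ → ℝ} (ha : Sq a M)
    (c : ∀ k, ContinuousOn (f k) s) (b : ∀ k, ∀ z ∈ s, ‖f k z‖ ≤ a k) :
    ∃ x : W r, ‖x‖ ≤ M ∧ ∀ k, ∀ z ∈ s, co x k z = f k z := by
  have l : Le s (P218W.syn f) (fun _ => 1) M := le_syn ha (by simp) (by simpa using b)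
  refine ⟨h.mk' _ (contOn_syn ha.summable c b) ⟨_, l⟩, h.norm_le (h.mk'_le _ _ subset_rfl l),
    fun k z hz => ?_⟩
  rw [co_congr (h.mk'_apply _ _ _ hz)]
  exact co_syn (ha.summable.of_nonneg_of_le (fun _ => norm_nonneg _) fun k => b k z hz) k

theorem Ret.ext_co (h : Ret s r) {x y : W r} (e : ∀ k, ∀ z ∈ s, co x k z = co y k z) : x = y :=
  h.ext fun z hz θ => (x.le_on s).eq_of_co (y.le_on s) hz (fun j => e j z hz) θ

/-- infinite sums -/
theorem le_tsum {f : ℕ → ℝ × ℝ → ℂ} {m : ℕ → ℝ} (h : ∀ n, Le s (f n) ω (m n)) (hm : HasSum m M)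
    (e : ∀ z ∈ s, ∀ θ, HasSum (fun n => f n (z, θ)) (F (z, θ))) : Le s F ω M := by
  have m0 := fun n => (h n).M0
  have w0 := (h 0).w0
  refine le_of_approx (fun z hz => ⟨?_, fun θ => (e z hz _).unique (by
    simpa only [((h _).adm z hz).2] using e z hz θ)⟩) fun ε hε => ?_
  · simp only [← (e z hz _).tsum_eq]
    exact continuous_tsum (fun n => ((h n).adm z hz).1)
      ((hm.summable.div_const 2).mul_right (ω z)) fun n θ => (h n).apply hz θ
  obtain ⟨n, hn⟩ := ((tendsto_order.1 hm.tendsto_sum_nat).1 (M - ε) (by linarith)).exists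
  refine ⟨_, (Le.sum (Finset.range n) w0 fun i _ => h i).mono subset_rfl (fun _ _ => le_rfl)
    (sum_le_hasSum _ (fun i _ => m0 i) hm), fun z hz θ => ?_⟩
  refine (((hasSum_nat_add_iff' n).2 (e z hz θ)).norm_le_of_bounded
    (((hasSum_nat_add_iff' n).2 hm).mul_right (ω z)) fun i => ((h _).apply hz θ).trans ?_).trans ?_
  · nlinarith [m0 (i + n), w0 z hz]
  · nlinarith [w0 z hz]

theorem isClosed_le {δ : ℝ} (hδ : 0 < δ) (hw : ∀ z ∈ s, δ ≤ ω z) (M : ℝ) :
    IsClosed {x : W r | Le s x ω M} := by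
  refine isClosed_of_closure_subset fun x hx => le_of_approx (x.adm s) fun ε hε => ?_
  obtain ⟨y, hy, e⟩ := Metric.mem_closure_iff.1 hx (ε * δ) (by positivity)
  refine ⟨y, hy, fun z hz θ => ((x - y).apply_le (z, θ)).trans ?_⟩
  rw [dist_eq_norm] at e
  nlinarith [norm_nonneg (x - y), hw z hz]

namespace W

variable {x y : W r}

theorem cont_co (x : W r) (k : ℤ) : Continuous (co x k) := P218W.cont_co x.cont k
theorem co_fix (x : W r) (k : ℤ) (z : ℝ) : co x k (r z) = co x k z := by simp only [co, x.fix]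
theorem co_le (x : W r) (k : ℤ) (z : ℝ) : ‖co x k z‖ ≤ ‖x‖ / 2 := by
  simpa using x.le_norm.co_le k (z := z) trivial

/-- the coefficient of mode `k` at height `z` -/
def coL (k : ℤ) (z : ℝ) : W r →L[ℂ] ℂ := LinearMap.mkContinuous
  { toFun := fun x => co x k z
    map_add' := fun x y => co_add (x.adm univ) (y.adm univ) k trivial
    map_smul' := fun c x => co_mulz (fun _ => c) x k z } 1
  fun x => ((x.co_le k z).trans (half_le_self (norm_nonneg _))).trans_eq (one_mul _).symm

@[simp] theorem coL_apply (k : ℤ) (z : ℝ) (x : W r) : coL k z x = co x k z := rfl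

/-- mode `k` -/
def md (k : ℤ) (x : W r) : W r := ⟨fun p => co x k p.1 * ex k p.2,
  by have := x.cont_co k; fun_prop, fun z θ => by simp only [x.co_fix], _, x.le_norm.mode k⟩

/-- the projection onto mode `k` -/
def Pk (k : ℤ) : W r →L[ℂ] W r := LinearMap.mkContinuous
  { toFun := md k
    map_add' := fun x y => ext fun p => by
      change coL k p.1 (x + y) * _ = coL k p.1 x * _ + coL k p.1 y * _
      rw [map_add, add_mul]
    map_smul' := fun c x => ext fun p => by
      change coL k p.1 (c • x) * _ = c * (coL k p.1 x * _)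
      rw [map_smul, smul_eq_mul, mul_assoc] } 1
  fun x => (norm_le (x := md k x) (x.le_norm.mode k)).trans_eq (one_mul _).symm

@[simp] theorem Pk_apply (k : ℤ) (x : W r) (p) : Pk k x p = co x k p.1 * ex k p.2 := rfl

/-- mode `0` -/
def P0 : W r →L[ℂ] W r := Pk 0
/-- the modes `k ≠ 0` -/
def Pn : W r →L[ℂ] W r := .id ℂ _ - P0

theorem P0_f (x : W r) : (P0 x).f = p0 x := funext fun p => by simp [P0, p0]
theorem Pn_f (x : W r) : (Pn x).f = pn x := funext fun p => by simp [Pn, P0, pn]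
theorem P0_add_Pn (x : W r) : P0 x + Pn x = x := by simp [Pn]
theorem norm_P0 (x : W r) : ‖P0 x‖ ≤ ‖x‖ := norm_le (x.P0_f ▸ x.le_norm.p0)
theorem norm_Pn (x : W r) : ‖Pn x‖ ≤ ‖x‖ := norm_le (x.Pn_f ▸ x.le_norm.pn)

/-- composition with `q` -/
def res0 (q : ℝ → ℝ) (c : Continuous q) (h : ∀ z, q (r' z) = q z) (x : W r) : W r' :=
  ⟨fun p => x (q p.1, p.2), by fun_prop, fun z θ => by simp only [h], _,
    x.le_norm.comp fun _ _ => mem_univ _⟩

/-- composition with a continuous map `q` of the `z`-axis (restriction, trace, change of height) -/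
def res (q : ℝ → ℝ) (c : Continuous q) (h : ∀ z, q (r' z) = q z) : W r →A[ℂ] W r' where
  toFun := res0 q c h
  map_one' := rfl
  map_mul' _ _ := rfl
  map_zero' := rfl
  map_add' _ _ := rfl
  commutes' _ := rfl
  cont := (LipschitzWith.of_dist_le_mul (K := 1) fun x y => by
    rw [dist_eq_norm, dist_eq_norm, NNReal.coe_one, one_mul]
    exact norm_le (x := res0 q c h x - res0 q c h y)
      ((x - y).le_norm.comp (q := q) fun _ _ => mem_univ _)).continuous

@[simp] theorem res_apply (q c h) (x : W r) (p) : (res q c h x : W r') p = x (q p.1, p.2) := rfl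

theorem norm_res (q c h) (x : W r) : ‖(res q c h x : W r')‖ ≤ ‖x‖ :=
  norm_le (x.le_norm.comp (q := q) fun _ _ => trivial)

instance : StarRing (W r) where
  star x := ⟨fun p => conj (x p), by fun_prop, fun z θ => by simp only [x.fix], _, x.le_norm.conj⟩
  star_involutive _ := ext fun _ => Complex.conj_conj _
  star_mul x y := ext fun p => (map_mul conj (x p) (y p)).trans (mul_comm _ _)
  star_add x y := ext fun p => map_add conj (x p) (y p)

@[simp] theorem star_apply (x : W r) (p) : (star x) p = conj (x p) := rfl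

instance : StarModule ℂ (W r) := ⟨fun c x => ext fun p => map_mul conj c (x p)⟩
instance : NormedStarGroup (W r) := ⟨fun x => norm_le x.le_norm.conj⟩

/-- `e^{ikθ}` -/
def eW (k : ℤ) : W r := ⟨fun p => ex k p.2, by fun_prop, fun _ _ => rfl, _, by
  simpa using le_mode (s := univ) (φ := fun _ => 1) (ω := fun _ => 1) k zero_le_one
    (by simp) (by simp)⟩

@[simp] theorem eW_apply (k : ℤ) (p) : (eW k : W r) p = ex k p.2 := rfl

theorem integrable_co {μ : Measure ℝ} {φ : ℝ → ℂ} (h : Integrable φ μ) (x : W r) (k : ℤ) :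
    Integrable (fun z => φ z * co x k z) μ :=
  h.mul_bdd (x.cont_co k).aestronglyMeasurable (.of_forall (x.co_le k))

/-- `x ↦ ∫ φ(z) x_k(z) dμ(z)` -/
def intg (μ : Measure ℝ) (φ : ℝ → ℂ) (h : Integrable φ μ) (k : ℤ) : W r →L[ℂ] ℂ :=
  LinearMap.mkContinuous
  { toFun := fun x => ∫ z, φ z * co x k z ∂μ
    map_add' := fun x y => by
      rw [← integral_add (integrable_co h x k) (integrable_co h y k)]
      simp only [← coL_apply, map_add, mul_add]
    map_smul' := fun c x => by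
      simp only [← coL_apply, map_smul, smul_eq_mul, mul_left_comm _ c, integral_const_mul,
        RingHom.id_apply] } (∫ z, ‖φ z‖ ∂μ) fun x => by
    rw [← integral_mul_const]
    exact norm_integral_le_of_norm_le (h.norm.mul_const _) (.of_forall fun z => by
      rw [norm_mul]; gcongr; exact (x.co_le k z).trans (half_le_self (norm_nonneg _)))

@[simp] theorem intg_apply (μ φ h k) (x : W r) : intg μ φ h k x = ∫ z, φ z * co x k z ∂μ := rfl

end W

end Vale.Agent.P218W
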