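import Vale.Agent.P218W.Jet
import Vale.Agent.P218T.Rn

/-! Weighted seminorms on `W r`, low modes, synthesis of jets, the Neumann series. -/

open Set Complex Filter Topology MeasureTheory
open scoped Real ComplexConjugate

noncomputable section

namespace Vale.Agent.P218W

open Vale.Agent.P218M Vale.Agent.P218T

variable {s t : Set ℝ} {F G : ℝ × ℝ → ℂ} {ω o n o' n' : ℝ → ℝ} {M N : ℝ} {r : ℝ → ℝ}

/-- a continuous weight which is bounded above and below -/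
structure PW (s : Set ℝ) (ω : ℝ → ℝ) : Prop where
  c : ContinuousOn ω s
  ex : ∃ C > 0, ∀ z ∈ s, C⁻¹ ≤ ω z ∧ ω z ≤ C

theorem PW.pos (h : PW s ω) {z : ℝ} (hz : z ∈ s) : 0 < ω z :=
  let ⟨_, c, e⟩ := h.ex; (inv_pos.2 c).trans_le (e z hz).1

theorem pw_of_compact (hs : IsCompact s) (c : ContinuousOn ω s) (p : ∀ z ∈ s, 0 < ω z) :
    PW s ω := by
  obtain ⟨A, hA⟩ := hs.exists_bound_of_continuousOn c
  obtain ⟨B, hB⟩ := hs.exists_bound_of_continuousOn (c.inv₀ fun z hz => (p z hz).ne')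
  refine ⟨c, max 1 (max A B), by positivity, fun z hz => ⟨inv_le_of_inv_le₀ (p z hz) ?_, ?_⟩⟩
  · exact ((le_abs_self _).trans (hB z hz)).trans (by simp)
  · exact ((le_abs_self _).trans (hA z hz)).trans (by simp)

/-- finitely many weights have common bounds -/
theorem PW.common {ι : Type} [Fintype ι] {v : ι → ℝ → ℝ} (h : ∀ i, PW s (v i)) :
    ∃ C > 0, ∀ i, ∀ z ∈ s, C⁻¹ ≤ v i z ∧ v i z ≤ C := by
  choose C c e using fun i => (h i).ex
  have l : ∀ i, C i ≤ 1 + ∑ j, C j := fun i => by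
    linarith [Finset.single_le_sum (fun j _ => (c j).le) (Finset.mem_univ i)]
  exact ⟨1 + ∑ j, C j, by have := Finset.sum_nonneg fun j (_ : j ∈ Finset.univ) => (c j).le; linarith,
    fun i z hz => ⟨(inv_anti₀ (c i) (l i)).trans (e i z hz).1, (e i z hz).2.trans (l i)⟩⟩

/-- the weighted seminorm -/
def wn (s : Set ℝ) (ω : ℝ → ℝ) : Seminorm ℂ (W r) :=
  (normSeminorm ℂ (W r)).comp (LinearMap.mulLeft ℂ (cst s r fun z => (ω z : ℂ)⁻¹))

theorem Ret.wn_le_iff (h : Ret s r) (p : PW s ω) {x : W r} : wn s ω x ≤ M ↔ Le s x ω M := by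
  obtain ⟨C, c, e⟩ := p.ex
  have ne : ∀ z ∈ s, (ω z : ℂ) ≠ 0 := fun z hz => by exact_mod_cast (p.pos hz).ne'
  have ap := fun z hz θ => h.cst_apply (φ := fun z => (ω z : ℂ)⁻¹) (z := z) (C := C)
    ((Complex.continuous_ofReal.comp_continuousOn p.c).inv₀ ne) (fun z hz => by
      rw [norm_inv, Complex.norm_real, Real.norm_of_nonneg (p.pos hz).le]
      exact inv_le_of_inv_le₀ c (e z hz).1) hz θ
  refine ⟨fun l => ?_, fun l => h.norm_le ?_⟩
  · refine (((W.le_on _ s).mulz (φ := fun z => ω z) zero_le_one (fun z hz => (p.pos hz).le)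
      fun z hz => by simp [abs_of_pos (p.pos hz)]).mono subset_rfl (fun _ _ => le_rfl)
        ((one_mul _).trans_le l)).congr fun z hz θ => ?_
    simp [ap z hz, ne z hz]
  · refine (one_mul M ▸ l.mulz (φ := fun z => (ω z : ℂ)⁻¹) zero_le_one (by simp) fun z hz => by
      simp [abs_of_pos (p.pos hz), (p.pos hz).ne']).congr fun z hz θ => ?_
    simp [ap z hz]

/-- two weights: `o` for mode `0`, `n` for the other modes -/
def L2 (s : Set ℝ) (F : ℝ × ℝ → ℂ) (o n : ℝ → ℝ) (M : ℝ) : Prop :=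
  Le s (p0 F) o M ∧ Le s (pn F) n M

theorem p0_add_pn (F : ℝ × ℝ → ℂ) (p : ℝ × ℝ) : p0 F p + pn F p = F p := by simp [p0, pn]

theorem L2.le (h : L2 s F o n M) (ho : ∀ z ∈ s, o z ≤ ω z) (hn : ∀ z ∈ s, n z ≤ ω z) :
    Le s F ω (2 * M) :=
  two_mul M ▸ ((h.1.mono subset_rfl ho le_rfl).add (h.2.mono subset_rfl hn le_rfl)).congr
    fun _ _ _ => (p0_add_pn _ _).symm

theorem Le.l2 (h : Le s F ω M) : L2 s F ω ω M := ⟨h.p0, h.pn⟩

theorem L2.mono (h : L2 s F o n M) (ht : t ⊆ s) (ho : ∀ z ∈ t, o z ≤ o' z)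
    (hn : ∀ z ∈ t, n z ≤ n' z) (hN : M ≤ N) : L2 t F o' n' N :=
  ⟨h.1.mono ht ho hN, h.2.mono ht hn hN⟩

theorem L2.congr (h : L2 s F o n M) (e : ∀ z ∈ s, ∀ θ, G (z, θ) = F (z, θ)) : L2 s G o n M :=
  ⟨h.1.congr fun z hz _ => co_congr (e z hz) 0,
    h.2.congr fun z hz θ => by simp only [pn, e z hz, co_congr (e z hz) 0]⟩

theorem L2.add (h : L2 s F o n M) (k : L2 s G o n N) (a : Adm s F) (b : Adm s G) :
    L2 s (fun p => F p + G p) o n (M + N) :=
  ⟨(h.1.add k.1).congr fun z hz _ => co_add a b 0 hz,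
    (h.2.add k.2).congr fun z hz θ => by simp only [pn, co_add a b 0 hz]; ring⟩

theorem L2.mulz (h : L2 s F o n M) {φ : ℝ → ℂ} {C : ℝ} (hC : 0 ≤ C) (o0 : ∀ z ∈ s, 0 ≤ o' z)
    (n0 : ∀ z ∈ s, 0 ≤ n' z) (ho : ∀ z ∈ s, ‖φ z‖ * o z ≤ C * o' z)
    (hn : ∀ z ∈ s, ‖φ z‖ * n z ≤ C * n' z) : L2 s (fun p => φ p.1 * F p) o' n' (C * M) :=
  ⟨(h.1.mulz hC o0 ho).congr fun z _ _ => co_mulz φ F 0 z,
    (h.2.mulz hC n0 hn).congr fun z _ θ => by simp only [pn, co_mulz]; ring⟩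

/-- from bounds of the modes -/
theorem l2_of_co (hF : Adm s F) {a : ℤ → ℝ} (ha : Sq a M) (o0 : ∀ z ∈ s, 0 ≤ o z)
    (n0 : ∀ z ∈ s, 0 ≤ n z) (ho : ∀ z ∈ s, ‖co F 0 z‖ ≤ a 0 * o z)
    (hn : ∀ k ≠ 0, ∀ z ∈ s, ‖co F k z‖ ≤ a k * n z) : L2 s F o n M := by
  refine ⟨⟨adm_z s _, o0, a, ha, fun k z hz => ?_⟩, hF.sub (adm_z s _), n0, a, ha, fun k z hz => ?_⟩
  · rw [co_p0]; split_ifs with e
    · exact e ▸ ho z hz
    · simpa using mul_nonneg (ha.a0 k) (o0 z hz)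
  · rw [co_pn hF k hz]; split_ifs with e
    · simpa using mul_nonneg (ha.a0 k) (n0 z hz)
    · exact hn k e z hz

theorem L2.ex (h : L2 s F o n M) (hF : Adm s F) : ∃ a, Sq a (2 * M) ∧
    (∀ z ∈ s, ‖co F 0 z‖ ≤ a 0 * o z) ∧ ∀ k ≠ 0, ∀ z ∈ s, ‖co F k z‖ ≤ a k * n z := by
  obtain ⟨a, ha, e⟩ := h.1.ex
  obtain ⟨b, hb, e'⟩ := h.2.ex
  refine ⟨_, two_mul M ▸ ha.add hb, fun z hz => ?_, fun k hk z hz => ?_⟩
  · have := e 0 z hz
    rw [co_p0, if_pos rfl] at this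
    nlinarith [mul_nonneg (hb.a0 0) (h.1.w0 z hz)]
  · have := e' k z hz
    rw [co_pn hF k hz, if_neg hk] at this
    nlinarith [mul_nonneg (ha.a0 k) (h.2.w0 z hz)]

/-- the seminorm with two weights -/
def wn2 (s : Set ℝ) (o n : ℝ → ℝ) : Seminorm ℂ (W r) :=
  (wn s o).comp W.P0.toLinearMap ⊔ (wn s n).comp W.Pn.toLinearMap

theorem Ret.wn2_le_iff (h : Ret s r) (po : PW s o) (pn : PW s n) {x : W r} :
    wn2 s o n x ≤ M ↔ L2 s x o n M := by
  rw [wn2, Seminorm.sup_apply, max_le_iff, L2, ← W.P0_f, ← W.Pn_f, ← h.wn_le_iff po,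
    ← h.wn_le_iff pn]; rfl

/-- bounds of a family of functions -/
def XN {ι : Type} (s : Set ℝ) (o n : ι → ℝ → ℝ) (u : ι → ℝ × ℝ → ℂ) (M : ℝ) : Prop :=
  ∀ i, L2 s (u i) (o i) (n i) M

/-- the corresponding seminorm -/
def xn {ι : Type} [Fintype ι] (s : Set ℝ) (o n : ι → ℝ → ℝ) : Seminorm ℂ (ι → W r) :=
  Finset.univ.sup fun i => (wn2 s (o i) (n i)).comp (LinearMap.proj i)

section
variable {ι : Type} [Fintype ι] {o n : ι → ℝ → ℝ}

theorem Ret.xn_le_iff (h : Ret s r) (po : ∀ i, PW s (o i)) (pn : ∀ i, PW s (n i)) {J : ι → W r}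
    (M0 : 0 ≤ M) : xn s o n J ≤ M ↔ XN s o n (fun i => J i) M :=
  ⟨fun l i => (h.wn2_le_iff (po i) (pn i)).1 (le_trans (Seminorm.le_finset_sup_apply
    (p := fun i => (wn2 s (o i) (n i)).comp (LinearMap.proj i)) (Finset.mem_univ i)) l),
    fun l => Seminorm.finset_sup_apply_le M0 fun i _ => (h.wn2_le_iff (po i) (pn i)).2 (l i)⟩

theorem Ret.xn_eqv (h : Ret s r) (po : ∀ i, PW s (o i)) (pn : ∀ i, PW s (n i)) :
    Eqv (xn (r := r) s o n) := by
  obtain ⟨A, A0, a⟩ := PW.common po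
  obtain ⟨B, B0, b⟩ := PW.common pn
  refine ⟨2 * (A + B), fun J => ⟨(pi_norm_le_iff_of_nonneg (by positivity)).2 fun i => ?_,
    (h.xn_le_iff po pn (by positivity)).2 fun i => ?_⟩⟩
  · have := (((h.xn_le_iff po pn (apply_nonneg _ _)).1 (le_refl (xn s o n J)) i).le
      (ω := fun _ => A + B) (fun z hz => by linarith [(a i z hz).2])
      fun z hz => by linarith [(b i z hz).2]).wt (ω' := fun _ => 1) (C := A + B) (by positivity)
        (by simp) (by simp)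
    exact (h.norm_le this).trans_eq (by ring)
  · have l := ((J i).le_on s).wt (ω' := fun _ => (A + B)⁻¹) (C := A + B) (by positivity)
      (fun _ _ => by positivity) fun _ _ => by rw [mul_inv_cancel₀ (by positivity)]
    refine l.l2.mono subset_rfl (fun z hz => le_trans (inv_anti₀ A0 (by linarith)) (a i z hz).1)
      (fun z hz => le_trans (inv_anti₀ B0 (by linarith)) (b i z hz).1) ?_
    nlinarith [mul_le_mul_of_nonneg_left (norm_le_pi_norm J i) (add_pos A0 B0).le,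
      mul_nonneg (add_pos A0 B0).le (norm_nonneg J)]

end

/-- the means of `x`, `x cos θ`, `x sin θ` at height `z` -/
def low (z : ℝ) : W r →L[ℂ] Fin 3 → ℂ := .pi ![W.coL 0 z,
  (1 / 2 : ℂ) • (W.coL 1 z + W.coL (-1) z), (I / 2) • (W.coL 1 z - W.coL (-1) z)]

theorem low_0 (z : ℝ) (x : W r) : low z x 0 = co x 0 z := rfl
theorem low_1 (z : ℝ) (x : W r) : low z x 1 = 1 / 2 * (co x 1 z + co x (-1) z) := rfl
theorem low_2 (z : ℝ) (x : W r) : low z x 2 = I / 2 * (co x 1 z - co x (-1) z) := rfl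

theorem co_low (z : ℝ) (x : W r) {k : ℤ} (hk : |k| = 1) :
    co x k z = low z x 1 - k * I * low z x 2 := by
  rw [low_1, low_2]
  rcases (abs_eq zero_le_one).1 hk with rfl | rfl <;> push_cast
  · linear_combination (co x 1 z - co x (-1) z) / 2 * I_mul_I
  · linear_combination -(co x 1 z - co x (-1) z) / 2 * I_mul_I

theorem low_cos (z : ℝ) (x : W r) : low z x 1 = co (fun p => Real.cos p.2 * x p) 0 z := by
  have e : ∀ θ : ℝ, (Real.cos θ : ℂ) * x (z, θ) =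
      1 / 2 * (ex (-1) θ * x (z, θ) + ex 1 θ * x (z, θ)) := fun θ => by
    simp only [ex, Complex.ofReal_cos, Complex.cos]; push_cast; ring_nf
  rw [low_1, co, co, co]
  simp only [e]
  rw [c1_mul, c1_add (by fun_prop) (by fun_prop), c1_ex_mul, c1_ex_mul]; rfl

theorem low_sin (z : ℝ) (x : W r) : low z x 2 = co (fun p => Real.sin p.2 * x p) 0 z := by
  have e : ∀ θ : ℝ, (Real.sin θ : ℂ) * x (z, θ) =
      I / 2 * (ex (-1) θ * x (z, θ) + -1 * (ex 1 θ * x (z, θ))) := fun θ => by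
    simp only [ex, Complex.ofReal_sin, Complex.sin]; push_cast; ring_nf
  rw [low_2, co, co, co]
  simp only [e]
  rw [c1_mul, c1_add (by fun_prop) (by fun_prop), c1_mul, c1_ex_mul, c1_ex_mul, neg_one_mul,
    ← sub_eq_add_neg]; rfl

theorem low_star (z : ℝ) (x : W r) : low z (star x) = star (low z x) := by
  have e : ∀ k, co (star x).f k z = conj (co x (-k) z) := fun k => co_conj x k z
  ext i
  fin_cases i
  · simpa [low_0] using e 0
  · simp [low_1, e, add_comm]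
  · simp [low_2, e]; ring

/-- the six components of a mode -/
def cm (k : ℤ) (u u₁ u₂ : ℝ → ℂ) : Fin 6 → ℝ → ℂ := ![u, fun z => k * I * u z,
  fun z => k * I * (k * I * u z), u₁, fun z => k * I * u₁ z, u₂]

theorem MJ.cm {u : Fin 6 → ℝ × ℝ → ℂ} (h : MJ s u) (k : ℤ) {z : ℝ} (hz : z ∈ s) (i : Fin 6) :
    co (u i) k z = cm k (co (u 0) k) (co (u 3) k) (co (u 5) k) i z := by
  fin_cases i
  exacts [rfl, h.t1 k z hz, (h.t2 k z hz).trans (congrArg _ (h.t1 k z hz)), rfl, h.t4 k z hz, rfl]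

/-- synthesis of a jet -/
theorem Ret.exists_jet (h : Ret s r) {ω : Fin 6 → ℝ → ℝ} (c : ∀ i, ContinuousOn (ω i) s)
    (p : ∀ i, ∀ z ∈ s, 0 < ω i z) {u u₁ u₂ : ℤ → ℝ → ℂ} (j : ∀ k, J2 s (u k) (u₁ k) (u₂ k))
    {a : ℤ → ℝ} (ha : Sq a M)
    (b : ∀ i k, ∀ z ∈ s, ‖cm k (u k) (u₁ k) (u₂ k) i z‖ ≤ a k * ω i z) :
    ∃ J ∈ JetS s r ω, ∀ i k, ∀ z ∈ s, co (wj ω J i) k z = cm k (u k) (u₁ k) (u₂ k) i z := by
  have ne : ∀ i, ∀ z ∈ s, (ω i z : ℂ) ≠ 0 := fun i z hz => by exact_mod_cast (p i z hz).ne'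
  have cc : ∀ i k, ContinuousOn (cm k (u k) (u₁ k) (u₂ k) i) s := fun i k => by
    fin_cases i
    exacts [(j k).c0, continuousOn_const.mul (j k).c0,
      continuousOn_const.mul (continuousOn_const.mul (j k).c0), (j k).c1,
      continuousOn_const.mul (j k).c1, (j k).c2]
  choose J _ hJ using fun i => h.syn (f := fun k z => (ω i z : ℂ)⁻¹ * cm k (u k) (u₁ k) (u₂ k) i z)
    ha (fun k => ((Complex.continuous_ofReal.comp_continuousOn (c i)).inv₀ (ne i)).mul (cc i k))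
    fun k z hz => by
      rw [norm_mul, norm_inv, Complex.norm_real, Real.norm_of_nonneg (p i z hz).le,
        inv_mul_le_iff₀ (p i z hz), mul_comm]
      exact b i k z hz
  have e : ∀ i k, ∀ z ∈ s, co (wj ω J i) k z = cm k (u k) (u₁ k) (u₂ k) i z := fun i k z hz => by
    rw [co_wj, hJ i k z hz, mul_inv_cancel_left₀ (ne i z hz)]
  refine ⟨J, MJ.jet ⟨fun k z hz => ?_, fun k z hz => by rw [e _ k z hz, e _ k z hz]; rfl,
    fun k z hz => by rw [e _ k z hz, e _ k z hz]; rfl,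
    fun k z hz => by rw [e _ k z hz, e _ k z hz]; rfl⟩ (wj_loc c J), e⟩
  have m := mem_interior_iff_mem_nhds.1 hz
  rw [e 3 k z (interior_subset hz), e 5 k z (interior_subset hz)]
  exact ⟨((j k).d z hz).1.congr_of_eventuallyEq (mem_of_superset m (e 0 k)),
    ((j k).d z hz).2.congr_of_eventuallyEq (mem_of_superset m (e 3 k))⟩

/-- the Neumann series -/
theorem neumann {X Y : Type} [NormedAddCommGroup X] [NormedSpace ℂ X] [CompleteSpace X]
    [NormedAddCommGroup Y] [NormedSpace ℂ Y] [CompleteSpace Y] {T P : X →L[ℂ] Y}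
    {q : Seminorm ℂ Y} (hq : Eqv q) (hT : Function.Bijective T) (hP : ∀ x, q (P x) ≤ q (T x) / 2) :
    Function.Surjective (T + P) ∧ ∀ x, q (T x) ≤ 2 * q ((T + P) x) := by
  refine ⟨fun y => ?_, fun x => ?_⟩
  · let E := ContinuousLinearEquiv.ofBijective T (LinearMap.ker_eq_bot.2 hT.1)
      (LinearMap.range_eq_top.2 hT.2)
    let K : Rn q hq →L[ℂ] Rn q hq := -((Rn.mk hq : Y →L[ℂ] _) ∘L P ∘L (E.symm : Y →L[ℂ] X) ∘L
      ((Rn.mk hq).symm : _ →L[ℂ] Y))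
    have hK : ‖K‖ < 1 := (K.opNorm_le_bound (M := 1 / 2) (by norm_num) fun v => by
      have := hP (E.symm ((Rn.mk hq).symm v))
      rw [show T (E.symm _) = _ from E.apply_symm_apply _, Rn.p_symm] at this
      simp only [K, neg_apply, norm_neg]
      exact this.trans_eq (by ring)).trans_lt (by norm_num)
    have := congrArg (fun L => (Rn.mk hq).symm (L (Rn.mk hq y))) (Units.oneSub K hK).mul_inv
    refine ⟨E.symm ((Rn.mk hq).symm ((Units.oneSub K hK).inv (Rn.mk hq y))), ?_⟩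
    rw [add_apply, show T (E.symm _) = _ from E.apply_symm_apply _]
    simpa [K] using this
  · have := map_sub_le_add q ((T + P) x) (P x)
    rw [add_apply, add_sub_cancel_right] at this
    linarith [hP x, add_apply T P x ▸ this]

end Vale.Agent.P218W
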