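import Mathlib

/-! Weighted `ℓ²` bounds of sequences on `ℤ` and one dimensional Fourier coefficients. -/

open Set Complex Finset Filter Topology MeasureTheory
open scoped Real

noncomputable section

namespace Vale.Agent.P218W

/-- `16 ∑ (1+k²) a_k² ≤ M²` -/
structure Sq (a : ℤ → ℝ) (M : ℝ) : Prop where
  M0 : 0 ≤ M
  a0 : ∀ k, 0 ≤ a k
  le : ∀ t : Finset ℤ, 16 * ∑ k ∈ t, (1 + (k : ℝ) ^ 2) * a k ^ 2 ≤ M ^ 2

theorem sum_inv_le (t : Finset ℤ) : ∑ k ∈ t, (1 + (k : ℝ) ^ 2)⁻¹ ≤ 4 := by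
  have h : ∀ N : ℕ, ∑ k ∈ Finset.Icc (-(N + 1 : ℤ)) (N + 1), (1 + (k : ℝ) ^ 2)⁻¹ ≤
      4 - 2 / ((N : ℝ) + 1) := by
    intro N
    induction N with
    | zero =>
      have : Finset.Icc (-((0 : ℕ) + 1 : ℤ)) ((0 : ℕ) + 1) = {-1, 0, 1} := by decide
      rw [this]; norm_num
    | succ n ih =>
      have e : Finset.Icc (-((n + 1 : ℕ) + 1 : ℤ)) ((n + 1 : ℕ) + 1) =
          insert (-(n + 2 : ℤ)) (insert (n + 2 : ℤ) (Finset.Icc (-(n + 1 : ℤ)) (n + 1))) := by
        ext k; simp only [Finset.mem_Icc, Finset.mem_insert]; push_cast; omega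
      rw [e, Finset.sum_insert (by simp; omega), Finset.sum_insert (by simp)]
      have n0 : (0 : ℝ) ≤ n := n.cast_nonneg
      have : (1 + ((n : ℝ) + 2) ^ 2)⁻¹ ≤ 1 / ((n : ℝ) + 1) - 1 / ((n : ℝ) + 2) := by
        rw [div_sub_div _ _ (by positivity) (by positivity), inv_eq_one_div,
          div_le_div_iff₀ (by positivity) (by positivity)]
        nlinarith
      push_cast at ih ⊢
      rw [neg_sq, show (n : ℝ) + 1 + 1 = n + 2 by ring]
      have e1 : 2 / ((n : ℝ) + 1) = 2 * (1 / (n + 1)) := by ring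
      have e2 : 2 / ((n : ℝ) + 2) = 2 * (1 / (n + 2)) := by ring
      linarith
  obtain ⟨N, hN⟩ : ∃ N : ℕ, ∀ k ∈ t, k.natAbs ≤ N := ⟨t.sup Int.natAbs, fun k hk => Finset.le_sup hk⟩
  refine (Finset.sum_le_sum_of_subset_of_nonneg (fun k hk => ?_) fun _ _ _ => by positivity).trans
    ((h N).trans (sub_le_self _ (by positivity)))
  have := hN k hk
  rw [Finset.mem_Icc]; omega

theorem Sq.sum_le {a : ℤ → ℝ} {M : ℝ} (h : Sq a M) (t : Finset ℤ) : ∑ k ∈ t, a k ≤ M / 2 := by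
  have := Finset.sum_sq_le_sum_mul_sum_of_sq_le_mul t (r := a)
    (f := fun k => (1 + (k : ℝ) ^ 2)⁻¹) (g := fun k => (1 + (k : ℝ) ^ 2) * a k ^ 2)
    (fun _ _ => by positivity) (fun _ _ => by positivity) (fun k _ => le_of_eq (by field_simp))
  have h2 := mul_le_mul_of_nonneg_right (sum_inv_le t)
    (Finset.sum_nonneg (s := t) (f := fun k : ℤ => (1 + (k : ℝ) ^ 2) * a k ^ 2)
      fun _ _ => by positivity)
  have := h.le t
  exact abs_le_of_sq_le_sq' (by nlinarith) (by linarith [h.M0]) |>.2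

theorem Sq.summable {a : ℤ → ℝ} {M : ℝ} (h : Sq a M) : Summable a :=
  summable_of_sum_le h.a0 h.sum_le

theorem Sq.tsum_le {a : ℤ → ℝ} {M : ℝ} (h : Sq a M) : ∑' k, a k ≤ M / 2 :=
  h.summable.tsum_le_of_sum_le h.sum_le

theorem Sq.one_le {a : ℤ → ℝ} {M : ℝ} (h : Sq a M) (k : ℤ) : a k ≤ M / 2 := by
  simpa using h.sum_le {k}

theorem Sq.mono {a b : ℤ → ℝ} {M N : ℝ} (h : Sq a M) (b0 : ∀ k, 0 ≤ b k) (hb : ∀ k, b k ≤ a k)
    (hN : M ≤ N) : Sq b N :=
  ⟨h.M0.trans hN, b0, fun t => le_trans (by gcongr with k; exacts [b0 k, hb k])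
    ((h.le t).trans (by gcongr; exact h.M0))⟩

theorem Sq.smul {a : ℤ → ℝ} {M C : ℝ} (h : Sq a M) (hC : 0 ≤ C) :
    Sq (fun k => C * a k) (C * M) :=
  ⟨mul_nonneg hC h.M0, fun k => mul_nonneg hC (h.a0 k), fun t => by
    have := mul_le_mul_of_nonneg_left (h.le t) (sq_nonneg C)
    rw [mul_pow]
    refine le_trans (le_of_eq ?_) this
    simp only [Finset.mul_sum]; exact Finset.sum_congr rfl fun k _ => by ring⟩

theorem Sq.add {a b : ℤ → ℝ} {M N : ℝ} (h : Sq a M) (k : Sq b N) :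
    Sq (fun j => a j + b j) (M + N) := by
  refine ⟨add_nonneg h.M0 k.M0, fun j => add_nonneg (h.a0 j) (k.a0 j), fun t => ?_⟩
  have c := Finset.sum_sq_le_sum_mul_sum_of_sq_le_mul t
    (r := fun j : ℤ => (1 + (j : ℝ) ^ 2) * (a j * b j))
    (f := fun j => (1 + (j : ℝ) ^ 2) * a j ^ 2) (g := fun j => (1 + (j : ℝ) ^ 2) * b j ^ 2)
    (fun _ _ => by positivity) (fun _ _ => by positivity) (fun j _ => le_of_eq (by ring))
  have h1 := h.le t
  have h2 := k.le t
  have p1 : 0 ≤ ∑ j ∈ t, (1 + (j : ℝ) ^ 2) * a j ^ 2 := Finset.sum_nonneg fun _ _ => by positivity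
  have p2 : 0 ≤ ∑ j ∈ t, (1 + (j : ℝ) ^ 2) * b j ^ 2 := Finset.sum_nonneg fun _ _ => by positivity
  have c2 : 16 * ∑ j ∈ t, (1 + (j : ℝ) ^ 2) * (a j * b j) ≤ M * N := by
    refine (abs_le_of_sq_le_sq' ?_ (mul_nonneg h.M0 k.M0)).2
    have := mul_le_mul h1 h2 (by positivity) (sq_nonneg M)
    nlinarith
  have e : ∑ j ∈ t, (1 + (j : ℝ) ^ 2) * (a j + b j) ^ 2 = ∑ j ∈ t, (1 + (j : ℝ) ^ 2) * a j ^ 2 +
      2 * ∑ j ∈ t, (1 + (j : ℝ) ^ 2) * (a j * b j) + ∑ j ∈ t, (1 + (j : ℝ) ^ 2) * b j ^ 2 := by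
    rw [Finset.mul_sum, ← Finset.sum_add_distrib, ← Finset.sum_add_distrib]
    exact Finset.sum_congr rfl fun j _ => by ring
  rw [e]; nlinarith

theorem young {A b : ℤ → ℝ} {P Q : ℝ} (A0 : ∀ k, 0 ≤ A k) (b0 : ∀ k, 0 ≤ b k)
    (hA : ∀ t : Finset ℤ, ∑ k ∈ t, A k ^ 2 ≤ P) (hb : ∀ t : Finset ℤ, ∑ k ∈ t, b k ≤ Q) :
    (∀ k, Summable fun j => A j * b (k - j)) ∧
      ∀ t : Finset ℤ, ∑ k ∈ t, (∑' j, A j * b (k - j)) ^ 2 ≤ Q ^ 2 * P := by
  have Q0 : 0 ≤ Q := by simpa using hb ∅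
  have hb' : ∀ (k : ℤ) (s : Finset ℤ), ∑ j ∈ s, b (k - j) ≤ Q := fun k s => by
    rw [← Finset.sum_image (g := fun j => k - j) (f := b) fun _ _ _ _ e => sub_right_injective e]
    exact hb _
  have hb'' : ∀ (j : ℤ) (s : Finset ℤ), ∑ k ∈ s, b (k - j) ≤ Q := fun j s => by
    rw [← Finset.sum_image (g := fun k => k - j) (f := b) fun _ _ _ _ e => sub_left_injective e]
    exact hb _
  have cs : ∀ (k : ℤ) (s : Finset ℤ), (∑ j ∈ s, A j * b (k - j)) ^ 2 ≤
      Q * ∑ j ∈ s, A j ^ 2 * b (k - j) := fun k s =>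
    (Finset.sum_sq_le_sum_mul_sum_of_sq_le_mul s (f := fun j => b (k - j))
      (g := fun j => A j ^ 2 * b (k - j)) (fun _ _ => b0 _)
      (fun j _ => mul_nonneg (sq_nonneg _) (b0 _)) fun j _ => le_of_eq (by ring)).trans
      (mul_le_mul_of_nonneg_right (hb' k s)
        (Finset.sum_nonneg fun j _ => mul_nonneg (sq_nonneg _) (b0 _)))
  have key : ∀ t s : Finset ℤ, ∑ k ∈ t, (∑ j ∈ s, A j * b (k - j)) ^ 2 ≤ Q ^ 2 * P := by
    intro t s
    refine (Finset.sum_le_sum fun k _ => cs k s).trans ?_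
    rw [← Finset.mul_sum, Finset.sum_comm, sq, mul_assoc]
    refine mul_le_mul_of_nonneg_left ?_ Q0
    refine le_trans (Finset.sum_le_sum (g := fun j => Q * A j ^ 2) fun j _ => ?_) ?_
    · rw [← Finset.mul_sum, mul_comm]; exact mul_le_mul_of_nonneg_right (hb'' j t) (sq_nonneg _)
    · rw [← Finset.mul_sum]; exact mul_le_mul_of_nonneg_left (hA s) Q0
  have sm : ∀ k, Summable fun j => A j * b (k - j) := fun k =>
    summable_of_sum_le (c := √(Q ^ 2 * P)) (fun j => mul_nonneg (A0 _) (b0 _)) fun s =>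
      Real.le_sqrt_of_sq_le (by simpa using key {k} s)
  exact ⟨sm, fun t => le_of_tendsto' (tendsto_finsetSum t fun k _ => (sm k).hasSum.pow 2) (key t)⟩

/-- `⟨k⟩` -/
def br (k : ℤ) : ℝ := √(1 + (k : ℝ) ^ 2)

theorem br_sq (k : ℤ) : br k ^ 2 = 1 + (k : ℝ) ^ 2 := Real.sq_sqrt (by positivity)
theorem br_pos (k : ℤ) : 0 < br k := Real.sqrt_pos.2 (by positivity)
theorem abs_le_br (k : ℤ) : |(k : ℝ)| ≤ br k := Real.abs_le_sqrt (by linarith)

theorem br_le (k j : ℤ) : br k ≤ br j + br (k - j) := by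
  refine (abs_le_of_sq_le_sq' ?_ (add_pos (br_pos _) (br_pos _)).le).2
  have := mul_le_mul (abs_le_br j) (abs_le_br (k - j)) (abs_nonneg _) (br_pos _).le
  rw [← abs_mul] at this
  have h2 := (le_abs_self _).trans this
  rw [add_sq, br_sq, br_sq, br_sq]
  push_cast at h2 ⊢
  nlinarith

theorem Sq.br_le {a : ℤ → ℝ} {M : ℝ} (h : Sq a M) (t : Finset ℤ) :
    ∑ k ∈ t, (br k * a k) ^ 2 ≤ M ^ 2 / 16 := by
  simp only [mul_pow, br_sq]; linarith [h.le t]

theorem Sq.conv {a b : ℤ → ℝ} {M N : ℝ} (h : Sq a M) (k : Sq b N) :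
    (∀ i, Summable fun j => a j * b (i - j)) ∧ Sq (fun i => ∑' j, a j * b (i - j)) (M * N) := by
  obtain ⟨s1, y1⟩ := young (fun j => mul_nonneg (br_pos j).le (h.a0 j)) k.a0 h.br_le k.sum_le
  obtain ⟨s2, y2⟩ := young (fun j => mul_nonneg (br_pos j).le (k.a0 j)) h.a0 k.br_le h.sum_le
  have s0 : ∀ i, Summable fun j => a j * b (i - j) := fun i =>
    (h.summable.mul_right (N / 2)).of_nonneg_of_le (fun j => mul_nonneg (h.a0 _) (k.a0 _))
      fun j => mul_le_mul_of_nonneg_left (k.one_le _) (h.a0 _)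
  have p0 : ∀ i, 0 ≤ ∑' j, a j * b (i - j) := fun i =>
    tsum_nonneg fun j => mul_nonneg (h.a0 _) (k.a0 _)
  refine ⟨s0, mul_nonneg h.M0 k.M0, p0, fun t => ?_⟩
  have pt : ∀ i : ℤ, (1 + (i : ℝ) ^ 2) * (∑' j, a j * b (i - j)) ^ 2 ≤
      2 * (∑' j, br j * a j * b (i - j)) ^ 2 + 2 * (∑' j, br j * b j * a (i - j)) ^ 2 := by
    intro i
    have e := (Equiv.subLeft i).tsum_eq fun j => br j * b j * a (i - j)
    have s3 := (Equiv.subLeft i).summable_iff.2 (s2 i)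
    simp only [Function.comp_def, Equiv.subLeft_apply, sub_sub_cancel] at e s3
    have : br i * ∑' j, a j * b (i - j) ≤
        ∑' j, br j * a j * b (i - j) + ∑' j, br j * b j * a (i - j) := by
      rw [← e, ← (s1 i).tsum_add s3, ← tsum_mul_left]
      refine ((s0 i).mul_left _).tsum_le_tsum (fun j => ?_) ((s1 i).add s3)
      have := mul_le_mul_of_nonneg_right (P218W.br_le i j) (mul_nonneg (h.a0 j) (k.a0 (i - j)))
      linarith
    have h2 := pow_le_pow_left₀ (mul_nonneg (br_pos i).le (p0 i)) this 2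
    rw [mul_pow, br_sq] at h2
    nlinarith [sq_nonneg (∑' j, br j * a j * b (i - j) - ∑' j, br j * b j * a (i - j))]
  have := Finset.sum_le_sum fun i (_ : i ∈ t) => pt i
  rw [Finset.sum_add_distrib, ← Finset.mul_sum, ← Finset.mul_sum] at this
  nlinarith [y1 t, y2 t]

/-- `e^{ikθ}` -/
def ex (k : ℤ) (θ : ℝ) : ℂ := cexp (k * θ * I)

@[simp] theorem norm_ex (k : ℤ) (θ : ℝ) : ‖ex k θ‖ = 1 := by
  have := Complex.norm_exp_ofReal_mul_I (k * θ)
  push_cast at this; exact this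

@[fun_prop] theorem cont_ex (k : ℤ) : Continuous (ex k) := by unfold ex; fun_prop

theorem ex_add (k j : ℤ) (θ : ℝ) : ex (k + j) θ = ex k θ * ex j θ := by
  simp only [ex, ← Complex.exp_add]; push_cast; ring_nf

@[simp] theorem ex_zero (θ : ℝ) : ex 0 θ = 1 := by simp [ex]

theorem ex_per (k : ℤ) (θ : ℝ) : ex k (θ + 2 * π) = ex k θ := by
  have := Complex.exp_int_mul_two_pi_mul_I k
  simp only [ex]; push_cast
  rw [show k * (θ + 2 * π) * I = k * θ * I + k * (2 * π * I) by ring, Complex.exp_add, this,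
    mul_one]

theorem hasDerivAt_ex (k : ℤ) (θ : ℝ) : HasDerivAt (ex k) (k * I * ex k θ) θ := by
  have : HasDerivAt (fun θ : ℝ => (k : ℂ) * θ * I) (k * I) θ := by
    simpa using ((Complex.ofRealCLM.hasDerivAt (x := θ)).const_mul (k : ℂ)).mul_const I
  exact this.cexp.congr_deriv (by simp [ex, mul_comm])

/-- Fourier coefficient -/
def c1 (f : ℝ → ℂ) (k : ℤ) : ℂ := (2 * π : ℂ)⁻¹ * ∫ θ in (0 : ℝ)..2 * π, ex (-k) θ * f θ

theorem c1_le {f : ℝ → ℂ} {K : ℝ} (h : ∀ θ ∈ Icc 0 (2 * π), ‖f θ‖ ≤ K) (k : ℤ) :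
    ‖c1 f k‖ ≤ K := by
  have := intervalIntegral.norm_integral_le_of_norm_le_const (a := 0) (b := 2 * π) (C := K)
    (f := fun θ => ex (-k) θ * f θ) fun θ hθ => by
      rw [uIoc_of_le (by positivity)] at hθ
      simpa using h θ (Ioc_subset_Icc_self hθ)
  rw [sub_zero, abs_of_pos (by positivity)] at this
  rw [c1, norm_mul, norm_inv, show ‖(2 * π : ℂ)‖ = 2 * π by simp [abs_of_pos Real.pi_pos],
    inv_mul_le_iff₀ (by positivity)]
  linarith

theorem c1_add {f g : ℝ → ℂ} (hf : Continuous f) (hg : Continuous g) (k : ℤ) :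
    c1 (fun θ => f θ + g θ) k = c1 f k + c1 g k := by
  simp only [c1, mul_add]
  rw [intervalIntegral.integral_add (Continuous.intervalIntegrable (by fun_prop) _ _)
    (Continuous.intervalIntegrable (by fun_prop) _ _), mul_add]

theorem c1_mul (a : ℂ) (f : ℝ → ℂ) (k : ℤ) : c1 (fun θ => a * f θ) k = a * c1 f k := by
  simp only [c1, mul_left_comm _ a, intervalIntegral.integral_const_mul]

theorem c1_ex_mul (j : ℤ) (f : ℝ → ℂ) (k : ℤ) : c1 (fun θ => ex j θ * f θ) k = c1 f (k - j) := by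
  simp only [c1, ← mul_assoc, ← ex_add, neg_sub, neg_add_eq_sub]

theorem c1_one (k : ℤ) : c1 (fun _ => 1) k = if k = 0 then 1 else 0 := by
  have : (2 * π : ℂ) ≠ 0 := by simp [Real.pi_pos.ne']
  split_ifs with h
  · simp [c1, h]; field_simp
  · have e : ∀ θ : ℝ, ex (-k) θ * 1 = cexp (-k * I * θ) := fun θ => by
      simp only [ex]; push_cast; ring_nf
    have e2 := ex_per (-k) 0
    simp only [ex, zero_add] at e2
    simp only [c1, e]
    rw [integral_exp_mul_complex (by simp [h])]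
    push_cast at e2 ⊢
    rw [show -k * I * (2 * π) = -k * (2 * π) * I by ring, e2]; simp

theorem c1_ex (j k : ℤ) : c1 (ex j) k = if k = j then 1 else 0 := by
  have := c1_ex_mul j (fun _ => 1) k
  simp only [mul_one, c1_one, sub_eq_zero] at this; exact this

theorem c1_hasSum {F : ℤ → ℝ → ℂ} {f : ℝ → ℂ} {b : ℤ → ℝ} (c : ∀ j, Continuous (F j))
    (hb : ∀ j, ∀ θ ∈ Icc 0 (2 * π), ‖F j θ‖ ≤ b j) (sb : Summable b)
    (h : ∀ θ, HasSum (fun j => F j θ) (f θ)) (k : ℤ) : HasSum (fun j => c1 (F j) k) (c1 f k) :=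
  (intervalIntegral.hasSum_integral_of_dominated_convergence (fun j _ => b j)
    (fun j => Continuous.aestronglyMeasurable (by fun_prop))
    (fun j => .of_forall fun θ hθ => by
      rw [uIoc_of_le (by positivity)] at hθ
      simpa using hb j θ (Ioc_subset_Icc_self hθ))
    (.of_forall fun _ _ => sb) intervalIntegrable_const
    (.of_forall fun θ _ => (h θ).mul_left (ex (-k) θ))).mul_left _

theorem c1_syn {a : ℤ → ℂ} (h : Summable fun j => ‖a j‖) (k : ℤ) :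
    c1 (fun θ => ∑' j, a j * ex j θ) k = a k := by
  have := c1_hasSum (F := fun j θ => a j * ex j θ) (fun j => by fun_prop) (fun j θ _ => by simp) h
    (fun θ => (Summable.of_norm (by simpa using h)).hasSum) k
  simp only [c1_mul, c1_ex] at this
  refine this.unique ?_
  convert hasSum_ite_eq k (a k) using 2 with j
  by_cases e : j = k
  · simp [e]
  · simp [e, Ne.symm e]

theorem hasSum_c1 {f : ℝ → ℂ} (c : Continuous f) (p : ∀ θ, f (θ + 2 * π) = f θ)
    (h : Summable fun k => ‖c1 f k‖) (θ : ℝ) : HasSum (fun k => c1 f k * ex k θ) (f θ) := by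
  have : Fact (0 < 2 * π) := ⟨by positivity⟩
  have p' : Function.Periodic f (2 * π) := p
  let F : C(AddCircle (2 * π), ℂ) := ⟨p'.lift, c.quotient_liftOn' _⟩
  have fo : ∀ (k : ℤ) (x : ℝ), fourier k (x : AddCircle (2 * π)) = ex k x := fun k x => by
    rw [fourier_coe_apply, ex]; congr 1; push_cast
    have : (π : ℂ) ≠ 0 := by simp [Real.pi_pos.ne']
    field_simp
  have e : ∀ k, fourierCoeff F k = c1 f k := fun k => by
    rw [fourierCoeff_eq_intervalIntegral _ _ 0, zero_add, c1]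
    simp only [fo, smul_eq_mul, Complex.real_smul]; push_cast
    rw [one_div]; rfl
  have := has_pointwise_sum_fourier_series_of_summable (f := F)
    (.of_norm (by simpa only [e] using h)) θ
  simp only [e, fo, smul_eq_mul] at this
  exact this

theorem c1_prod {f g : ℝ → ℂ} (c : Continuous f) (p : ∀ θ, f (θ + 2 * π) = f θ)
    (h : Summable fun k => ‖c1 f k‖) (cg : Continuous g) (k : ℤ) :
    HasSum (fun j => c1 f j * c1 g (k - j)) (c1 (fun θ => f θ * g θ) k) := by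
  obtain ⟨K, hK⟩ := (isCompact_Icc (a := 0) (b := 2 * π)).exists_bound_of_continuousOn
    cg.continuousOn
  have := c1_hasSum (F := fun j θ => c1 f j * (ex j θ * g θ)) (fun j => by fun_prop)
    (fun j θ hθ => by
      simpa using mul_le_mul_of_nonneg_left (hK θ hθ) (norm_nonneg (c1 f j))) (h.mul_right K)
    (fun θ => by simpa only [mul_assoc] using (hasSum_c1 c p h θ).mul_right (g θ)) k
  simpa only [c1_mul, c1_ex_mul] using this

/-- integration by parts -/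
theorem c1_deriv {f f' : ℝ → ℂ} (d : ∀ θ, HasDerivAt f (f' θ) θ) (c : Continuous f')
    (p : f (2 * π) = f 0) (k : ℤ) : c1 f' k = k * I * c1 f k := by
  have := intervalIntegral.integral_mul_deriv_eq_deriv_mul (a := 0) (b := 2 * π)
    (fun θ _ => hasDerivAt_ex (-k) θ) (fun θ _ => d θ)
    (Continuous.intervalIntegrable (by fun_prop) _ _) (c.intervalIntegrable _ _)
  have e := ex_per (-k) 0
  rw [zero_add] at e
  simp only [c1, this, p, e, mul_assoc, intervalIntegral.integral_const_mul]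
  push_cast; ring

end Vale.Agent.P218W
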